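import Vale.Agent.P017.H185.Crit
import Vale.Agent.P017.H185.Red

/-!
# The rational points of `y² = x (x + 16) (x + 25)` and of two isogenous models
-/

set_option linter.all false

namespace Vale.Agent.Q017B

open Vale.Agent.P017.H185

/-- the `2`-adic valuation -/
noncomputable abbrev v2 : Valuation ℚ (WithZero (Multiplicative ℤ)) := Rat.padicValuation 2

theorem v2_int (n : ℤ) : v2 (n : ℚ) ≤ 1 := by
  rw [Rat.padicValuation_cast]; exact Int.padicValuation_le_one 2 n

theorem v2_odd {n : ℤ} (h : ¬ (2 : ℤ) ∣ n) : v2 (n : ℚ) = 1 := by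
  rw [Rat.padicValuation_cast]; exact Int.padicValuation_eq_one_iff.2 (by exact_mod_cast h)

theorem v2_even {n : ℤ} (h : (2 : ℤ) ∣ n) : v2 (n : ℚ) < 1 := by
  rw [Rat.padicValuation_cast]; exact Int.padicValuation_lt_one_iff.2 (by exact_mod_cast h)

/-- the duplication map -/
def dbl (x : ℚ) : ℚ := (x ^ 2 - 400) ^ 2 / (4 * (x * (x + 16) * (x + 25)))

theorem v2_dbl {x : ℚ} (h : 1 < v2 x) : v2 x < v2 (dbl x) := by
  have h0 : (0 : WithZero (Multiplicative ℤ)) < v2 x := lt_trans zero_lt_one h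
  have h1 : v2 (x + 16) = v2 x :=
    Valuation.map_add_eq_of_lt_left _ (lt_of_le_of_lt (by exact_mod_cast v2_int 16) h)
  have h2 : v2 (x + 25) = v2 x :=
    Valuation.map_add_eq_of_lt_left _ (lt_of_le_of_lt (by exact_mod_cast v2_int 25) h)
  have h3 : v2 (x ^ 2 - 400) = v2 x ^ 2 := by
    rw [← map_pow]
    refine Valuation.map_sub_eq_of_lt_left _ (lt_of_le_of_lt (by exact_mod_cast v2_int 400) ?_)
    rw [map_pow]; exact one_lt_pow₀ h two_ne_zero
  have h4 : v2 (4 : ℚ) < 1 := by exact_mod_cast v2_even (n := 4) (by norm_num)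
  have h5 : (0 : WithZero (Multiplicative ℤ)) < v2 (4 : ℚ) := by
    rw [Valuation.pos_iff]; norm_num
  unfold dbl
  rw [map_div₀, map_pow, h3, map_mul, map_mul, map_mul, h1, h2,
    lt_div_iff₀ (by positivity)]
  calc v2 x * (v2 4 * (v2 x * v2 x * v2 x)) = v2 4 * (v2 x ^ 2) ^ 2 := by
        rw [← pow_mul]; simp only [pow_succ, pow_zero, one_mul, mul_comm, mul_left_comm]
    _ < 1 * (v2 x ^ 2) ^ 2 := mul_lt_mul_of_pos_right h4 (pow_pos (pow_pos h0 2) 2)
    _ = _ := one_mul _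

theorem int_step {A B C n : ℤ} (hn : ¬ (2 : ℤ) ∣ n) (hB : B ^ 2 = A ^ 2 + 16 * n ^ 2)
    (hC : C ^ 2 = A ^ 2 + 25 * n ^ 2) : (16 : ℤ) ∣ A ∧ (4 : ℤ) ∣ B := by
  have key : ∀ a c m : ℤ, ¬ (2 : ℤ) ∣ m → c ^ 2 = a ^ 2 + m ^ 2 → (4 : ℤ) ∣ a := by
    intro a c m hm h
    have h8 : ∀ a c m : ZMod 8, m = 1 ∨ m = 3 ∨ m = 5 ∨ m = 7 → c ^ 2 = a ^ 2 + m ^ 2 →
        a = 0 ∨ a = 4 := by decide
    have hm' : (m : ZMod 8) = 1 ∨ (m : ZMod 8) = 3 ∨ (m : ZMod 8) = 5 ∨ (m : ZMod 8) = 7 := by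
      have : m % 8 = 1 ∨ m % 8 = 3 ∨ m % 8 = 5 ∨ m % 8 = 7 := by omega
      rcases this with k | k | k | k
      · left; exact_mod_cast (ZMod.intCast_eq_intCast_iff' m 1 8).2 (by simpa using k)
      · right; left; exact_mod_cast (ZMod.intCast_eq_intCast_iff' m 3 8).2 (by simpa using k)
      · right; right; left; exact_mod_cast (ZMod.intCast_eq_intCast_iff' m 5 8).2 (by simpa using k)
      · right; right; right; exact_mod_cast (ZMod.intCast_eq_intCast_iff' m 7 8).2 (by simpa using k)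
    rcases h8 a c m hm' (by exact_mod_cast congrArg (Int.cast : ℤ → ZMod 8) h) with k | k
    · have := (ZMod.intCast_eq_intCast_iff' a 0 8).1 (by exact_mod_cast k)
      simp at this; omega
    · have := (ZMod.intCast_eq_intCast_iff' a 4 8).1 (by exact_mod_cast k)
      simp at this; omega
  obtain ⟨A', rfl⟩ := key A C (5 * n) (by omega) (by rw [hC]; ring)
  have h4 : (4 : ℤ) ∣ B := by
    have : (4 : ℤ) ^ 2 ∣ B ^ 2 := ⟨A' ^ 2 + n ^ 2, by rw [hB]; ring⟩
    exact (Int.pow_dvd_pow_iff two_ne_zero).1 this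
  obtain ⟨B', rfl⟩ := h4
  obtain ⟨A'', rfl⟩ := key A' B' n hn (by nlinarith)
  exact ⟨⟨A'', by ring⟩, ⟨B', rfl⟩⟩

theorem v2_sq {a : ℚ} (h : v2 (a ^ 2) ≤ 1) : ¬ 2 ∣ a.den := by
  rw [map_pow] at h
  exact Rat.padicValuation_le_one_iff.1 (by
    by_contra k
    exact absurd h (not_le.2 (one_lt_pow₀ (not_le.1 k) two_ne_zero)))

theorem v2_dbl_sq {r a b c : ℚ} (ha : r = a ^ 2) (hb : r + 16 = b ^ 2) (hc : r + 25 = c ^ 2)
    (h0 : a ≠ 0) (h : v2 r ≤ 1) : 1 < v2 (dbl r) := by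
  have h1 := v2_sq (ha ▸ h)
  have h2 : ¬ 2 ∣ b.den := v2_sq (hb ▸ Valuation.map_add_le _ h (by exact_mod_cast v2_int 16))
  have h3 : ¬ 2 ∣ c.den := v2_sq (hc ▸ Valuation.map_add_le _ h (by exact_mod_cast v2_int 25))
  obtain ⟨n, hn⟩ : ∃ n : ℤ, n = a.den * b.den * c.den := ⟨_, rfl⟩
  have hn2 : ¬ (2 : ℤ) ∣ n := by
    rw [hn]
    intro k
    rcases (Int.prime_two.dvd_mul).1 k with k | k
    · rcases (Int.prime_two.dvd_mul).1 k with k | k
      · exact h1 (by exact_mod_cast k)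
      · exact h2 (by exact_mod_cast k)
    · exact h3 (by exact_mod_cast k)
  have hn0 : (n : ℚ) ≠ 0 := by
    have : n ≠ 0 := by rintro rfl; exact hn2 (dvd_zero _)
    exact_mod_cast this
  have eA : ((a.num * b.den * c.den : ℤ) : ℚ) = a * n := by
    rw [hn]; push_cast; rw [← Rat.mul_den_eq_num a]; ring
  have eB : ((b.num * a.den * c.den : ℤ) : ℚ) = b * n := by
    rw [hn]; push_cast; rw [← Rat.mul_den_eq_num b]; ring
  have eC : ((c.num * a.den * b.den : ℤ) : ℚ) = c * n := by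
    rw [hn]; push_cast; rw [← Rat.mul_den_eq_num c]; ring
  generalize a.num * b.den * c.den = A at eA
  generalize b.num * a.den * c.den = B at eB
  generalize c.num * a.den * b.den = C at eC
  have kB : B ^ 2 = A ^ 2 + 16 * n ^ 2 := by
    have : ((B ^ 2 : ℤ) : ℚ) = (A ^ 2 + 16 * n ^ 2 : ℤ) := by
      push_cast; rw [eA, eB, mul_pow, mul_pow, ← hb, ← ha]; ring
    exact_mod_cast this
  have kC : C ^ 2 = A ^ 2 + 25 * n ^ 2 := by
    have : ((C ^ 2 : ℤ) : ℚ) = (A ^ 2 + 25 * n ^ 2 : ℤ) := by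
      push_cast; rw [eA, eC, mul_pow, mul_pow, ← hc, ← ha]; ring
    exact_mod_cast this
  obtain ⟨⟨A', rfl⟩, ⟨B', rfl⟩⟩ := int_step hn2 kB kC
  have hr : 0 < r := by rw [ha]; positivity
  have hb0 : b ≠ 0 := by rintro rfl; linarith [show (0 : ℚ) ^ 2 = 0 by ring]
  have hc0 : c ≠ 0 := by rintro rfl; linarith [show (0 : ℚ) ^ 2 = 0 by ring]
  have e : dbl r * ((8 * A' * B' * C * n : ℤ) : ℚ) ^ 2 = ((4096 * A' ^ 4 - 25 * n ^ 4 : ℤ) : ℚ) ^ 2 := by
    have a1 : (A' : ℚ) = a * n / 16 := by push_cast at eA; linarith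
    have b1 : (B' : ℚ) = b * n / 4 := by push_cast at eB; linarith
    unfold dbl
    rw [hb, hc]
    push_cast
    rw [a1, b1, eC, ha]
    field_simp
    ring
  by_contra k
  have k1 := congrArg v2 e
  rw [map_mul, map_pow, map_pow, v2_odd (n := 4096 * A' ^ 4 - 25 * n ^ 4), one_pow] at k1
  · have k2 : v2 ((8 * A' * B' * C * n : ℤ) : ℚ) < 1 :=
      v2_even ⟨4 * A' * B' * C * n, by ring⟩
    have k3 : v2 (dbl r) * v2 ((8 * A' * B' * C * n : ℤ) : ℚ) ^ 2 < 1 :=
      mul_lt_one_of_nonneg_of_lt_one_right (not_lt.1 k) zero_le (pow_lt_one₀ zero_le k2 two_ne_zero)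
    exact absurd k1 k3.ne
  · intro k
    have k2 : (2 : ℤ) ∣ 25 * n ^ 4 := by
      have := dvd_sub (⟨2048 * A' ^ 4, by ring⟩ : (2 : ℤ) ∣ 4096 * A' ^ 4) k
      simpa using this
    rcases (Int.prime_two.dvd_mul).1 k2 with k | k
    · omega
    · exact hn2 (Int.prime_two.dvd_of_dvd_pow k)

theorem no_sq {s : ℚ} {n : ℕ} (hn : ¬ IsSquare n) : s ^ 2 ≠ n := by
  intro h
  apply hn
  rw [← Rat.isSquare_natCast_iff]
  exact ⟨s, by rw [← h]; ring⟩

theorem not_sq_five (s : ℚ) : s ^ 2 ≠ 5 := by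
  exact_mod_cast no_sq (s := s) (n := 5) (by decide +kernel)

/-- **the rational points of `15a1`** -/
theorem rat15 {x y : ℚ} (h : y ^ 2 = x * (x + 16) * (x + 25)) :
    x = 0 ∨ x = -16 ∨ x = -25 ∨ x = 20 ∨ x = -20 := by
  by_contra hx
  let S : Set ℚ := {x | (∃ y : ℚ, y ^ 2 = x * (x + 16) * (x + 25)) ∧
    ¬ (x = 0 ∨ x = -16 ∨ x = -25 ∨ x = 20 ∨ x = -20)}
  have hS : S.Finite := by
    refine ((sol_finite m1 finite_EQ').image Prod.fst).subset ?_
    rintro x ⟨⟨y, hy⟩, -⟩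
    exact ⟨(x, y), by simp only [Set.mem_setOf_eq]; rw [hy]; ring, rfl⟩
  have key : ∀ x ∈ S, dbl x ∈ S ∧ ∃ a b c : ℚ, a ≠ 0 ∧ dbl x = a ^ 2 ∧ dbl x + 16 = b ^ 2 ∧
      dbl x + 25 = c ^ 2 := by
    rintro x ⟨⟨y, hy⟩, hx⟩
    push Not at hx
    obtain ⟨h1, h2, h3, h4, h5⟩ := hx
    have hy0 : y ≠ 0 := by
      rintro rfl
      have : x * (x + 16) * (x + 25) ≠ 0 :=
        mul_ne_zero (mul_ne_zero h1 (fun k => h2 (by linarith))) (fun k => h3 (by linarith))
      exact this (by rw [← hy]; ring)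
    have ha : dbl x = ((x ^ 2 - 400) / (2 * y)) ^ 2 := by
      unfold dbl; rw [← hy]; field_simp; norm_num
    have hb : dbl x + 16 = (((x + 16) ^ 2 + 144) / (2 * y)) ^ 2 := by
      rw [ha]; field_simp; linear_combination 64 * hy
    have hc : dbl x + 25 = (((x + 25) ^ 2 - 225) / (2 * y)) ^ 2 := by
      rw [ha]; field_simp; linear_combination 100 * hy
    have ha0 : (x ^ 2 - 400) / (2 * y) ≠ 0 := by
      refine div_ne_zero (fun k => ?_) (by positivity)
      have : (x - 20) * (x + 20) = 0 := by linarith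
      rcases mul_eq_zero.1 this with k | k
      · exact h4 (by linarith)
      · exact h5 (by linarith)
    refine ⟨⟨⟨(x ^ 2 - 400) / (2 * y) * (((x + 16) ^ 2 + 144) / (2 * y)) *
      (((x + 25) ^ 2 - 225) / (2 * y)), by rw [hb, hc, mul_pow, mul_pow, ← ha]⟩, ?_⟩,
      _, _, _, ha0, ha, hb, hc⟩
    have hp : 0 < dbl x := by rw [ha]; positivity
    rintro (k | k | k | k | k)
    · linarith
    · linarith
    · linarith
    · exact not_sq_five ((x ^ 2 - 400) / (2 * y) / 2) (by rw [div_pow, ← ha, k]; norm_num)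
    · linarith
  obtain ⟨x₀, h0, hmax⟩ := hS.exists_maximalFor v2 S ⟨x, ⟨y, h⟩, hx⟩
  by_cases k : 1 < v2 x₀
  · have := v2_dbl k
    exact absurd (hmax (key x₀ h0).1 this.le) (not_le.2 this)
  · obtain ⟨k1, a, b, c, k2, k3, k4, k5⟩ := key x₀ h0
    have k6 : ∀ z ∈ S, v2 z ≤ 1 := fun z hz => by
      rcases le_total (v2 z) (v2 x₀) with j | j
      · exact j.trans (not_lt.1 k)
      · exact (hmax hz j).trans (not_lt.1 k)
    exact absurd (k6 _ (key _ k1).1) (not_le.2 (v2_dbl_sq k3 k4 k5 k2 (k6 _ k1)))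

/-- **the rational points of `15a3`** -/
theorem rat15' {x y : ℚ} (h : y ^ 2 = x * (x + 1) * (x + 16)) :
    x = 0 ∨ x = -1 ∨ x = -16 ∨ x = 4 ∨ x = -4 := by
  by_cases hx : x = 0
  · exact Or.inl hx
  have h1 := rat15 (x := (y / x) ^ 2 - 25) (y := y / x * (x - 16 / x)) (by
    have : (y / x) ^ 2 = x + 17 + 16 / x := by field_simp; linear_combination h
    rw [mul_pow, this]; field_simp; ring)
  have h2 : (y / x) ^ 2 = x + 17 + 16 / x := by field_simp; linear_combination h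
  rcases h1 with k | k | k | k | k
  · have : (x - 4) ^ 2 = 0 := by
      have : x + 17 + 16 / x = 25 := by linarith
      field_simp at this; linarith
    right; right; right; left
    have := pow_eq_zero_iff two_ne_zero |>.1 this; linarith
  · have : (x + 4) ^ 2 = 0 := by
      have : x + 17 + 16 / x = 9 := by linarith
      field_simp at this; linarith
    right; right; right; right
    have := pow_eq_zero_iff two_ne_zero |>.1 this; linarith
  · have : (x + 1) * (x + 16) = 0 := by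
      have : x + 17 + 16 / x = 0 := by linarith
      field_simp at this; linarith
    rcases mul_eq_zero.1 this with k | k
    · right; left; linarith
    · right; right; left; linarith
  · exact absurd (show (y / x / 3) ^ 2 = 5 by rw [div_pow]; linarith) (not_sq_five _)
  · exact absurd (show (y / x) ^ 2 = 5 by linarith) (not_sq_five _)

/-- **the rational points of the cubic model of `X(s3,b5)`** -/
theorem ratC {u m : ℚ} (h : (u ^ 2 + u + 5) * m = u * (m ^ 2 + 3)) :
    (u = 0 ∧ m = 0) ∨ ((u = -2 ∨ u = -5 / 2) ∧ (m = -2 ∨ m = -3 / 2)) := by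
  by_cases hu : u = 0
  · left; subst hu; exact ⟨rfl, by linarith⟩
  right
  have hq : u ^ 2 * (u * m - 3) + u * m * u + u * m * (5 - u * m) = 0 := by
    linear_combination u * h
  have h1 := rat15' (x := 4 * (u * m) - 16) (y := 4 * (2 * u * (u * m - 3) + u * m)) (by
    linear_combination 64 * (u * m - 3) * hq)
  have hu' : u = -2 ∨ u = -5 / 2 := by
    rcases h1 with k | k | k | k | k
    · have e : u * m = 4 := by linarith
      rw [e] at hq
      have : (u + 2) ^ 2 = 0 := by linarith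
      left; have := pow_eq_zero_iff two_ne_zero |>.1 this; linarith
    · have e : u * m = 15 / 4 := by linarith
      rw [e] at hq
      have : (u + 5 / 2) ^ 2 = 0 := by linarith
      right; have := pow_eq_zero_iff two_ne_zero |>.1 this; linarith
    · have e : u * m = 0 := by linarith
      rw [e] at hq
      exact absurd (pow_eq_zero_iff two_ne_zero |>.1 (by linarith : u ^ 2 = 0)) hu
    · have e : u * m = 5 := by linarith
      rw [e] at hq
      have : u * (2 * u + 5) = 0 := by linarith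
      rcases mul_eq_zero.1 this with k | k
      · exact absurd k hu
      · right; linarith
    · have e : u * m = 3 := by linarith
      rw [e] at hq
      left; linarith
  refine ⟨hu', ?_⟩
  have : (m + 2) * (2 * m + 3) = 0 := by
    rcases hu' with k | k <;> rw [k] at h <;> linarith
  rcases mul_eq_zero.1 this with k | k
  · left; linarith
  · right; linarith

end Vale.Agent.Q017B
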