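import Mathlib

/-!
# Tools for quadratic fields: lines, real roots, valuations, integrality of coefficients
-/

set_option linter.all false

namespace Vale.Agent.Q017B

open NumberField IsDedekindDomain Polynomial

section val
variable {K : Type*} [Field K] {Γ : Type*} [LinearOrderedCommGroupWithZero Γ] (w : Valuation K Γ)

theorem w_nat (n : ℕ) : w (n : K) ≤ 1 := by
  induction n with
  | zero => simp
  | succ n ih => rw [Nat.cast_succ]; exact w.map_add_le ih (by simp)

theorem w_int (n : ℤ) : w (n : K) ≤ 1 := by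
  obtain ⟨m, rfl | rfl⟩ := n.eq_nat_or_neg
  · simpa using w_nat w m
  · simpa using w_nat w m

/-- an integer prime to `p` is a unit if `w p < 1` -/
theorem w_unit {p : ℕ} (hp : p.Prime) (h : w (p : K) < 1) {n : ℤ} (hn : ¬ (p : ℤ) ∣ n) :
    w (n : K) = 1 := by
  have hc : IsCoprime (p : ℤ) n := (Nat.prime_iff_prime_int.1 hp).irreducible.coprime_iff_not_dvd.2 hn
  obtain ⟨a, b, hab⟩ := hc
  refine le_antisymm (w_int w n) (not_lt.1 fun k => ?_)
  have h1 : w ((a : K) * p + b * n) < 1 := by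
    refine w.map_add_lt ?_ ?_ <;> rw [map_mul]
    · exact mul_lt_one_of_nonneg_of_lt_one_right (w_int w a) zero_le h
    · exact mul_lt_one_of_nonneg_of_lt_one_right (w_int w b) zero_le k
  have h2 : ((a : K) * p + b * n) = 1 := by exact_mod_cast congrArg (Int.cast : ℤ → K) hab
  rw [h2, map_one] at h1
  exact lt_irrefl _ h1

theorem w_dvd {p : ℕ} {n : ℤ} (hn : (p : ℤ) ∣ n) : w (n : K) ≤ w (p : K) := by
  obtain ⟨k, rfl⟩ := hn
  push_cast
  rw [map_mul]
  exact mul_le_of_le_one_right zero_le (w_int w k)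

end val

section quad
variable {K : Type*} [Field K] [NumberField K] [Algebra.IsQuadraticExtension ℚ K]

theorem dep3 (x y : K) : ∃ a b c : ℚ, ¬ (a = 0 ∧ b = 0 ∧ c = 0) ∧ (a : K) + b * x + c * y = 0 := by
  have h : ¬ LinearIndependent ℚ ![(1 : K), x, y] := fun h => by
    have := h.fintype_card_le_finrank
    rw [Algebra.IsQuadraticExtension.finrank_eq_two ℚ K] at this
    simp at this
  rw [Fintype.not_linearIndependent_iff] at h
  obtain ⟨g, h1, i, hi⟩ := h
  refine ⟨g 0, g 1, g 2, ?_, ?_⟩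
  · rintro ⟨a, b, c⟩
    fin_cases i <;> simp_all
  · simpa [Fin.sum_univ_three, Algebra.smul_def] using h1

/-- `1, x` is a basis -/
theorem line {x : K} (hx : ¬ ∃ q : ℚ, x = q) (y : K) : ∃ a b : ℚ, y = a * x + b := by
  obtain ⟨a, b, c, h0, h⟩ := dep3 x y
  have hc : c ≠ 0 := by
    rintro rfl
    have hb : b ≠ 0 := by
      rintro rfl
      apply h0
      simpa using h
    have hb' : (b : K) ≠ 0 := by exact_mod_cast hb
    exact hx ⟨-a / b, by push_cast; field_simp; simpa [add_eq_zero_iff_eq_neg', mul_comm] using h⟩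
  have hc' : (c : K) ≠ 0 := by exact_mod_cast hc
  exact ⟨-b / c, -a / c, by push_cast; field_simp; linear_combination h⟩

omit [Algebra.IsQuadraticExtension ℚ K] in
theorem indep {x : K} (hx : ¬ ∃ q : ℚ, x = q) {a b : ℚ} (h : (a : K) * x + b = 0) :
    a = 0 ∧ b = 0 := by
  have ha : a = 0 := by
    by_contra k
    have k' : (a : K) ≠ 0 := by exact_mod_cast k
    exact hx ⟨-b / a, by push_cast; field_simp; linear_combination h⟩
  subst ha
  exact ⟨rfl, by simpa using h⟩

/-- integer relations with a coefficient prime to `p` -/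
theorem dep3_int (p : ℕ) (hp : p.Prime) (x y : K) : ∃ a b c : ℤ,
    ¬ ((p : ℤ) ∣ a ∧ (p : ℤ) ∣ b ∧ (p : ℤ) ∣ c) ∧ (a : K) + b * x + c * y = 0 := by
  have key : ∀ (n : ℕ) (a b c : ℤ), a.natAbs + b.natAbs + c.natAbs ≤ n →
      ¬ (a = 0 ∧ b = 0 ∧ c = 0) → (a : K) + b * x + c * y = 0 → ∃ a b c : ℤ,
      ¬ ((p : ℤ) ∣ a ∧ (p : ℤ) ∣ b ∧ (p : ℤ) ∣ c) ∧ (a : K) + b * x + c * y = 0 := by
    intro n
    induction n with
    | zero => intro a b c h h0; exact absurd ⟨by omega, by omega, by omega⟩ h0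
    | succ n ih =>
      intro a b c h h0 he
      by_cases k : (p : ℤ) ∣ a ∧ (p : ℤ) ∣ b ∧ (p : ℤ) ∣ c
      · obtain ⟨⟨a, rfl⟩, ⟨b, rfl⟩, ⟨c, rfl⟩⟩ := k
        have hp0 : (p : K) ≠ 0 := by exact_mod_cast hp.ne_zero
        have h2 := hp.two_le
        have h0' : ¬ (a = 0 ∧ b = 0 ∧ c = 0) := by
          rintro ⟨rfl, rfl, rfl⟩; simp at h0
        refine ih a b c ?_ h0' ?_
        · simp only [Int.natAbs_mul, Int.natAbs_natCast] at h
          have : 0 < a.natAbs + b.natAbs + c.natAbs := by omega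
          nlinarith
        · apply mul_left_cancel₀ hp0
          push_cast at he
          linear_combination he
      · exact ⟨a, b, c, k, he⟩
  obtain ⟨a, b, c, h0, h⟩ := dep3 x y
  refine key _ (a.num * b.den * c.den) (b.num * a.den * c.den) (c.num * a.den * b.den) le_rfl ?_ ?_
  · rintro ⟨h1, h2, h3⟩
    simp only [mul_eq_zero, Int.natCast_eq_zero, Rat.den_ne_zero, or_false, Rat.num_eq_zero]
      at h1 h2 h3
    exact h0 ⟨h1, h2, h3⟩
  · have ea : (a.num : K) = a * a.den := by exact_mod_cast congrArg (Rat.cast : ℚ → K) (Rat.mul_den_eq_num a).symm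
    have eb : (b.num : K) = b * b.den := by exact_mod_cast congrArg (Rat.cast : ℚ → K) (Rat.mul_den_eq_num b).symm
    have ec : (c.num : K) = c * c.den := by exact_mod_cast congrArg (Rat.cast : ℚ → K) (Rat.mul_den_eq_num c).symm
    push_cast
    rw [ea, eb, ec]
    linear_combination ((a.den : K) * b.den * c.den) * h

/-- the third root of a rational cubic -/
theorem third_root {u : K} (hu : ¬ ∃ q : ℚ, u = q) {g3 g2 g1 g0 : ℚ} (h3 : g3 ≠ 0)
    (h : (g3 : K) * u ^ 3 + g2 * u ^ 2 + g1 * u + g0 = 0) :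
    ∃ r : ℚ, g3 * r ^ 3 + g2 * r ^ 2 + g1 * r + g0 = 0 := by
  obtain ⟨p, q, hpq⟩ := line hu (u ^ 2)
  have k := indep hu (a := g3 * (p ^ 2 + q) + g2 * p + g1) (b := g3 * p * q + g2 * q + g0) (by
    push_cast
    linear_combination h - ((g3 : K) * u + g2 + p * g3) * hpq)
  refine ⟨-(g2 + p * g3) / g3, ?_⟩
  have e1 : g1 = -(g3 * (p ^ 2 + q) + g2 * p) := by linarith [k.1]
  have e0 : g0 = -(g3 * p * q + g2 * q) := by linarith [k.2]
  rw [e1, e0]
  field_simp
  ring

variable [IsTotallyComplex K]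

/-- a square root of a nonnegative rational number is rational -/
theorem real_rat {z : K} {D : ℚ} (hD : 0 ≤ D) (h : z ^ 2 = D) : ∃ q : ℚ, z = q := by
  by_contra hz
  obtain ⟨φ⟩ : Nonempty (K →+* ℂ) := inferInstance
  apply IsTotallyComplex.complexEmbedding_not_isReal φ
  have h1 : φ z ^ 2 = ((D : ℝ) : ℂ) := by rw [← map_pow, h]; simp
  have h2 : (φ z).im = 0 := by
    have a1 := congrArg Complex.re h1
    have a2 := congrArg Complex.im h1
    simp only [pow_two, Complex.mul_re, Complex.mul_im, Complex.ofReal_re, Complex.ofReal_im]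
      at a1 a2
    have hD' : (0 : ℝ) ≤ D := by exact_mod_cast hD
    by_contra k
    have : (φ z).re = 0 := by
      have : (φ z).re * (φ z).im = 0 := by linarith
      exact (mul_eq_zero.1 this).resolve_right k
    rw [this] at a1
    have : 0 < (φ z).im * (φ z).im := mul_self_pos.2 k
    linarith
  rw [ComplexEmbedding.isReal_iff]
  ext y
  obtain ⟨a, b, rfl⟩ := line hz y
  rw [ComplexEmbedding.conjugate_coe_eq, Complex.conj_eq_iff_im]
  simp [h2]

/-- a root of a rational quadratic with nonnegative discriminant is rational -/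
theorem quad_rat {x : K} {A B C : ℚ} (hA : A ≠ 0) (hD : 0 ≤ B ^ 2 - 4 * A * C)
    (h : (A : K) * x ^ 2 + B * x + C = 0) : ∃ q : ℚ, x = q := by
  obtain ⟨q, hq⟩ := real_rat (z := 2 * A * x + B) hD (by push_cast; linear_combination 4 * (A : K) * h)
  have hA' : (A : K) ≠ 0 := by exact_mod_cast hA
  exact ⟨(q - B) / (2 * A), by push_cast; field_simp; linear_combination hq⟩

end quad

section int
variable {K : Type*} [Field K] [NumberField K]

theorem lt_one_iff (v : HeightOneSpectrum (𝓞 K)) (p : ℕ) :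
    v.valuation K (p : K) < 1 ↔ (p : 𝓞 K) ∈ v.asIdeal := by
  rw [← HeightOneSpectrum.valuation_lt_one_iff_mem (K := K)]
  simp

/-- the coefficients of the minimal polynomial are integral at `l` -/
theorem coeffs {x : K} (hx : ¬ ∃ q : ℚ, x = q) {b c : ℚ} (h : x ^ 2 + b * x + c = 0)
    {l : ℕ} (hl : l.Prime)
    (hv : ∀ v : HeightOneSpectrum (𝓞 K), (l : 𝓞 K) ∈ v.asIdeal → v.valuation K x ≤ 1) :
    ¬ l ∣ b.den ∧ ¬ l ∣ c.den := by
  have halg : IsAlgebraic ℤ x := (IsFractionRing.isAlgebraic_iff ℤ ℚ K).2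
    (Algebra.IsAlgebraic.isAlgebraic x)
  obtain ⟨d, hd0, hd⟩ := halg.exists_integral_multiple
  obtain ⟨k, e, he, hde⟩ := Nat.exists_eq_pow_mul_and_not_dvd (Int.natAbs_ne_zero.2 hd0) l hl.ne_one
  have hd' : IsIntegral ℤ (((l ^ k * e : ℕ) : K) * x) := by
    rw [← hde]
    rcases Int.natAbs_eq d with j | j
    · have : ((d.natAbs : ℕ) : K) = (d : K) := by
        conv_rhs => rw [j]
        simp
      rw [this]; simpa [Algebra.smul_def] using hd
    · have : ((d.natAbs : ℕ) : K) = -(d : K) := by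
        conv_rhs => rw [j]
        simp
      rw [this, neg_mul]; simpa [Algebra.smul_def] using hd.neg
  have hy : IsIntegral ℤ ((e : K) * x) := by
    obtain ⟨y, hy⟩ := HeightOneSpectrum.mem_integers_of_valuation_le_one (R := 𝓞 K) K ((e : K) * x)
      fun v => by
        by_cases hm : (l : 𝓞 K) ∈ v.asIdeal
        · rw [map_mul]
          exact mul_le_one' (w_nat _ e) (hv v hm)
        · have h1 : v.valuation K (l : K) = 1 :=
            le_antisymm (w_nat _ l) (not_lt.1 fun j => hm ((lt_one_iff v l).1 j))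
          have h2 := v.valuation_le_one (K := K) (⟨_, hd'⟩ : 𝓞 K)
          change v.valuation K (((l ^ k * e : ℕ) : K) * x) ≤ 1 at h2
          rw [Nat.cast_mul, Nat.cast_pow, mul_assoc, map_mul, map_pow, h1, one_pow, one_mul] at h2
          exact h2
    rw [← hy]
    exact y.2
  have he0 : (e : ℚ) ≠ 0 := by
    have : e ≠ 0 := by rintro rfl; exact he (dvd_zero _)
    exact_mod_cast this
  have hP : minpoly ℚ ((e : K) * x) = X ^ 2 + C (e * b) * X + C (e ^ 2 * c) := by
    have hi : IsIntegral ℚ ((e : K) * x) := hy.tower_top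
    have hm : (X ^ 2 + C (e * b) * X + C ((e : ℚ) ^ 2 * c) : ℚ[X]).Monic := by monicity!
    have hdeg : (X ^ 2 + C (e * b) * X + C ((e : ℚ) ^ 2 * c) : ℚ[X]).natDegree = 2 := by
      compute_degree!
    symm
    refine eq_of_monic_of_dvd_of_natDegree_le (minpoly.monic hi) hm (minpoly.dvd _ _ ?_) ?_
    · simp only [map_add, map_mul, map_pow, aeval_X, aeval_C, map_natCast, eq_ratCast]
      linear_combination (e : K) ^ 2 * h
    · rw [hdeg, minpoly.two_le_natDegree_iff hi]
      rintro ⟨q, hq⟩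
      have he' : (e : K) ≠ 0 := by exact_mod_cast (show e ≠ 0 by exact_mod_cast he0)
      refine hx ⟨q / e, ?_⟩
      push_cast
      field_simp
      rw [mul_comm, ← hq]; simp
  rw [minpoly.isIntegrallyClosed_eq_field_fractions' ℚ hy] at hP
  have c1 := congrArg (fun P => P.coeff 1) hP
  have c0 := congrArg (fun P => P.coeff 0) hP
  simp only [coeff_map, coeff_add, coeff_X_pow, coeff_C_mul, coeff_X, coeff_C, eq_intCast] at c1 c0
  norm_num at c1 c0
  have key : ∀ (z : ℤ) (n : ℕ) (q : ℚ), ¬ l ∣ n → (z : ℚ) = n * q → ¬ l ∣ q.den := by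
    intro z n q hn hz hq
    have h1 : z * q.den = n * q.num := by
      have : (z : ℚ) * q.den = n * q.num := by rw [hz, mul_assoc, Rat.mul_den_eq_num]
      exact_mod_cast this
    have h2 : (l : ℤ) ∣ n * q.num := h1 ▸ Dvd.dvd.mul_left (by exact_mod_cast hq) z
    rcases (Nat.prime_iff_prime_int.1 hl).dvd_or_dvd h2 with j | j
    · exact hn (by exact_mod_cast j)
    · have := Nat.dvd_gcd (Int.natCast_dvd.1 j) hq
      rw [q.reduced] at this
      exact hl.one_lt.ne' (Nat.dvd_one.1 this)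
  exact ⟨key _ e b he c1, key _ (e ^ 2) c (fun j => he (hl.dvd_of_dvd_pow j)) (by exact_mod_cast c0)⟩

end int

/-- clearing denominators -/
theorem dvd_of_den {l : ℕ} (hl : l.Prime) {x : ℚ} (hx : ¬ l ∣ x.den) {N D : ℤ} (h : x * D = N)
    (k : ℕ) (hk : (l : ℤ) ^ k ∣ D) : (l : ℤ) ^ k ∣ N := by
  have h1 : x.num * D = N * x.den := by
    have : (x.num : ℚ) * D = N * x.den := by rw [← h, ← Rat.mul_den_eq_num]; ring
    exact_mod_cast this
  have h2 : (l : ℤ) ^ k ∣ N * x.den := h1 ▸ Dvd.dvd.mul_left hk _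
  have hc : IsCoprime ((l : ℤ) ^ k) (x.den : ℤ) :=
    ((Nat.prime_iff_prime_int.1 hl).irreducible.coprime_iff_not_dvd.2
      (by exact_mod_cast hx)).pow_left
  exact hc.dvd_of_dvd_mul_right h2

end Vale.Agent.Q017B
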