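import Vale.Agent.Q017B.E

/-!
# The complete row for `X(s3,b5)`
-/

set_option linter.all false

namespace Vale.Agent.Q017B

open NumberField IsDedekindDomain Vale.Agent.Q017A

variable {K : Type*} [Field K] [NumberField K]

theorem j_R5 (x : K) : (x ^ 6 + 10 * x ^ 3 + 5) ^ 3 / x ^ 3 = R5 (x ^ 3) := by
  unfold R5; ring

/-- `u² + 5 = q u` gives a `ℚ`-curve of degree `5` -/
theorem qc5 {u : K} (hu : u ≠ 0) {q : ℚ} (h : u ^ 2 + 5 = q * u) :
    QC ((u ^ 6 + 10 * u ^ 3 + 5) ^ 3 / u ^ 3) := by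
  intro t
  rw [j_R5, show t (R5 (u ^ 3)) = R5 (t u ^ 3) by rw [← map_pow]; exact map_R5 (t : K →+* K) _]
  rcases conj_inv t hu (q := q) (c := 5) (by push_cast; field_simp; linear_combination h) with k | k <;>
    rw [k]
  · exact Rel.refl _
  · have := Rel.s5 (u ^ 3) (pow_ne_zero 3 hu)
    rwa [show (125 : K) / u ^ 3 = (((5 : ℚ) : K) / u) ^ 3 by rw [div_pow]; norm_num] at this

theorem qc_rat_u {u : K} {q : ℚ} (h : u = q) : QC ((u ^ 6 + 10 * u ^ 3 + 5) ^ 3 / u ^ 3) :=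
  QC.of_rat (q := (q ^ 6 + 10 * q ^ 3 + 5) ^ 3 / q ^ 3) (by rw [h]; push_cast; rfl)

/-- trace and norm of `j` from those of `u` -/
theorem tn_j {u : K} (hu : u ≠ 0) {T N T3 N3 a b : ℚ} (h : u ^ 2 - T * u + N = 0)
    (h1 : T3 = T ^ 3 - 3 * T * N) (h2 : N3 = N ^ 3) (h0 : N3 ≠ 0)
    (ha : a = (T3 + 10) ^ 3 * T3 + 3 * (T3 + 10) ^ 2 * (5 - N3) - (5 - N3) ^ 3 / N3)
    (hb : b = -(T3 + 10) ^ 3 * N3 + 3 * (T3 + 10) * (5 - N3) ^ 2 + (5 - N3) ^ 3 * T3 / N3) :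
    ((u ^ 6 + 10 * u ^ 3 + 5) ^ 3 / u ^ 3) ^ 2 -
      (2 * b + a * T3 : ℚ) * ((u ^ 6 + 10 * u ^ 3 + 5) ^ 3 / u ^ 3) +
      (b ^ 2 + a * b * T3 + a ^ 2 * N3 : ℚ) = 0 := by
  have e : (u ^ 3) ^ 2 - T3 * u ^ 3 + N3 = 0 := by
    rw [h1, h2]; push_cast
    linear_combination (u ^ 4 + T * u ^ 3 + (T ^ 2 - N) * u ^ 2 + T * N * u + N ^ 2) * h
  rw [j_R5]
  have hs : u ^ 3 ≠ 0 := pow_ne_zero 3 hu
  generalize u ^ 3 = s at e hs
  have h0' : (N3 : K) ≠ 0 := by exact_mod_cast h0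
  have e1 : s ^ 2 + 10 * s + 5 = (T3 + 10) * s + (5 - N3) := by linear_combination e
  have e2 : R5 s = a * s + b := by
    unfold R5
    rw [e1, ha, hb, div_eq_iff hs]
    push_cast
    field_simp
    linear_combination (N3 * (T3 + 10) ^ 3 * s + (5 - N3) ^ 3) * e
  rw [e2]
  push_cast
  linear_combination (a : K) ^ 2 * e

/-- the exceptional `j`-invariants of this row -/
def ExcB (j : K) : Prop :=
  j ^ 2 + 10595863073 / 32768 * j + 735993917749900909 / 16777216 = 0 ∨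
  j ^ 2 + 21186375087606758237 / 35184372088832 * j +
    1570325792525939337046938109 / 281474976710656 = 0 ∨
  j ^ 2 + 14061494493279872 / 1793613375 * j + 69110871581730353360896 / 1793613375 = 0 ∨
  j ^ 2 - 16656317478667648 / 823974609375 * j + 241573426180015108096 / 823974609375 = 0

theorem excB {u : K} (hu : u ≠ 0)
    (h : (2 * u ^ 2 + u + 8 = 0 ∨ 8 * u ^ 2 + 5 * u + 50 = 0) ∨
      (3 * u ^ 2 + 16 * u + 25 = 0 ∨ 5 * u ^ 2 + 16 * u + 15 = 0)) :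
    ExcB ((u ^ 6 + 10 * u ^ 3 + 5) ^ 3 / u ^ 3) := by
  rcases h with (h | h) | h | h
  · have := tn_j hu (T := -1 / 2) (N := 4) (by push_cast; linear_combination (1 / 2) * h) rfl rfl
      (by norm_num) rfl rfl
    left
    norm_num at this ⊢
    linear_combination this
  · have := tn_j hu (T := -5 / 8) (N := 25 / 4) (by push_cast; linear_combination (1 / 8) * h) rfl rfl
      (by norm_num) rfl rfl
    right; left
    norm_num at this ⊢
    linear_combination this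
  · have := tn_j hu (T := -16 / 3) (N := 25 / 3) (by push_cast; linear_combination (1 / 3) * h) rfl
      rfl (by norm_num) rfl rfl
    right; right; left
    norm_num at this ⊢
    linear_combination this
  · have := tn_j hu (T := -16 / 5) (N := 3) (by push_cast; linear_combination (1 / 5) * h) rfl rfl
      (by norm_num) rfl rfl
    right; right; right
    norm_num at this ⊢
    linear_combination this

/-- residue field with two elements: `2` lies in the prime, and units are `1` modulo the prime -/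
theorem card_two (v : HeightOneSpectrum (𝓞 K)) (hv : Nat.card (𝓞 K ⧸ v.asIdeal) = 2) :
    v.valuation K (2 : K) < 1 ∧ ∀ x : K, v.valuation K x = 1 → v.valuation K (x - 1) < 1 := by
  have key : ∀ a : 𝓞 K, a ∈ v.asIdeal ∨ a - 1 ∈ v.asIdeal := by
    intro a
    obtain ⟨y, -, hy⟩ := (Nat.card_eq_two_iff' (0 : 𝓞 K ⧸ v.asIdeal)).1 hv
    have h1 : (1 : 𝓞 K ⧸ v.asIdeal) ≠ 0 := by
      rw [← map_one (Ideal.Quotient.mk v.asIdeal), Ne, Ideal.Quotient.eq_zero_iff_mem]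
      exact fun k => v.isPrime.ne_top ((Ideal.eq_top_iff_one _).2 k)
    by_cases ha : Ideal.Quotient.mk v.asIdeal a = 0
    · exact Or.inl (Ideal.Quotient.eq_zero_iff_mem.1 ha)
    · right
      rw [← Ideal.Quotient.eq_zero_iff_mem, map_sub, map_one, hy _ ha, hy _ h1, sub_self]
  have lt : ∀ a : 𝓞 K, a ∈ v.asIdeal ↔ v.valuation K (a : K) < 1 := fun a =>
    (v.valuation_lt_one_iff_mem (K := K) a).symm
  refine ⟨?_, fun x hx => ?_⟩
  · rcases key 2 with k | k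
    · exact_mod_cast (lt 2).1 k
    · exact absurd ((Ideal.eq_top_iff_one _).2 (by convert k using 1; norm_num)) v.isPrime.ne_top
  · obtain ⟨a, ha⟩ := v.exists_valuation_sub_lt_of_integer (K := K) (x := x) hx.le 1
    simp only [Units.val_one] at ha
    have ha' : v.valuation K (x - a) < 1 := by rw [Valuation.map_sub_swap]; exact ha
    rcases key a with k | k
    · have := (v.valuation K).map_add_lt ha' ((lt a).1 k)
      rw [sub_add_cancel, hx] at this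
      exact absurd this (lt_irrefl _)
    · have := (v.valuation K).map_add_lt ha' ((lt _).1 k)
      push_cast at this
      rwa [sub_add_sub_cancel] at this

/-- a prime with residue field `𝔽₂` is a pole of `j` -/
theorem pole2 {u m : K} (hu : u ≠ 0) (hm : m ≠ 0) (h : u + 1 + 5 / u = m + 3 / m)
    (v : HeightOneSpectrum (𝓞 K)) (hv : Nat.card (𝓞 K ⧸ v.asIdeal) = 2) :
    1 < v.valuation K ((u ^ 6 + 10 * u ^ 3 + 5) ^ 3 / u ^ 3) := by
  obtain ⟨h2, h1⟩ := card_two v hv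
  obtain ⟨w, hw⟩ : ∃ w, w = v.valuation K := ⟨_, rfl⟩
  rw [← hw] at h1 h2 ⊢
  by_contra hj
  have h2' : w ((2 : ℕ) : K) < 1 := by exact_mod_cast h2
  have w5 : w (5 : K) = 1 := by exact_mod_cast w_unit w Nat.prime_two h2' (n := 5) (by norm_num)
  have w3 : w (3 : K) = 1 := by exact_mod_cast w_unit w Nat.prime_two h2' (n := 3) (by norm_num)
  have a1 : w u ≤ 1 := not_lt.1 fun k => hj (big_u w k)
  have a2 : w (5 / u) ≤ 1 := not_lt.1 fun k => hj (small_u w hu k)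
  have unit : ∀ {x c : K}, x ≠ 0 → w c = 1 → w x ≤ 1 → w (c / x) ≤ 1 → w x = 1 ∧ w (c / x) = 1 := by
    intro x c hx hc k1 k2
    have h0 : 0 < w x := (w.pos_iff).2 hx
    rw [map_div₀, hc, div_le_one₀ h0] at k2
    have := le_antisymm k1 k2
    exact ⟨this, by rw [map_div₀, hc, this, div_one]⟩
  obtain ⟨b1, b2⟩ := unit hu w5 a1 a2
  have hs : w (m + 3 / m) ≤ 1 := by
    rw [← h]; exact w.map_add_le (w.map_add_le a1 (by simp)) a2
  have hm0 : 0 < w m := (w.pos_iff).2 hm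
  have c1 : w m ≤ 1 := by
    by_contra k
    have k := not_le.1 k
    have : w (3 / m) < w m := by
      rw [map_div₀, w3]; exact lt_trans ((div_lt_one₀ hm0).2 k) k
    rw [w.map_add_eq_of_lt_left this] at hs
    exact absurd hs (not_le.2 k)
  have c2 : w (3 / m) ≤ 1 := by
    have := w.map_sub_le hs c1
    rwa [add_sub_cancel_left] at this
  obtain ⟨d1, d2⟩ := unit hm w3 c1 c2
  have := w.map_sub_lt (w.map_add_lt (h1 _ d1) (h1 _ d2)) (w.map_add_lt (h1 _ b1) (h1 _ b2))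
  rw [show m - 1 + (3 / m - 1) - (u - 1 + (5 / u - 1)) = 1 by linear_combination -h, map_one] at this
  exact absurd this (lt_irrefl _)

variable [Algebra.IsQuadraticExtension ℚ K] [IsTotallyComplex K]

/-- **the row `X(s3,b5)`** -/
theorem rowB {u y j : K} (hu : u ≠ 0) (h : y ^ 2 = u ^ 4 + 2 * u ^ 3 - u ^ 2 + 10 * u + 25)
    (hj : j = (u ^ 6 + 10 * u ^ 3 + 5) ^ 3 / u ^ 3) :
    QC j ∨ ((¬ ∃ V : K, V ≠ 0 ∧ j = R2 V) ∧ ¬ IsSquare (j - 1728) ∧
      (3 ≤ {v : HeightOneSpectrum (𝓞 K) | 1 < v.valuation K j}.encard ∨ ExcB j) ∧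
      (∀ v : HeightOneSpectrum (𝓞 K), Nat.card (𝓞 K ⧸ v.asIdeal) = 2 → 1 < v.valuation K j) ∧
      ∀ v : HeightOneSpectrum (𝓞 K), (3 : 𝓞 K) ∈ v.asIdeal → 1 ≤ v.valuation K j) := by
  subst hj
  by_cases hq : QC ((u ^ 6 + 10 * u ^ 3 + 5) ^ 3 / u ^ 3)
  · exact Or.inl hq
  right
  obtain ⟨m, hm, hum⟩ := to_um hu h
  refine ⟨fun ⟨V, hV, k⟩ => hq (b2 hu h hV k), fun k => ?_, ?_, pole2 hu hm hum, ord3 hu hm hum⟩
  · obtain ⟨q, k⟩ := bdelta hu h (fun i => hq (QC.of_rat (q := 1728) (by rw [i]; simp))) k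
    exact hq (qc5 hu k)
  · rcases brunge hu h with ⟨q, k⟩ | k | k
    · exact absurd (qc5 hu k) hq
    · exact Or.inl k
    · exact Or.inr (excB hu k)

/-- **the row `X(ns3,b5)`** -/
theorem rowC {u y j : K} (hu : u ≠ 0)
    (h : y ^ 2 = -3 * (u ^ 4 + 2 * u ^ 3 - u ^ 2 + 10 * u + 25))
    (hj : j = (u ^ 6 + 10 * u ^ 3 + 5) ^ 3 / u ^ 3) : QC j := by
  subst hj
  rcases partC h with ⟨q, k⟩ | ⟨q, k⟩
  · exact qc_rat_u k
  · exact qc5 hu k

theorem rat80 {x y : ℚ} (h : y ^ 2 = x * (x ^ 2 - 22 * x + 125)) : x = 0 := by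
  by_contra hx
  have h2 : (y / x) ^ 2 = x - 22 + 125 / x := by field_simp; linear_combination h
  have h1 := rat20 (a := 11) (Or.inl rfl) (x := (y / x) ^ 2 / 4) (y := y / x * (x - 125 / x) / 8) (by
    rw [div_pow (y / x * (x - 125 / x)), mul_pow, h2]; push_cast; field_simp; ring)
  have : x - 22 + 125 / x = 0 := by linarith
  field_simp at this
  nlinarith [sq_nonneg (x - 11)]

/-- the rational points of `y² = - x (x² - 2 x + 5)` -/
theorem rat80c {x y : ℚ} (h : y ^ 2 = -(x * (x ^ 2 - 2 * x + 5))) : x = 0 := by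
  by_cases h1 : x = 1
  · subst h1; nlinarith [sq_nonneg y]
  have h1' : x - 1 ≠ 0 := sub_ne_zero.2 h1
  have := rat80 (x := -(x * (x - 5) ^ 2 / (x - 1) ^ 2))
    (y := y * ((x - 5) * (x ^ 2 + 2 * x + 5) / (x - 1) ^ 3)) (by
      rw [mul_pow, h]; field_simp; ring)
  rw [neg_eq_zero, div_eq_zero_iff] at this
  rcases this with k | k
  · rcases mul_eq_zero.1 k with k | k
    · exact k
    · have : x = 5 := by linarith [pow_eq_zero_iff two_ne_zero |>.1 k]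
      subst this; nlinarith [sq_nonneg y]
  · exact absurd k (pow_ne_zero 2 h1')

/-- **minus the discriminant is a square on `X(s3,b5)`** -/
theorem bdelta' {u y : K} (hu : u ≠ 0) (h : y ^ 2 = u ^ 4 + 2 * u ^ 3 - u ^ 2 + 10 * u + 25)
    (hs : IsSquare (1728 - (u ^ 6 + 10 * u ^ 3 + 5) ^ 3 / u ^ 3)) :
    QC ((u ^ 6 + 10 * u ^ 3 + 5) ^ 3 / u ^ 3) := by
  by_cases hj : (u ^ 6 + 10 * u ^ 3 + 5) ^ 3 / u ^ 3 = 1728
  · exact QC.of_rat (q := 1728) (by rw [hj]; simp)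
  by_cases hu' : ∃ q : ℚ, u = q
  · obtain ⟨q, k⟩ := hu'
    exact qc_rat_u k
  obtain ⟨s, hs⟩ := hs
  have e : (u ^ 6 + 10 * u ^ 3 + 5) ^ 3 / u ^ 3 - 1728 =
      u * (u ^ 2 - 2 * u + 5) * (y * (u ^ 6 + 4 * u ^ 3 - 1) / u ^ 2) ^ 2 := by
    rw [div_pow, mul_pow, h]; field_simp; ring
  have h0 : y * (u ^ 6 + 4 * u ^ 3 - 1) / u ^ 2 ≠ 0 := by
    intro k
    rw [k] at e
    exact hj (by linear_combination e)
  obtain ⟨Y, hY⟩ : ∃ Y : K, Y ^ 2 = -(u * (u ^ 2 - 2 * u + 5)) :=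
    ⟨s / (y * (u ^ 6 + 4 * u ^ 3 - 1) / u ^ 2), by
      rw [div_pow, div_eq_iff (pow_ne_zero 2 h0)]; linear_combination -e - hs⟩
  obtain ⟨l, n, rfl⟩ := line hu' Y
  obtain ⟨r, hr⟩ := third_root hu' (g3 := 1) (g2 := l ^ 2 - 2) (g1 := 5 + 2 * l * n) (g0 := n ^ 2)
    one_ne_zero (by push_cast; linear_combination hY)
  have k := rat80c (x := r) (y := l * r + n) (by linear_combination hr)
  rw [k] at hr
  have n0 : n = 0 := pow_eq_zero_iff two_ne_zero |>.1 (by linarith : n ^ 2 = 0)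
  subst n0
  refine qc5 hu (q := 2 - l ^ 2) (mul_left_cancel₀ hu ?_)
  push_cast at hY ⊢
  linear_combination hY

/-- **the row `X(s3,b5)`**, final form -/
theorem sideB {u y j : K} (hu : u ≠ 0) (h : y ^ 2 = u ^ 4 + 2 * u ^ 3 - u ^ 2 + 10 * u + 25)
    (hj : j = (u ^ 6 + 10 * u ^ 3 + 5) ^ 3 / u ^ 3) :
    QC j ∨ (¬ IsSquare (j - 1728) ∧ ¬ IsSquare (1728 - j) ∧ (∀ V : K, V ≠ 0 → j ≠ R2 V) ∧
      (3 ≤ {v : HeightOneSpectrum (𝓞 K) | 1 < v.valuation K j}.encard ∨ ExcB j) ∧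
      (∀ v : HeightOneSpectrum (𝓞 K), Ideal.absNorm v.asIdeal = 2 → 1 < v.valuation K j) ∧
      ∀ v : HeightOneSpectrum (𝓞 K), (3 : 𝓞 K) ∈ v.asIdeal → 1 ≤ v.valuation K j) := by
  by_cases hq : QC j
  · exact Or.inl hq
  obtain ⟨h1, h2, h3, h4, h5⟩ := (rowB hu h hj).resolve_left hq
  refine Or.inr ⟨h2, fun k => hq ?_, fun V hV k => h1 ⟨V, hV, k⟩, h3, fun v hv => h4 v ?_, h5⟩
  · subst hj
    exact bdelta' hu h k
  · rwa [Ideal.absNorm_apply, Submodule.cardQuot_apply] at hv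

end Vale.Agent.Q017B
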