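import Vale.Agent.Q017B.Rat
import Vale.Agent.Q017B.Tools

/-!
# On `X₀(15) : n + 5 + 9 / n = 1 / z - z` neither `n` nor `-n` is a square

Descent by a `2`-isogeny on `y² = x (x² ± 11 x - 1)` (conductors `20` and `80`), closed by the
`2`-adic valuation instead of heights.
-/

set_option linter.all false

namespace Vale.Agent.Q017B

open NumberField Vale.Agent.P017.H185 WithZero

/-- the square class of `x` on `y² = x (x² + a x + b)` divides `b` -/
theorem sq_class {a b : ℤ} {x y : ℚ} (h : y ^ 2 = x * (x ^ 2 + a * x + b)) (hx : x ≠ 0) :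
    ∃ (d : ℤ) (s : ℚ), Squarefree d ∧ s ≠ 0 ∧ x = d * s ^ 2 ∧
      ∀ p : ℕ, p.Prime → (p : ℤ) ∣ d → (p : ℤ) ∣ b := by
  obtain ⟨d, M, e, hd, -, hM, he, hX⟩ := exists_sqf hx
  have hs : (M / e : ℚ) ≠ 0 := div_ne_zero (by exact_mod_cast hM) (by exact_mod_cast he)
  refine ⟨d, M / e, hd, hs, hX, fun p hp hpd => ?_⟩
  by_contra hb
  haveI := Fact.mk hp
  let w := Rat.padicValuation p
  have hp1 : w (p : ℚ) = exp (-1) := Rat.padicValuation_self p
  have hlt : w (p : ℚ) < 1 := by rw [hp1, ← exp_zero, exp_lt_exp]; norm_num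
  obtain ⟨d', rfl⟩ := hpd
  have hd' : w (d' : ℚ) = 1 := w_unit w hp hlt (not_dvd_of_sqf hp hd rfl)
  have hb' : w (b : ℚ) = 1 := w_unit w hp hlt hb
  have hx' : w x = exp (-1) * w (M / e : ℚ) ^ 2 := by
    rw [hX]; push_cast; rw [map_mul, map_mul, map_pow, hp1, hd', mul_one]
  have x0 : w x ≠ 0 := (w.ne_zero_iff).2 hx
  have s0 : w (M / e : ℚ) ≠ 0 := (w.ne_zero_iff).2 hs
  have key : ∀ γ : WithZero (Multiplicative ℤ), w x ≠ γ ^ 2 := by
    intro γ k
    have g0 : γ ≠ 0 := by rintro rfl; exact x0 (by simpa using k)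
    rw [hx'] at k
    have := congrArg log k
    rw [log_mul (by simp) (pow_ne_zero 2 s0), log_pow, log_pow, log_exp] at this
    simp only [nsmul_eq_mul] at this
    omega
  have ha := w_int w a
  rcases lt_trichotomy (w x) 1 with k | k | k
  · have : w (x ^ 2 + a * x + b) = 1 := by
      rw [← hb']
      refine w.map_add_eq_of_lt_right ?_
      rw [hb']
      refine w.map_add_lt ?_ ?_
      · rw [map_pow]; exact pow_lt_one₀ zero_le k two_ne_zero
      · rw [map_mul]; exact mul_lt_one_of_nonneg_of_lt_one_right ha zero_le k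
    apply key (w y)
    rw [← map_pow, h, map_mul, this, mul_one]
  · exact key 1 (by rw [k, one_pow])
  · have x1 : w x < w x ^ 2 := lt_self_pow₀ k one_lt_two
    have : w (x ^ 2 + a * x + b) = w x ^ 2 := by
      rw [add_assoc, ← map_pow]
      refine w.map_add_eq_of_lt_left (w.map_add_lt ?_ ?_)
      · rw [map_mul, map_pow]; exact (mul_le_of_le_one_left zero_le ha).trans_lt x1
      · rw [hb', map_pow]; exact k.trans x1
    apply key (w y / w x)
    rw [div_pow, ← map_pow, h, map_mul, this, mul_div_assoc, div_self (pow_ne_zero 2 x0), mul_one]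

theorem sqf_prime {q : ℕ} (hq : q.Prime) {b : ℤ} (hb : Squarefree b)
    (h : ∀ p : ℕ, p.Prime → (p : ℤ) ∣ b → p = q) : b.natAbs = 1 ∨ b.natAbs = q := by
  have hdvd : b.natAbs ∣ q := by
    have hsq : Squarefree b.natAbs := Int.squarefree_natAbs.mpr hb
    rw [← Nat.prod_primeFactors_of_squarefree hsq]
    apply Finset.prod_primes_dvd
    · intro p hp; exact (Nat.prime_of_mem_primeFactors hp).prime
    · intro p hp
      rw [h p (Nat.prime_of_mem_primeFactors hp)
        (Int.natCast_dvd.mpr (Nat.dvd_of_mem_primeFactors hp))]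
  exact (Nat.dvd_prime hq).mp hdvd

/-- halving a point whose abscissa is a square -/
theorem halve20 {a : ℤ} (ha : a = 11 ∨ a = -11) {u y : ℚ} (hu : u ≠ 0)
    (h : y ^ 2 = u ^ 2 * ((u ^ 2) ^ 2 + a * u ^ 2 + (-1 : ℤ))) :
    ∃ r s : ℚ, r ≠ 0 ∧ (s * r) ^ 2 = r * (r ^ 2 + a * r + (-1 : ℤ)) ∧
      u ^ 2 * (4 * (r * (r ^ 2 + a * r - 1))) = (r ^ 2 + 1) ^ 2 := by
  have ha2 : (a : ℚ) ^ 2 = 121 := by rcases ha with rfl | rfl <;> norm_num
  obtain ⟨t, ht⟩ : ∃ t, t = y / u := ⟨_, rfl⟩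
  have ht2 : t ^ 2 = u ^ 4 + a * u ^ 2 - 1 := by
    rw [ht]; push_cast at h; field_simp; linear_combination h
  have main : ∀ s : ℚ, s ≠ 0 → (s ^ 2 - a) ^ 2 + 4 = 4 * u ^ 2 * s ^ 2 → ∃ r s : ℚ, r ≠ 0 ∧
      (s * r) ^ 2 = r * (r ^ 2 + a * r + (-1 : ℤ)) ∧
      u ^ 2 * (4 * (r * (r ^ 2 + a * r - 1))) = (r ^ 2 + 1) ^ 2 := by
    intro s hs e
    obtain ⟨r, hr⟩ : ∃ r, r = (s ^ 2 - a + 2 * u * s) / 2 := ⟨_, rfl⟩
    have e1 : r * ((2 * u * s - s ^ 2 + a) / 2) = 1 := by rw [hr]; linear_combination (-1 / 4) * e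
    have r0 : r ≠ 0 := left_ne_zero_of_mul_eq_one e1
    have e2 : r ^ 2 - 1 = (s ^ 2 - a) * r := by linear_combination r * hr + e1
    have e3 : r ^ 2 + 1 = 2 * u * s * r := by linear_combination r * hr - e1
    refine ⟨r, s, r0, by push_cast; linear_combination (-r) * e2, ?_⟩
    rw [e3]; linear_combination (4 * u ^ 2 * r) * e2
  obtain ⟨X, hX⟩ : ∃ X, X = 2 * u ^ 2 + a + 2 * t := ⟨_, rfl⟩
  have eX : (X - a) ^ 2 + 4 = 4 * u ^ 2 * X := by rw [hX]; linear_combination 4 * ht2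
  have Xp : 0 < X := by
    have : 0 < 4 * u ^ 2 * X := by rw [← eX]; positivity
    exact pos_of_mul_pos_left' this
  obtain ⟨d, s, hd, hs, hds, hp⟩ := sq_class (a := -2 * a) (b := 125) (x := X) (y := 2 * u * X)
    (by push_cast; linear_combination (-X) * eX + X * ha2) Xp.ne'
  have dp : 0 < d := by
    have : (0 : ℚ) < d := by
      rw [hds] at Xp
      exact pos_of_mul_pos_right' Xp
    exact_mod_cast this
  rcases sqf_prime Nat.prime_five hd (fun p j k => prime_pow5 j (hp p j k)) with k | k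
  · have : d = 1 := by omega
    rw [this] at hds
    refine main s hs ?_
    rw [hds] at eX; push_cast at eX; linear_combination eX
  · have : d = 5 := by omega
    rw [this] at hds
    refine main (5 / s) (div_ne_zero (by norm_num) hs) ?_
    rw [hds] at eX; push_cast at eX
    field_simp
    linear_combination 5 * eX + (s ^ 4 - 5) * ha2
where
  pos_of_mul_pos_left' {c X : ℚ} (h : 0 < 4 * c ^ 2 * X) : 0 < X := by
    by_contra k
    nlinarith [sq_nonneg c, not_lt.1 k]
  pos_of_mul_pos_right' {d s : ℚ} (h : 0 < d * s ^ 2) : 0 < d := by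
    by_contra k
    nlinarith [sq_nonneg s, not_lt.1 k]
  prime_pow5 {p : ℕ} (hp : p.Prime) (h : (p : ℤ) ∣ 125) : p = 5 :=
    (Nat.prime_dvd_prime_iff_eq hp Nat.prime_five).1
      (hp.dvd_of_dvd_pow (n := 3) (by exact_mod_cast h))

theorem not_unit20 {a : ℤ} (ha : a = 11 ∨ a = -11) {x y : ℚ}
    (h : y ^ 2 = x * (x ^ 2 + a * x + (-1 : ℤ))) : v2 x ≠ 1 := by
  intro k
  have hx0 : x ≠ 0 := by rintro rfl; simp at k
  have h1 : ¬ 2 ∣ x.den := Rat.padicValuation_le_one_iff.1 k.le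
  have h2 : ¬ (2 : ℤ) ∣ x.num := by
    intro j
    have e : x = x.num / x.den := (Rat.num_div_den x).symm
    have := v2_even j
    rw [e, map_div₀, show ((x.den : ℕ) : ℚ) = ((x.den : ℤ) : ℚ) by simp,
      v2_odd (n := x.den) (by exact_mod_cast h1), div_one] at k
    exact absurd k this.ne
  have h3 : ¬ 2 ∣ y.den := by
    refine v2_sq ?_
    rw [h, map_mul, k, one_mul]
    refine Valuation.map_add_le _ (Valuation.map_add_le _ ?_ ?_) (v2_int _)
    · rw [map_pow, k, one_pow]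
    · rw [map_mul, k, mul_one]; exact v2_int a
  have ex : (x.num : ℚ) = x * x.den := (Rat.mul_den_eq_num x).symm
  have ey : (y.num : ℚ) = y * y.den := (Rat.mul_den_eq_num y).symm
  have e : (y.num * x.den ^ 2) ^ 2 =
      y.den ^ 2 * (x.num * x.den * (x.num ^ 2 + a * x.num * x.den - x.den ^ 2)) := by
    have : (((y.num * x.den ^ 2) ^ 2 : ℤ) : ℚ) =
        ((y.den ^ 2 * (x.num * x.den * (x.num ^ 2 + a * x.num * x.den - x.den ^ 2)) : ℤ) : ℚ) := by
      push_cast at h ⊢
      rw [ex, ey]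
      linear_combination ((y.den : ℚ) ^ 2 * (x.den : ℚ) ^ 4) * h
    exact_mod_cast this
  obtain ⟨i, hi⟩ : ∃ i : ℤ, x.num = 2 * i + 1 := ⟨x.num / 2, by omega⟩
  obtain ⟨j, hj⟩ : ∃ j : ℤ, (x.den : ℤ) = 2 * j + 1 := ⟨x.den / 2, by omega⟩
  obtain ⟨l, hl⟩ : ∃ l : ℤ, (y.den : ℤ) = 2 * l + 1 := ⟨y.den / 2, by omega⟩
  rw [hi, hj, hl] at e
  generalize y.num * (2 * j + 1) ^ 2 = N at e
  have z1 : ∀ N i j l : ZMod 8, N ^ 2 ≠ (2 * l + 1) ^ 2 * ((2 * i + 1) * (2 * j + 1) *
      ((2 * i + 1) ^ 2 + 11 * (2 * i + 1) * (2 * j + 1) - (2 * j + 1) ^ 2)) := by decide +kernel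
  have z2 : ∀ N i j l : ZMod 8, N ^ 2 ≠ (2 * l + 1) ^ 2 * ((2 * i + 1) * (2 * j + 1) *
      ((2 * i + 1) ^ 2 + -11 * (2 * i + 1) * (2 * j + 1) - (2 * j + 1) ^ 2)) := by decide +kernel
  rcases ha with rfl | rfl
  · exact z1 N i j l (by exact_mod_cast congrArg (Int.cast : ℤ → ZMod 8) e)
  · exact z2 N i j l (by exact_mod_cast congrArg (Int.cast : ℤ → ZMod 8) e)

/-- the `2`-adic size grows under duplication -/
theorem grow20 {a : ℤ} {x r : ℚ} (r0 : r ≠ 0) (hr : v2 r ≠ 1)
    (h : x * (4 * (r * (r ^ 2 + a * r - 1))) = (r ^ 2 + 1) ^ 2) :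
    (log (v2 r)).natAbs < (log (v2 x)).natAbs := by
  have x0 : x ≠ 0 := by
    rintro rfl
    have : (0 : ℚ) < (r ^ 2 + 1) ^ 2 := by positivity
    rw [← h] at this; simp at this
  have vx : v2 x ≠ 0 := (v2.ne_zero_iff).2 x0
  have vr : v2 r ≠ 0 := (v2.ne_zero_iff).2 r0
  have h4 : v2 (4 : ℚ) = exp (-2) := by
    have : v2 ((2 : ℕ) : ℚ) = exp (-1) := Rat.padicValuation_self 2
    rw [show (4 : ℚ) = ((2 : ℕ) : ℚ) * ((2 : ℕ) : ℚ) by norm_num, map_mul, this, ← exp_add]
    norm_num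
  have ha := v2_int a
  have k := congrArg v2 h
  rw [map_mul, map_mul, map_mul, map_pow, h4] at k
  rcases lt_or_gt_of_ne hr with j | j
  · have j2 : v2 (r ^ 2) < 1 := by rw [map_pow]; exact pow_lt_one₀ zero_le j two_ne_zero
    have e1 : v2 (r ^ 2 + a * r - 1) = 1 := by
      rw [← v2.map_one]
      refine Valuation.map_sub_eq_of_lt_right _ ?_
      rw [v2.map_one]
      refine v2.map_add_lt j2 ?_
      rw [map_mul]; exact mul_lt_one_of_nonneg_of_lt_one_right ha zero_le j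
    have e2 : v2 (r ^ 2 + 1) = 1 := by
      rw [← v2.map_one]; exact v2.map_add_eq_of_lt_right (by rw [v2.map_one]; exact j2)
    rw [e1, e2, one_pow, mul_one] at k
    have k' := congrArg log k
    rw [log_mul vx (mul_ne_zero (by simp) vr), log_mul (by simp) vr, log_exp, log_one] at k'
    have : log (v2 r) < 0 := by rw [← log_one]; exact (log_lt_log vr one_ne_zero).2 j
    omega
  · have x1 : v2 r < v2 r ^ 2 := lt_self_pow₀ j one_lt_two
    have e1 : v2 (r ^ 2 + a * r - 1) = v2 r ^ 2 := by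
      rw [add_sub_assoc, ← map_pow]
      refine v2.map_add_eq_of_lt_left (v2.map_sub_lt ?_ ?_)
      · rw [map_mul, map_pow]; exact (mul_le_of_le_one_left zero_le ha).trans_lt x1
      · rw [v2.map_one, map_pow]; exact j.trans x1
    have e2 : v2 (r ^ 2 + 1) = v2 r ^ 2 := by
      rw [← map_pow]
      exact v2.map_add_eq_of_lt_left (by rw [v2.map_one, map_pow]; exact j.trans x1)
    rw [e1, e2] at k
    have k' := congrArg log k
    rw [log_mul vx (mul_ne_zero (by simp) (mul_ne_zero vr (pow_ne_zero 2 vr))),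
      log_mul (by simp) (mul_ne_zero vr (pow_ne_zero 2 vr)), log_mul vr (pow_ne_zero 2 vr),
      log_exp, log_pow, log_pow, log_pow] at k'
    have : 0 < log (v2 r) := by rw [← log_one]; exact (log_lt_log one_ne_zero vr).2 j
    simp only [nsmul_eq_mul] at k'
    omega

/-- **the only affine rational point of `y² = x (x² ± 11 x - 1)` is `(0, 0)`** -/
theorem rat20 {a : ℤ} (ha : a = 11 ∨ a = -11) {x y : ℚ}
    (h : y ^ 2 = x * (x ^ 2 + a * x + (-1 : ℤ))) : x = 0 := by
  have key : ∀ (k : ℕ) (x y : ℚ), (log (v2 x)).natAbs = k →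
      y ^ 2 = x * (x ^ 2 + a * x + (-1 : ℤ)) → x = 0 := by
    intro k
    induction k using Nat.strong_induction_on with
    | _ k ih =>
      intro x y hk h
      by_contra hx
      obtain ⟨d, s, hd, hs, hds, hp⟩ := sq_class h hx
      have d1 : d.natAbs = 1 := by
        by_contra j
        obtain ⟨p, pp, pd⟩ := Nat.exists_prime_and_dvd j
        have := hp p pp (Int.natCast_dvd.2 pd)
        rw [Int.dvd_neg] at this
        exact pp.one_lt.ne' (Nat.dvd_one.1 (by exact_mod_cast this))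
      have main : ∀ u y : ℚ, u ≠ 0 → y ^ 2 = u ^ 2 * ((u ^ 2) ^ 2 + a * u ^ 2 + (-1 : ℤ)) →
          (log (v2 (u ^ 2))).natAbs = k → False := by
        intro u y hu h hk
        obtain ⟨r, s, r0, h1, h2⟩ := halve20 ha hu h
        exact r0 (ih _ (hk ▸ grow20 r0 (not_unit20 ha h1) h2) r _ rfl h1)
      rcases Int.natAbs_eq d with j | j <;> rw [d1] at j
      · have e : x = s ^ 2 := by rw [hds, j]; simp
        exact main s y hs (e ▸ h) (e ▸ hk)
      · have e : x = -s ^ 2 := by rw [hds, j]; simp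
        refine main (1 / s) (y / s ^ 4) (one_div_ne_zero hs) ?_ ?_
        · rw [e] at h; push_cast at h ⊢; field_simp; linear_combination h
        · rw [← hk, e, v2.map_neg, one_div, inv_pow, map_inv₀, log_inv, Int.natAbs_neg]
  exact key _ x y rfl h

variable {K : Type*} [Field K] [NumberField K] [Algebra.IsQuadraticExtension ℚ K]
  [IsTotallyComplex K]

theorem quad20 {a : ℤ} (ha : a = 11 ∨ a = -11) {x y : K} (h : y ^ 2 = x * (x ^ 2 + a * x - 1)) :
    ∃ q : ℚ, x = q := by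
  by_contra hx
  have x0 : x ≠ 0 := by rintro rfl; exact hx ⟨0, by simp⟩
  obtain ⟨l, m, rfl⟩ := line hx y
  obtain ⟨r, hr⟩ := third_root hx (g3 := 1) (g2 := a - l ^ 2) (g1 := -1 - 2 * l * m) (g0 := -m ^ 2)
    one_ne_zero (by push_cast; linear_combination -h)
  have r0 := rat20 ha (x := r) (y := l * r + m) (by push_cast; linear_combination -hr)
  have m0 : m = 0 := by
    rw [r0] at hr
    exact pow_eq_zero_iff two_ne_zero |>.1 (by linarith : m ^ 2 = 0)
  subst m0
  refine hx (quad_rat (A := 1) (B := a - l ^ 2) (C := -1) one_ne_zero (by nlinarith [sq_nonneg ((a : ℚ) - l ^ 2)]) ?_)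
  apply mul_left_cancel₀ x0
  push_cast at h ⊢
  linear_combination -h

/-- **`± n` is not a square at a point of `X₀(15)` with irrational `z`** -/
theorem nsq {n z : K} (hn : n ≠ 0) (hz : z ≠ 0) (h : n + 5 + 9 / n = 1 / z - z)
    (hz' : ¬ ∃ q : ℚ, z = q) : ¬ IsSquare n ∧ ¬ IsSquare (-n) := by
  have e : z * (n - 3) ^ 2 = n * (1 - 11 * z - z ^ 2) := by
    field_simp at h; linear_combination h
  constructor
  · rintro ⟨r, hr⟩
    have r0 : r ≠ 0 := by rintro rfl; exact hn (by simpa using hr)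
    obtain ⟨q, hq⟩ := quad20 (a := -11) (Or.inr rfl) (x := -z) (y := z * (n - 3) / r) (by
      push_cast; field_simp; linear_combination e + (1 - 11 * z - z ^ 2) * hr)
    exact hz' ⟨-q, by push_cast; linear_combination -hq⟩
  · rintro ⟨r, hr⟩
    have r0 : r ≠ 0 := by rintro rfl; exact hn (by simpa using hr)
    exact hz' (quad20 (a := 11) (Or.inl rfl) (x := z) (y := z * (n - 3) / r) (by
      push_cast; field_simp; linear_combination e - (1 - 11 * z - z ^ 2) * hr))

end Vale.Agent.Q017B
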