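import Vale.Agent.Q017B.C
import Vale.Agent.Q017B.Sq

/-!
# `X(s3,b5)`: square discriminant, and points with at most two poles
-/

set_option linter.all false

namespace Vale.Agent.Q017B

open NumberField IsDedekindDomain

theorem rat20' {x y : ℚ} (h : y ^ 2 = x * (x ^ 2 + 22 * x + 125)) : x = 0 := by
  by_contra hx
  have h2 : (y / x) ^ 2 = x + 22 + 125 / x := by field_simp; linear_combination h
  have h1 := rat20 (a := -11) (Or.inr rfl) (x := (y / x) ^ 2 / 4) (y := y / x * (x - 125 / x) / 8) (by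
    rw [div_pow (y / x * (x - 125 / x)), mul_pow, h2]; push_cast; field_simp; ring)
  have : x + 22 + 125 / x = 0 := by linarith
  field_simp at this
  nlinarith [sq_nonneg (x + 11)]

/-- the rational points of `y² = x (x² - 2 x + 5)` -/
theorem rat20c {x y : ℚ} (h : y ^ 2 = x * (x ^ 2 - 2 * x + 5)) : x = 0 ∨ x = 1 ∨ x = 5 := by
  by_cases h1 : x = 1
  · exact Or.inr (Or.inl h1)
  have h1' : x - 1 ≠ 0 := sub_ne_zero.2 h1
  have := rat20' (x := x * (x - 5) ^ 2 / (x - 1) ^ 2)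
    (y := y * ((x - 5) * (x ^ 2 + 2 * x + 5) / (x - 1) ^ 3)) (by
      rw [mul_pow, h]; field_simp; ring)
  rw [div_eq_zero_iff] at this
  rcases this with k | k
  · rcases mul_eq_zero.1 k with k | k
    · exact Or.inl k
    · right; right; have := pow_eq_zero_iff two_ne_zero |>.1 k; linarith
  · exact absurd k (pow_ne_zero 2 h1')

theorem quartic_ne (l : ℚ) : 7 * l ^ 4 - 20 * l ^ 3 + 3 * l ^ 2 + 40 * l - 37 ≠ 0 := by
  intro h
  have ea : (l.num : ℚ) = l * l.den := (Rat.mul_den_eq_num l).symm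
  have e : 7 * l.num ^ 4 - 20 * l.num ^ 3 * l.den + 3 * l.num ^ 2 * l.den ^ 2 + 40 * l.num * l.den ^ 3
      - 37 * (l.den : ℤ) ^ 4 = 0 := by
    have : ((7 * l.num ^ 4 - 20 * l.num ^ 3 * l.den + 3 * l.num ^ 2 * l.den ^ 2 +
        40 * l.num * l.den ^ 3 - 37 * (l.den : ℤ) ^ 4 : ℤ) : ℚ) = 0 := by
      push_cast; rw [ea]; linear_combination (l.den : ℚ) ^ 4 * h
    exact_mod_cast this
  have z : ∀ p q : ZMod 2, 7 * p ^ 4 - 20 * p ^ 3 * q + 3 * p ^ 2 * q ^ 2 + 40 * p * q ^ 3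
      - 37 * q ^ 4 = 0 → p = 0 ∧ q = 0 := by decide
  obtain ⟨k1, k2⟩ := z l.num (l.den : ℤ) (by exact_mod_cast congrArg (Int.cast : ℤ → ZMod 2) e)
  exact cop2 l ⟨by exact_mod_cast (ZMod.intCast_zmod_eq_zero_iff_dvd _ 2).1 k1,
    by exact_mod_cast (ZMod.intCast_zmod_eq_zero_iff_dvd _ 2).1 k2⟩

variable {K : Type*} [Field K] [NumberField K]

/-- comparison of two quadratic equations -/
theorem cmp {u : K} (hu : ¬ ∃ q : ℚ, u = q) {A B C T N : ℚ} (h : (A : K) * u ^ 2 + B * u + C = 0)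
    (h' : u ^ 2 - T * u + N = 0) : B + A * T = 0 ∧ C - A * N = 0 :=
  indep hu (by push_cast; linear_combination h - A * h')

variable [Algebra.IsQuadraticExtension ℚ K] [IsTotallyComplex K]

theorem disc_neg {u : K} (hu : ¬ ∃ q : ℚ, u = q) {T N : ℚ} (h : u ^ 2 - T * u + N = 0) :
    T ^ 2 < 4 * N := by
  by_contra k
  exact hu (quad_rat (A := 1) (B := -T) (C := N) one_ne_zero (by linarith)
    (by push_cast; linear_combination h))

/-- the two classes of trace and norm of `u` -/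
theorem classes {u m : K} (hu : u ≠ 0) (hm : m ≠ 0) (h : u + 1 + 5 / u = m + 3 / m)
    (hm' : ¬ ∃ q : ℚ, m = q) {T N : ℚ} (h' : u ^ 2 - T * u + N = 0) :
    2 * T ^ 2 + T * N + 5 * T + N = 0 ∨
      (5 * T + 2 * N + 10 = 0 ∧ ∃ a : ℚ, (4 + 2 * T) * a ^ 2 - (8 + 2 * T) * a + 3 = 0) := by
  obtain ⟨hu', a, ha0, ha1, hf⟩ := families hu hm h hm'
  have ha1' : 1 - a ≠ 0 := sub_ne_zero.2 (Ne.symm ha1)
  rcases hf with ⟨-, hf⟩ | ⟨-, hf⟩ | ⟨-, hf⟩ <;> obtain ⟨k1, k2⟩ := cmp hu' hf h'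
  · left
    have e1 : T = -1 / (1 - a) := by
      field_simp; apply mul_left_cancel₀ ha0; linear_combination k1
    have e2 : N = (5 * a - 3) / (a * (1 - a)) := by field_simp; linear_combination -k2
    rw [e1, e2]; field_simp; ring
  · left
    have e1 : T = -(5 * a - 3) / (2 * a) := by
      field_simp; apply mul_left_cancel₀ ha1'; linear_combination k1
    have e2 : N = (5 * a - 3) / (a * (1 - a)) := by field_simp; linear_combination (-1 / 2) * k2
    rw [e1, e2]; field_simp; ring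
  · right
    refine ⟨?_, a, by linear_combination (-1 / 2) * k1⟩
    apply mul_left_cancel₀ (mul_ne_zero ha0 ha1')
    linear_combination (5 / 4) * k1 - (1 / 2) * k2

theorem rat_p {u : K} (hu : u ≠ 0) {q : ℚ} (h : u + 1 + 5 / u = q + 3 / q) :
    ∃ q : ℚ, u ^ 2 + 5 = q * u := by
  refine ⟨q + 3 / q - 1, ?_⟩
  push_cast
  rw [← h]
  field_simp
  ring

/-- **square discriminant on `X(s3,b5)`**, short form -/
theorem bdelta0 {u m Y : K} (hu : u ≠ 0) (hm : m ≠ 0) (h : u + 1 + 5 / u = m + 3 / m)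
    (hY : Y ^ 2 = u * (u ^ 2 - 2 * u + 5)) : ∃ q : ℚ, u ^ 2 + 5 = q * u := by
  by_cases hm' : ∃ q : ℚ, m = q
  · obtain ⟨q, rfl⟩ := hm'
    exact rat_p hu h
  have hu' := (families hu hm h hm').1
  have hne : ∀ r : ℚ, u - r ≠ 0 := fun r k => hu' ⟨r, sub_eq_zero.1 k⟩
  obtain ⟨l, n, rfl⟩ := line hu' Y
  obtain ⟨r, hr⟩ := third_root hu' (g3 := 1) (g2 := -2 - l ^ 2) (g1 := 5 - 2 * l * n) (g0 := -n ^ 2)
    one_ne_zero (by push_cast; linear_combination -hY)
  have main : ∀ l : ℚ, (u ^ 2 - (1 + l ^ 2 : ℚ) * u + ((2 - l) ^ 2 : ℚ) = 0 ∨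
      u ^ 2 - (l ^ 2 - 3 : ℚ) * u + (5 * (2 - l) ^ 2 : ℚ) = 0) → False := by
    rintro l (k | k) <;> rcases classes hu hm h hm' k with j | ⟨j, -⟩
    · have : 0 < 2 * (1 + l ^ 2) ^ 2 + (1 + l ^ 2) * (2 - l) ^ 2 + 5 * (1 + l ^ 2) + (2 - l) ^ 2 := by
        positivity
      exact this.ne' j
    · nlinarith [sq_nonneg l, sq_nonneg (2 - l)]
    · exact quartic_ne l (by linear_combination j)
    · nlinarith [sq_nonneg (3 * l - 4)]
  rcases rat20c (x := r) (y := l * r + n) (by linear_combination -hr) with k | k | k <;>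
    rw [k] at hr
  · have n0 : n = 0 := pow_eq_zero_iff two_ne_zero |>.1 (by linarith : n ^ 2 = 0)
    subst n0
    refine ⟨2 + l ^ 2, mul_left_cancel₀ hu ?_⟩
    push_cast at hY ⊢
    linear_combination -hY
  · exfalso
    have : (l + n - 2) * (l + n + 2) = 0 := by linarith
    rcases mul_eq_zero.1 this with j | j
    · have e : n = 2 - l := by linarith
      subst e
      refine main l (Or.inl (mul_left_cancel₀ (hne 1) ?_))
      push_cast at hY ⊢
      linear_combination -hY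
    · have e : n = -2 - l := by linarith
      subst e
      refine main (-l) (Or.inl (mul_left_cancel₀ (hne 1) ?_))
      push_cast at hY ⊢
      linear_combination -hY
  · exfalso
    have : (5 * l + n - 10) * (5 * l + n + 10) = 0 := by linarith
    rcases mul_eq_zero.1 this with j | j
    · have e : n = 10 - 5 * l := by linarith
      subst e
      refine main l (Or.inr (mul_left_cancel₀ (hne 5) ?_))
      push_cast at hY ⊢
      linear_combination -hY
    · have e : n = -10 - 5 * l := by linarith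
      subst e
      refine main (-l) (Or.inr (mul_left_cancel₀ (hne 5) ?_))
      push_cast at hY ⊢
      linear_combination -hY

/-- **square discriminant on `X(s3,b5)`** -/
theorem bdelta {u y : K} (hu : u ≠ 0) (h : y ^ 2 = u ^ 4 + 2 * u ^ 3 - u ^ 2 + 10 * u + 25)
    (hj : (u ^ 6 + 10 * u ^ 3 + 5) ^ 3 / u ^ 3 ≠ 1728)
    (hs : IsSquare ((u ^ 6 + 10 * u ^ 3 + 5) ^ 3 / u ^ 3 - 1728)) : ∃ q : ℚ, u ^ 2 + 5 = q * u := by
  obtain ⟨m, hm, hum⟩ := to_um hu h
  obtain ⟨s, hs⟩ := hs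
  have e : (u ^ 6 + 10 * u ^ 3 + 5) ^ 3 / u ^ 3 - 1728 =
      u * (u ^ 2 - 2 * u + 5) * (y * (u ^ 6 + 4 * u ^ 3 - 1) / u ^ 2) ^ 2 := by
    rw [div_pow, mul_pow, h]; field_simp; ring
  have h0 : y * (u ^ 6 + 4 * u ^ 3 - 1) / u ^ 2 ≠ 0 := by
    intro k
    rw [k] at e
    exact hj (by linear_combination e)
  refine bdelta0 (Y := s / (y * (u ^ 6 + 4 * u ^ 3 - 1) / u ^ 2)) hu hm hum ?_
  rw [div_pow, div_eq_iff (pow_ne_zero 2 h0), ← e, hs]; ring

/-! ### at most two poles -/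

omit [Algebra.IsQuadraticExtension ℚ K] [IsTotallyComplex K] in
theorem int_coeffs {x : K} (hx : ¬ ∃ q : ℚ, x = q) {T N : ℚ} (h : x ^ 2 - T * x + N = 0)
    (hv : ∀ v : HeightOneSpectrum (𝓞 K), v.valuation K x ≤ 1) :
    (∃ t : ℤ, T = t) ∧ ∃ n : ℤ, N = n := by
  have key : ∀ q : ℚ, (∀ l : ℕ, l.Prime → ¬ l ∣ q.den) → ∃ t : ℤ, q = t := by
    intro q hq
    have : q.den = 1 := by
      by_contra k
      obtain ⟨l, hl, hd⟩ := Nat.exists_prime_and_dvd k
      exact hq l hl hd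
    exact ⟨q.num, (Rat.coe_int_num_of_den_eq_one this).symm⟩
  have k := fun (l : ℕ) (hl : l.Prime) => coeffs hx (b := -T) (c := N)
    (by push_cast; linear_combination h) hl fun v _ => hv v
  exact ⟨key T fun l hl => by simpa using (k l hl).1, key N fun l hl => (k l hl).2⟩

omit [IsTotallyComplex K] in
theorem exists_TN {x : K} (hx : ¬ ∃ q : ℚ, x = q) : ∃ T N : ℚ, x ^ 2 - T * x + N = 0 := by
  obtain ⟨a, b, h⟩ := line hx (x ^ 2)
  exact ⟨a, -b, by push_cast; linear_combination h⟩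

theorem not_sq (s : ℚ) (n : ℕ) (hn : ¬ IsSquare n) : s ^ 2 ≠ n := no_sq hn

/-- `u` is not integral -/
theorem u_not_int {u m : K} (hu : u ≠ 0) (hm : m ≠ 0) (h : u + 1 + 5 / u = m + 3 / m)
    (hm' : ¬ ∃ q : ℚ, m = q) (hv : ∀ v : HeightOneSpectrum (𝓞 K), v.valuation K u ≤ 1) : False := by
  have hu' := (families hu hm h hm').1
  obtain ⟨T, N, e⟩ := exists_TN hu'
  have hd := disc_neg hu' e
  have hc := classes hu hm h hm' e
  obtain ⟨⟨t, rfl⟩, n, rfl⟩ := int_coeffs hu' e hv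
  have hd' : t ^ 2 < 4 * n := by exact_mod_cast hd
  rcases hc with k | ⟨k, a, ha⟩
  · have k' : 2 * t ^ 2 + t * n + 5 * t + n = 0 := by exact_mod_cast k
    have : (t + 1) ∣ 3 := ⟨2 * t + 3 + n, by linear_combination -k'⟩
    have h1 := Int.le_of_dvd (by norm_num) this
    have h2 := Int.le_of_dvd (by norm_num) ((neg_dvd).2 this)
    obtain ⟨s, rfl⟩ : ∃ s, t = s - 1 := ⟨t + 1, by ring⟩
    have h3 : s ≤ 3 := by omega
    have h4 : -3 ≤ s := by omega
    interval_cases s <;> omega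
  · have k' : 5 * t + 2 * n + 10 = 0 := by exact_mod_cast k
    have h1 : -8 < t := by nlinarith
    have h2 : t < -2 := by nlinarith
    have h3 : t = -6 ∨ t = -4 := by omega
    rcases h3 with rfl | rfl
    · exact not_sq (8 * a - 2) 28 (by decide +kernel) (by push_cast at ha ⊢; linear_combination -8 * ha)
    · exact not_sq (4 * a) 12 (by decide +kernel) (by push_cast at ha ⊢; linear_combination -4 * ha)

/-- `m` is not integral -/
theorem m_not_int {u m : K} (hu : u ≠ 0) (hm : m ≠ 0) (h : u + 1 + 5 / u = m + 3 / m)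
    (hm' : ¬ ∃ q : ℚ, m = q) (hv : ∀ v : HeightOneSpectrum (𝓞 K), v.valuation K m ≤ 1) : False := by
  obtain ⟨T, N, e⟩ := exists_TN hm'
  have hd := disc_neg hm' e
  have hc : 2 * T ^ 2 + 3 * T + N * (T - 1) = 0 ∨
      (2 * T + N + 3 = 0 ∧ ∃ a : ℚ, 4 * a ^ 2 - (6 + 2 * T) * a + 3 + 2 * T = 0) := by
    obtain ⟨hu', a, ha0, ha1, hf⟩ := families hu hm h hm'
    have ha1' : 1 - a ≠ 0 := sub_ne_zero.2 (Ne.symm ha1)
    rcases hf with ⟨e', hf⟩ | ⟨e', hf⟩ | ⟨e', hf⟩
    · left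
      obtain ⟨k1, k2⟩ := cmp hm' (A := 1 - a) (B := a) (C := a * (5 * a - 3)) (by
        rw [e']; push_cast at hf ⊢; linear_combination (a : K) * hf) e
      have e1 : T = -a / (1 - a) := by field_simp; linear_combination k1
      have e2 : N = a * (5 * a - 3) / (1 - a) := by field_simp; linear_combination -k2
      rw [e1, e2]; field_simp; ring
    · left
      obtain ⟨k1, k2⟩ := cmp hm' (A := 2 * (1 - a)) (B := (1 - a) * (3 - 5 * a))
        (C := 2 * a * (5 * a - 3)) (by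
          rw [e']; push_cast at hf ⊢; linear_combination (a : K) * hf) e
      have e1 : T = (5 * a - 3) / 2 := by
        apply mul_left_cancel₀ ha1'; linear_combination (1 / 2) * k1
      have e2 : N = a * (5 * a - 3) / (1 - a) := by field_simp; linear_combination (-1 / 2) * k2
      rw [e1, e2]; field_simp; ring
    · right
      obtain ⟨k1, k2⟩ := cmp hm' (A := 4 * (1 - a)) (B := 8 * a ^ 2 - 12 * a + 6)
        (C := 16 * a ^ 2 - 12 * a) (by
          rw [e']; push_cast at hf ⊢; linear_combination (a : K) * hf) e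
      refine ⟨?_, a, by linear_combination (1 / 2) * k1⟩
      apply mul_left_cancel₀ ha1'
      linear_combination (1 / 2) * k1 - (1 / 4) * k2
  obtain ⟨⟨t, rfl⟩, n, rfl⟩ := int_coeffs hm' e hv
  have hd' : t ^ 2 < 4 * n := by exact_mod_cast hd
  rcases hc with k | ⟨k, a, ha⟩
  · have k' : 2 * t ^ 2 + 3 * t + n * (t - 1) = 0 := by exact_mod_cast k
    have : (t - 1) ∣ 5 := ⟨-(2 * t + 5 + n), by linear_combination k'⟩
    have h1 := Int.le_of_dvd (by norm_num) this
    have h2 := Int.le_of_dvd (by norm_num) ((neg_dvd).2 this)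
    obtain ⟨s, rfl⟩ : ∃ s, t = s + 1 := ⟨t - 1, by ring⟩
    have h3 : s ≤ 5 := by omega
    have h4 : -5 ≤ s := by omega
    interval_cases s <;> omega
  · have k' : 2 * t + n + 3 = 0 := by exact_mod_cast k
    have h1 : -6 < t := by nlinarith
    have h2 : t < -2 := by nlinarith
    interval_cases t
    · exact not_sq (4 * a + 2) 32 (by decide +kernel) (by push_cast at ha ⊢; linear_combination 4 * ha)
    · exact not_sq (4 * a + 1) 21 (by decide +kernel) (by push_cast at ha ⊢; linear_combination 4 * ha)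
    · exact not_sq (4 * a) 12 (by decide +kernel) (by push_cast at ha ⊢; linear_combination 4 * ha)

theorem num_den_dvd {a : ℚ} {A B : ℤ} {n : ℤ} (ha : a ≠ 0) (h : A * a + B / a = n) :
    (a.den : ℤ) ∣ A ∧ a.num ∣ B := by
  have ea : (a.num : ℚ) = a * a.den := (Rat.mul_den_eq_num a).symm
  have hcop : IsCoprime a.num (a.den : ℤ) := by
    rw [Int.isCoprime_iff_gcd_eq_one]; exact a.reduced
  have e : A * a.num ^ 2 + B * (a.den : ℤ) ^ 2 = n * a.num * a.den := by
    have : ((A * a.num ^ 2 + B * (a.den : ℤ) ^ 2 : ℤ) : ℚ) = (n * a.num * a.den : ℤ) := by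
      push_cast; rw [ea, ← h]; field_simp
    exact_mod_cast this
  constructor
  · refine (hcop.symm.pow_right (n := 2)).dvd_of_dvd_mul_right ⟨n * a.num - B * a.den, ?_⟩
    linear_combination e
  · refine (hcop.pow_right (n := 2)).dvd_of_dvd_mul_right ⟨n * a.den - A * a.num, ?_⟩
    linear_combination e

/-- `u - m` is integral only at six pairs of conjugate points -/
theorem phi_int {u m : K} (hu : u ≠ 0) (hm : m ≠ 0) (h : u + 1 + 5 / u = m + 3 / m)
    (hm' : ¬ ∃ q : ℚ, m = q) (hv : ∀ v : HeightOneSpectrum (𝓞 K), v.valuation K (u - m) ≤ 1) :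
    (2 * u ^ 2 + u + 8 = 0 ∨ 8 * u ^ 2 + 5 * u + 50 = 0) ∨
    (4 * u ^ 2 + u + 6 = 0 ∨ 6 * u ^ 2 + 5 * u + 100 = 0) ∨
    (3 * u ^ 2 + 16 * u + 25 = 0 ∨ 5 * u ^ 2 + 16 * u + 15 = 0) := by
  obtain ⟨hu', a, ha0, ha1, hf⟩ := families hu hm h hm'
  have ha1' : 1 - a ≠ 0 := sub_ne_zero.2 (Ne.symm ha1)
  have ha1K : (1 : K) - a ≠ 0 := by exact_mod_cast ha1'
  have hφ : ∀ b : ℚ, m = a * u + b → ¬ ∃ q : ℚ, u - m = q := by
    rintro b e ⟨q, hq⟩
    exact hu' ⟨(q + b) / (1 - a), by push_cast; field_simp; linear_combination hq + e⟩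
  rcases hf with ⟨e', hf⟩ | ⟨e', hf⟩ | ⟨e', hf⟩
  · have hφ := hφ 0 (by simpa using e')
    have e : (u - m) ^ 2 - (-1 : ℚ) * (u - m) + ((5 * a - 3) * (1 - a) / a : ℚ) = 0 := by
      have a0 : (a : K) ≠ 0 := by exact_mod_cast ha0
      rw [e']; push_cast at hf ⊢; field_simp; linear_combination (1 - (a : K)) * hf
    have hd := disc_neg hφ e
    obtain ⟨-, n, hn⟩ := int_coeffs hφ e hv
    obtain ⟨k1, k2⟩ := num_den_dvd (A := -5) (B := -3) (n := n - 8) ha0 (by
      push_cast; rw [← hn]; field_simp; ring)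
    have hq : a.den = 1 ∨ a.den = 5 :=
      (Nat.dvd_prime Nat.prime_five).1 (by exact_mod_cast (dvd_neg.1 k1))
    have hp : a.num.natAbs = 1 ∨ a.num.natAbs = 3 :=
      (Nat.dvd_prime Nat.prime_three).1 (by exact_mod_cast Int.natAbs_dvd_natAbs.2 (dvd_neg.1 k2))
    have ea : a = a.num / a.den := (Rat.num_div_den a).symm
    have hp' : a.num = 1 ∨ a.num = -1 ∨ a.num = 3 ∨ a.num = -3 := by omega
    rcases hq with j | j <;> rcases hp' with i | i | i | i <;> rw [i, j] at ea <;>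
      rw [ea] at hd hf <;> push_cast at hf <;> norm_num at hd
    · left; left; linear_combination -hf
    · right; left; left; linear_combination (-1 / 3) * hf
    · right; left; right; linear_combination -25 * hf
    · left; right; linear_combination (-25 / 3) * hf
  · exfalso
    have hφ := hφ (5 / 2 * a - 3 / 2) (by rw [e']; push_cast; ring)
    obtain ⟨T, N, e⟩ := exists_TN hφ
    have hd := disc_neg hφ e
    obtain ⟨k1, k2⟩ := cmp hφ (A := 4 * a) (B := 2 * ((5 * a - 3) * (1 + a)))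
      (C := (5 * a - 3) * (1 + a)) (by
        rw [e']; push_cast at hf ⊢; linear_combination 2 * (1 - (a : K)) * hf) e
    obtain ⟨-, n, rfl⟩ := int_coeffs hφ e hv
    have e1 : T = -2 * n := by
      apply mul_left_cancel₀ ha0; linear_combination (1 / 4) * k1 - (1 / 2) * k2
    rw [e1] at hd
    have hd' : (-2 * n) ^ 2 < 4 * n := by exact_mod_cast hd
    have : 0 < n := by nlinarith
    nlinarith
  · have hφ := hφ (2 * a - 3 / 2) (by rw [e']; push_cast; ring)
    have a0 : (a : K) ≠ 0 := by exact_mod_cast ha0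
    have e : (u - m) ^ 2 - (-2 * a - 1 + 3 / (2 * a) : ℚ) * (u - m) + (2 - 3 / (2 * a) : ℚ) = 0 := by
      rw [e']; push_cast at hf ⊢; field_simp; linear_combination (1 - (a : K)) * hf
    have hd := disc_neg hφ e
    obtain ⟨⟨t, ht⟩, n, hn⟩ := int_coeffs hφ e hv
    have e1 : 2 * a = ((1 - n - t : ℤ) : ℚ) := by push_cast; linarith
    have e2 : (2 - n) * (1 - n - t) = 3 := by
      have : (((2 - n) * (1 - n - t) : ℤ) : ℚ) = 3 := by
        rw [Int.cast_mul, ← e1]; push_cast; rw [← hn]; field_simp; ring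
      exact_mod_cast this
    have e3 : (1 - n - t) ∣ 3 := Dvd.intro_left _ e2
    have hp : (1 - n - t).natAbs = 1 ∨ (1 - n - t).natAbs = 3 :=
      (Nat.dvd_prime Nat.prime_three).1 (by exact_mod_cast Int.natAbs_dvd_natAbs.2 e3)
    have hp' : 1 - n - t = 1 ∨ 1 - n - t = -1 ∨ 1 - n - t = 3 ∨ 1 - n - t = -3 := by omega
    have ea : a = ((1 - n - t : ℤ) : ℚ) / 2 := by linarith
    rcases hp' with i | i | i | i <;> rw [i] at ea <;> rw [ea] at hd hf <;> push_cast at hf <;>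
      norm_num at hd
    · right; right; left; linear_combination -hf
    · right; right; right; linear_combination (-1 / 3) * hf

omit [Algebra.IsQuadraticExtension ℚ K] [IsTotallyComplex K] in
theorem three_le {S : Set (HeightOneSpectrum (𝓞 K))} {a b c : HeightOneSpectrum (𝓞 K)}
    (ha : a ∈ S) (hb : b ∈ S) (hc : c ∈ S) (h1 : a ≠ b) (h2 : a ≠ c) (h3 : b ≠ c) :
    3 ≤ S.encard := by
  have : ({a, b, c} : Set _).encard = 3 := Set.encard_eq_three.2 ⟨a, b, c, h1, h2, h3, rfl⟩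
  rw [← this]
  exact Set.encard_le_encard (by rintro x (rfl | rfl | rfl) <;> assumption)

omit [Algebra.IsQuadraticExtension ℚ K] [IsTotallyComplex K] in
/-- `x` and `n / x` have no common pole -/
theorem no_both {Γ : Type*} [LinearOrderedCommGroupWithZero Γ] (w : Valuation K Γ) {x : K} (n : ℕ)
    (h1 : 1 < w x) (h2 : 1 < w (n / x)) : False := by
  rw [map_div₀, one_lt_div₀ (lt_trans zero_lt_one h1)] at h2
  exact absurd (h1.trans h2) (not_lt.2 (w_nat w n))

omit [Algebra.IsQuadraticExtension ℚ K] [IsTotallyComplex K] in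
theorem exists_pole {x : K} (hx : ¬ ∃ q : ℚ, x = q) {b c : ℚ} (h : x ^ 2 + b * x + c = 0)
    {l : ℕ} (hl : l.Prime) (hb : l ∣ b.den) :
    ∃ v : HeightOneSpectrum (𝓞 K), (l : 𝓞 K) ∈ v.asIdeal ∧ 1 < v.valuation K x := by
  by_contra k
  exact (coeffs hx h hl fun v j => not_lt.1 fun i => k ⟨v, j, i⟩).1 hb

omit [Algebra.IsQuadraticExtension ℚ K] [IsTotallyComplex K] in
theorem ne_23 {a b : HeightOneSpectrum (𝓞 K)} (ha : ((2 : ℕ) : 𝓞 K) ∈ a.asIdeal)
    (hb : ((3 : ℕ) : 𝓞 K) ∈ b.asIdeal) : a ≠ b := by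
  rintro rfl
  have := a.asIdeal.sub_mem hb ha
  norm_num at this
  exact a.isPrime.ne_top ((Ideal.eq_top_iff_one _).2 this)

omit [Algebra.IsQuadraticExtension ℚ K] [IsTotallyComplex K] in
/-- the points over the field of `√-95` have three poles -/
theorem poles95 {u : K} (hu : ¬ ∃ q : ℚ, u = q) (h : 4 * u ^ 2 + u + 6 = 0) :
    3 ≤ {v : HeightOneSpectrum (𝓞 K) | 1 < v.valuation K u ∨ 1 < v.valuation K (5 / u)}.encard := by
  have hu0 : u ≠ 0 := by rintro rfl; exact hu ⟨0, by simp⟩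
  have hu5 : ¬ ∃ q : ℚ, 5 / u = q := by
    rintro ⟨q, hq⟩
    exact hu ⟨5 / q, by push_cast; rw [← hq]; field_simp⟩
  have h5 : (5 / u) ^ 2 + (5 / 6 : ℚ) * (5 / u) + (50 / 3 : ℚ) = 0 := by
    push_cast; field_simp; linear_combination 75 * h
  obtain ⟨a, a1, a2⟩ := exists_pole hu (b := 1 / 4) (c := 3 / 2)
    (by push_cast; linear_combination (1 / 4) * h) Nat.prime_two (by norm_num)
  obtain ⟨b, b1, b2⟩ := exists_pole hu5 h5 Nat.prime_two (by norm_num)
  obtain ⟨c, c1, c2⟩ := exists_pole hu5 h5 Nat.prime_three (by norm_num)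
  refine three_le (Or.inl a2) (Or.inr b2) (Or.inr c2) ?_ (ne_23 a1 c1) (ne_23 b1 c1)
  rintro rfl
  exact no_both _ 5 a2 (by exact_mod_cast b2)

/-- **points of `X(s3,b5)` with at most two poles** -/
theorem brunge0 {u m : K} (hu : u ≠ 0) (hm : m ≠ 0) (h : u + 1 + 5 / u = m + 3 / m) :
    (∃ q : ℚ, m = q) ∨
    3 ≤ {v : HeightOneSpectrum (𝓞 K) | 1 < v.valuation K u ∨ 1 < v.valuation K (5 / u)}.encard ∨
    (2 * u ^ 2 + u + 8 = 0 ∨ 8 * u ^ 2 + 5 * u + 50 = 0) ∨
    (3 * u ^ 2 + 16 * u + 25 = 0 ∨ 5 * u ^ 2 + 16 * u + 15 = 0) := by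
  by_cases hm' : ∃ q : ℚ, m = q
  · exact Or.inl hm'
  right
  have hu' := (families hu hm h hm').1
  have u5 : 5 / u ≠ 0 := div_ne_zero (by norm_num) hu
  have m3 : 3 / m ≠ 0 := div_ne_zero (by norm_num) hm
  have uu : 5 / (5 / u) = u := by field_simp
  have mm : 3 / (3 / m) = m := by field_simp
  have hm3 : ¬ ∃ q : ℚ, 3 / m = q := by
    rintro ⟨q, hq⟩
    exact hm' ⟨3 / q, by push_cast; rw [← hq, mm]⟩
  have hu5 : ¬ ∃ q : ℚ, 5 / u = q := by
    rintro ⟨q, hq⟩
    exact hu' ⟨5 / q, by push_cast; rw [← hq, uu]⟩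
  have h1 : 5 / u + 1 + 5 / (5 / u) = m + 3 / m := by rw [uu, ← h]; ring
  have h2 : u + 1 + 5 / u = 3 / m + 3 / (3 / m) := by rw [mm, h]; ring
  set S := {v : HeightOneSpectrum (𝓞 K) | 1 < v.valuation K u ∨ 1 < v.valuation K (5 / u)} with hS
  by_cases h3 : 3 ≤ S.encard
  · exact Or.inl h3
  have exc : ∀ m : K, m ≠ 0 → u + 1 + 5 / u = m + 3 / m → (¬ ∃ q : ℚ, m = q) →
      (∀ v : HeightOneSpectrum (𝓞 K), v.valuation K (u - m) ≤ 1) → 3 ≤ S.encard ∨
      (2 * u ^ 2 + u + 8 = 0 ∨ 8 * u ^ 2 + 5 * u + 50 = 0) ∨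
      (3 * u ^ 2 + 16 * u + 25 = 0 ∨ 5 * u ^ 2 + 16 * u + 15 = 0) := by
    intro m hm h hm' hv
    rcases phi_int hu hm h hm' hv with k | (k | k) | k
    · exact Or.inr (Or.inl k)
    · exact Or.inl (poles95 hu' k)
    · left
      have := poles95 hu5 (by field_simp; linear_combination k)
      rw [uu] at this
      simpa only [hS, or_comm] using this
    · exact Or.inr (Or.inr k)
  -- a pole of `m` or `3 / m` is a pole of `u` or `5 / u`, and conversely
  have up : ∀ v : HeightOneSpectrum (𝓞 K), 1 < v.valuation K m ∨ 1 < v.valuation K (3 / m) →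
      v ∈ S := by
    intro v k
    by_contra j
    obtain ⟨j1, j2⟩ := not_or.1 j
    have b : v.valuation K (m + 3 / m) ≤ 1 := by
      rw [← h]
      exact Valuation.map_add_le _ (Valuation.map_add_le _ (not_lt.1 j1) (by simp)) (not_lt.1 j2)
    rcases k with k | k
    · have : v.valuation K (3 / m) ≤ 1 := not_lt.1 fun i => no_both _ 3 k (by exact_mod_cast i)
      rw [Valuation.map_add_eq_of_lt_left _ (this.trans_lt k)] at b
      exact absurd k (not_lt.2 b)
    · have : v.valuation K m ≤ 1 := not_lt.1 fun i => no_both _ 3 i (by exact_mod_cast k)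
      rw [Valuation.map_add_eq_of_lt_right _ (this.trans_lt k)] at b
      exact absurd k (not_lt.2 b)
  obtain ⟨a, ha⟩ : ∃ v : HeightOneSpectrum (𝓞 K), 1 < v.valuation K u := by
    by_contra k
    exact u_not_int hu hm h hm' fun v => not_lt.1 fun i => k ⟨v, i⟩
  obtain ⟨b, hb⟩ : ∃ v : HeightOneSpectrum (𝓞 K), 1 < v.valuation K (5 / u) := by
    by_contra k
    exact u_not_int u5 hm h1 hm' fun v => not_lt.1 fun i => k ⟨v, i⟩
  have hab : a ≠ b := by rintro rfl; exact no_both _ 5 ha (by exact_mod_cast hb)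
  have two : ∀ v ∈ S, v = a ∨ v = b := by
    intro v hv
    by_contra k
    obtain ⟨k1, k2⟩ := not_or.1 k
    exact h3 (three_le (Or.inl ha) (Or.inr hb) hv hab (Ne.symm k1) (Ne.symm k2))
  have main : ∀ m : K, m ≠ 0 → u + 1 + 5 / u = m + 3 / m →
      (∀ v : HeightOneSpectrum (𝓞 K), 1 < v.valuation K m → v ∈ S) → 1 < a.valuation K m →
      1 < b.valuation K (3 / m) → ∀ v : HeightOneSpectrum (𝓞 K), v.valuation K (u - m) ≤ 1 := by
    intro m hm h up k1 k2 v
    by_cases j : v = a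
    · subst j
      have e : u - m = 3 / m - 5 / u - 1 := by linear_combination h
      rw [e]
      refine Valuation.map_sub_le _ (Valuation.map_sub_le _ ?_ ?_) (by simp)
      · exact not_lt.1 fun i => no_both _ 3 k1 (by exact_mod_cast i)
      · exact not_lt.1 fun i => no_both _ 5 ha (by exact_mod_cast i)
    · refine Valuation.map_sub_le _ (not_lt.1 fun i => ?_) (not_lt.1 fun i => ?_)
      · rcases two v (Or.inl i) with rfl | rfl
        · exact j rfl
        · exact no_both _ 5 i (by exact_mod_cast hb)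
      · rcases two v (up v i) with rfl | rfl
        · exact j rfl
        · exact no_both _ 3 i (by exact_mod_cast k2)
  obtain ⟨c, hc⟩ : ∃ v : HeightOneSpectrum (𝓞 K), 1 < v.valuation K m := by
    by_contra k
    exact m_not_int hu hm h hm' fun v => not_lt.1 fun i => k ⟨v, i⟩
  obtain ⟨d, hd⟩ : ∃ v : HeightOneSpectrum (𝓞 K), 1 < v.valuation K (3 / m) := by
    by_contra k
    exact m_not_int hu m3 h2 hm3 fun v => not_lt.1 fun i => k ⟨v, i⟩
  have hcd : c ≠ d := by rintro rfl; exact no_both _ 3 hc (by exact_mod_cast hd)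
  rcases two c (up c (Or.inl hc)) with rfl | rfl <;> rcases two d (up d (Or.inr hd)) with rfl | rfl
  · exact absurd rfl hcd
  · exact exc m hm h hm' (main m hm h (fun v i => up v (Or.inl i)) hc hd)
  · exact exc (3 / m) m3 h2 hm3 (main (3 / m) m3 h2 (fun v i => up v (Or.inr i)) hd (by rwa [mm]))
  · exact absurd rfl hcd

/-- **points of `X(s3,b5)` with at most two poles of `j`** -/
theorem brunge {u y : K} (hu : u ≠ 0) (h : y ^ 2 = u ^ 4 + 2 * u ^ 3 - u ^ 2 + 10 * u + 25) :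
    (∃ q : ℚ, u ^ 2 + 5 = q * u) ∨
    3 ≤ {v : HeightOneSpectrum (𝓞 K) |
      1 < v.valuation K ((u ^ 6 + 10 * u ^ 3 + 5) ^ 3 / u ^ 3)}.encard ∨
    (2 * u ^ 2 + u + 8 = 0 ∨ 8 * u ^ 2 + 5 * u + 50 = 0) ∨
    (3 * u ^ 2 + 16 * u + 25 = 0 ∨ 5 * u ^ 2 + 16 * u + 15 = 0) := by
  obtain ⟨m, hm, hum⟩ := to_um hu h
  rcases brunge0 hu hm hum with ⟨q, rfl⟩ | k | k
  · exact Or.inl (rat_p hu hum)
  · refine Or.inr (Or.inl (k.trans (Set.encard_le_encard ?_)))
    rintro v (i | i)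
    · exact big_u _ i
    · exact small_u _ hu i
  · exact Or.inr (Or.inr k)

end Vale.Agent.Q017B
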