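import Vale.Agent.Q017B.D
import Vale.Agent.Q017A.Rel

/-!
# Imaginary quadratic points of `X(s3,b5)` with a rational `2`-isogeny are `ℚ`-curves
-/

set_option linter.all false

namespace Vale.Agent.Q017B

open NumberField Vale.Agent.Q017A

/-- the rational points of `y² = x (x² - 7 x + 16)` -/
theorem rat15c {x y : ℚ} (h : y ^ 2 = x * (x ^ 2 - 7 * x + 16)) : x = 0 ∨ x = 4 := by
  by_cases hx : x = 0
  · exact Or.inl hx
  right
  have h2 : (y / x) ^ 2 = x - 7 + 16 / x := by field_simp; linear_combination h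
  have h1 := rat15' (x := (y / x) ^ 2 - 1) (y := y / x * (x - 16 / x)) (by
    rw [mul_pow, h2]; field_simp; ring)
  rcases h1 with k | k | k | k | k
  · have e : x - 7 + 16 / x = 1 := by linarith
    field_simp at e
    have : (x - 4) ^ 2 = 0 := by linarith
    linarith [pow_eq_zero_iff two_ne_zero |>.1 this]
  · have e : x - 7 + 16 / x = 0 := by linarith
    field_simp at e
    nlinarith [sq_nonneg (2 * x - 7)]
  · nlinarith [sq_nonneg (y / x)]
  · exact absurd (by linarith) (not_sq_five (y / x))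
  · nlinarith [sq_nonneg (y / x)]

variable {K : Type*} [Field K] [NumberField K] [Algebra.IsQuadraticExtension ℚ K]
  [IsTotallyComplex K]

theorem curve1 {U Z : K} (hU : ¬ ∃ q : ℚ, U = q) {T N : ℚ} (hT : U ^ 2 - T * U + N = 0)
    (h : Z ^ 2 = (U ^ 2 - 4) * ((U + 1) * (U - 3))) :
    T = 1 ∨ -6 * T ^ 2 - T * N + N ^ 2 + 6 * T + 13 * N + 11 = 0 := by
  obtain ⟨T', N', l, m, th, eta, k, hD, -, h0, h1, h2, h3⟩ :=
    euler (y := Z) hU (a := 1) (b := -2) (c := -7) (d := 8) (e := 12)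
      (by push_cast; linear_combination h)
  obtain ⟨e1, e2⟩ := indep hU (a := T - T') (b := N' - N) (by push_cast; linear_combination k - hT)
  obtain rfl : T' = T := by linarith
  obtain rfl : N' = N := by linarith
  have h4 : 4 * (-7 + th - 2 * T' + T' ^ 2) * (12 + th * N' + N' ^ 2) =
      (8 - th * T' - 2 * N' * T' + 2 * N') ^ 2 := by
    linear_combination (-4 * m ^ 2) * h1 - 4 * (-7 + th - 2 * T' + T' ^ 2) * h2 +
      (2 * l * m + (8 - th * T' - 2 * N' * T' + 2 * N')) * h3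
  rcases rat15' (x := th - 8) (y := eta) (by linear_combination h0) with j | j | j | j | j
  · obtain rfl : th = 8 := by linarith
    left
    have : (T' - 1) ^ 2 = 0 := by linarith
    linarith [pow_eq_zero_iff two_ne_zero |>.1 this]
  · obtain rfl : th = 7 := by linarith
    have : (T' - 2 * N' - 8) ^ 2 = 0 := by linarith
    have e : T' = 2 * N' + 8 := by linarith [pow_eq_zero_iff two_ne_zero |>.1 this]
    subst e
    nlinarith [sq_nonneg (2 * N' + 7)]
  · obtain rfl : th = -8 := by linarith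
    have : (T' - 2 * N' + 7) ^ 2 = 0 := by linarith
    have e : N' = (T' + 7) / 2 := by linarith [pow_eq_zero_iff two_ne_zero |>.1 this]
    subst e
    nlinarith [sq_nonneg l]
  · obtain rfl : th = 12 := by linarith
    right
    linarith
  · obtain rfl : th = 4 := by linarith
    nlinarith [sq_nonneg (2 * T' - (N' - 2)), sq_nonneg (N' - 4)]

theorem curve2 {U Z : K} (hU : ¬ ∃ q : ℚ, U = q) {T N : ℚ} (hT : U ^ 2 - T * U + N = 0)
    (h : Z ^ 2 = (U + 2) * (U + 1) * (U ^ 2 + 3 * U + 6)) :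
    T = -3 ∨ 2 * T ^ 2 + 3 * T * N + N ^ 2 + 6 * T + 5 * N + 3 = 0 := by
  obtain ⟨T', N', l, m, th, eta, k, hD, -, h0, h1, h2, h3⟩ :=
    euler (y := Z) hU (a := 1) (b := 6) (c := 17) (d := 24) (e := 12)
      (by push_cast; linear_combination h)
  obtain ⟨e1, e2⟩ := indep hU (a := T - T') (b := N' - N) (by push_cast; linear_combination k - hT)
  obtain rfl : T' = T := by linarith
  obtain rfl : N' = N := by linarith
  have h4 : 4 * (17 + th + 6 * T' + T' ^ 2) * (12 + th * N' + N' ^ 2) =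
      (24 - th * T' - 2 * N' * T' - 6 * N') ^ 2 := by
    linear_combination (-4 * m ^ 2) * h1 - 4 * (17 + th + 6 * T' + T' ^ 2) * h2 +
      (2 * l * m + (24 - th * T' - 2 * N' * T' - 6 * N')) * h3
  rcases rat15c (x := th + 8) (y := eta) (by linear_combination h0) with j | j
  · obtain rfl : th = -8 := by linarith
    left
    have : (T' + 3) ^ 2 = 0 := by linarith
    linarith [pow_eq_zero_iff two_ne_zero |>.1 this]
  · obtain rfl : th = -4 := by linarith
    right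
    linarith

/-- the two genus one curves have no common imaginary quadratic abscissa -/
theorem both {U Z Z' : K} (h : Z ^ 2 = (U ^ 2 - 4) * ((U + 1) * (U - 3)))
    (h' : Z' ^ 2 = (U + 2) * (U + 1) * (U ^ 2 + 3 * U + 6)) : ∃ q : ℚ, U = q := by
  by_contra hU
  obtain ⟨T, N, hT, hD⟩ := trnm hU
  rcases curve1 hU hT h with k | k <;> rcases curve2 hU hT h' with j | j
  · linarith
  · subst k; nlinarith
  · subst j
    exact not_sq_five ((N + 8) / 5) (by linear_combination (1 / 25) * k)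
  · have e : 2 * T ^ 2 + T * N - 2 * N - 2 = 0 := by linarith
    have : 5 * T ^ 2 + 10 * T - 4 = 0 := by
      linear_combination (T - 2) ^ 2 * j -
        ((3 * T + 5) * (T - 2) + (N * (T - 2) + (2 - 2 * T ^ 2))) * e
    exact not_sq_five (5 * (T + 1) / 3) (by linear_combination (5 / 9) * this)

theorem not_root {x : K} {n : ℕ} (hn : ¬ IsSquare n) : x ^ 2 ≠ n := by
  intro h
  obtain ⟨q, rfl⟩ := real_rat (z := x) (D := n) (by positivity) (by rw [h]; simp)
  exact no_sq (s := q) hn (by exact_mod_cast h)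

/-- the symmetric model of `X₀(10)` with the cube root of `j` -/
theorem ratU {w b y : K} (hw : w ≠ 0) (hb : b ≠ 0)
    (h : y ^ 2 = w ^ 4 + 2 * w ^ 3 - w ^ 2 + 10 * w + 25)
    (hr : w ^ 3 + b ^ 3 = w ^ 2 * b ^ 2 + 5 * w * b) : ∃ q : ℚ, w / b + b / w = q := by
  obtain ⟨r, rfl⟩ : ∃ r, w = r * b := ⟨w / b, by field_simp⟩
  have hr0 : r ≠ 0 := left_ne_zero_of_mul hw
  have e0 : r ^ 2 * b ^ 2 - (r ^ 3 + 1) * b + 5 * r = 0 := by
    apply mul_left_cancel₀ (pow_ne_zero 2 hb)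
    linear_combination -hr
  obtain ⟨U, hU⟩ : ∃ U, U = r + 1 / r := ⟨_, rfl⟩
  rw [show r * b / b + b / (r * b) = U by rw [hU]; field_simp]
  by_contra hq
  have hU0 : U ≠ 0 := fun k => hq ⟨0, by simpa using k⟩
  have hU3 : U - 3 ≠ 0 := fun k => hq ⟨3, by push_cast; linear_combination k⟩
  obtain ⟨c, hc⟩ : ∃ c, c = 5 / (r * b) := ⟨_, rfl⟩
  have e1 : c = r + 1 / r ^ 2 - b := by
    rw [hc]; field_simp; linear_combination e0
  have e2 : b * c = 5 / r := by rw [hc]; field_simp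
  obtain ⟨p, hp⟩ : ∃ p, p = r * b + c := ⟨_, rfl⟩
  obtain ⟨p', hp'⟩ : ∃ p', p' = b + r * c := ⟨_, rfl⟩
  have s1 : p + p' = U ^ 2 + U - 2 := by
    rw [hp, hp', hU, e1]; field_simp; ring
  have s2 : p * p' = U ^ 3 + 2 * U - 8 := by
    have : p * p' = r * (b + c) ^ 2 + (r - 1) ^ 2 * (b * c) := by rw [hp, hp']; ring
    rw [this, e2, e1, hU]; field_simp; ring
  have hq1 : (y / (r * b)) ^ 2 = (p + 1) ^ 2 - 12 := by
    rw [div_pow, h, hp, hc]; field_simp; ring
  obtain ⟨z, hz⟩ : ∃ z, z = y / (r * b) := ⟨_, rfl⟩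
  rw [← hz] at hq1
  have hz0 : z ≠ 0 := by
    rintro rfl
    exact not_root (x := p + 1) (n := 12) (by decide +kernel) (by push_cast; linear_combination -hq1)
  obtain ⟨g, hg⟩ : ∃ g, g = U ^ 3 + U ^ 2 - 3 * U - 3 := ⟨_, rfl⟩
  have hC : ((z ^ 2 - g) / (z * U)) ^ 2 = (U + 1) * (U - 3) := by
    have e3 : p' = U ^ 2 + U - 2 - p := by linear_combination s1
    rw [e3] at s2
    rw [div_pow, div_eq_iff (pow_ne_zero 2 (mul_ne_zero hz0 hU0)), mul_pow, hq1, hg]
    linear_combination (-(p ^ 2) - (U ^ 2 + U + 2) * p - (U ^ 3 + 2 * U ^ 2 + 4 * U - 8)) * s2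
  have hA : (r - 1 / r) ^ 2 = U ^ 2 - 4 := by rw [hU]; field_simp; ring
  have hB : ((b - c) * (r + 1)) ^ 2 = (U + 2) * (U - 3) * (U ^ 2 + 3 * U + 6) := by
    have : (b - c) ^ 2 = (b + c) ^ 2 - 4 * (b * c) := by ring
    rw [mul_pow, this, e2, e1, hU]; field_simp; ring
  obtain ⟨C, hC'⟩ : ∃ C, C = (z ^ 2 - g) / (z * U) := ⟨_, rfl⟩
  rw [← hC'] at hC
  refine hq (both (Z := (r - 1 / r) * C) (Z' := (b - c) * (r + 1) * C / (U - 3)) ?_ ?_)
  · rw [mul_pow, hA, hC]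
  · rw [div_pow, mul_pow, hB, hC]; field_simp

/-- the conjugates of a point of the symmetric model -/
theorem conj_w {w b y : K} (hw : w ≠ 0) (hb : b ≠ 0)
    (h : y ^ 2 = w ^ 4 + 2 * w ^ 3 - w ^ 2 + 10 * w + 25)
    (hr : w ^ 3 + b ^ 3 = w ^ 2 * b ^ 2 + 5 * w * b) (t : K ≃+* K) :
    t w = w ∨ t w = 5 / w ∨ t w = b ∨ t w = 5 / b := by
  obtain ⟨q, hq⟩ := ratU hw hb h hr
  obtain ⟨r, rfl⟩ : ∃ r, w = r * b := ⟨w / b, by field_simp⟩
  have hr0 : r ≠ 0 := left_ne_zero_of_mul hw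
  have e0 : r ^ 2 * b ^ 2 - (r ^ 3 + 1) * b + 5 * r = 0 := by
    apply mul_left_cancel₀ (pow_ne_zero 2 hb)
    linear_combination -hr
  have e1 := congrArg t e0
  simp only [map_add, map_sub, map_mul, map_pow, map_ofNat, map_one, map_zero] at e1
  rw [map_mul]
  obtain ⟨x, hx⟩ : ∃ x, x = t b := ⟨_, rfl⟩
  rw [← hx] at e1 ⊢
  rcases conj_inv t hr0 (q := q) (c := 1) (by rw [← hq]; push_cast; field_simp) with k | k <;>
    rw [k] at e1 ⊢
  · have : (x - b) * (r ^ 2 * b * x - 5 * r) = 0 := by linear_combination b * e1 - x * e0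
    rcases mul_eq_zero.1 this with j | j
    · left; rw [sub_eq_zero.1 j]
    · right; right; right
      rw [eq_div_iff hb]
      apply mul_left_cancel₀ hr0
      linear_combination j
  · push_cast at e1 ⊢
    have e2 : r * x ^ 2 - (1 + r ^ 3) * x + 5 * r ^ 2 = 0 := by
      rw [← mul_zero (r ^ 3), ← e1]; field_simp
    have : (x - r * b) * (r * b * x - 5 * r) = 0 := by linear_combination b * e2 - x * e0
    rcases mul_eq_zero.1 this with j | j
    · right; right; left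
      rw [sub_eq_zero.1 j]; field_simp
    · right; left
      field_simp
      apply mul_left_cancel₀ hr0
      linear_combination j

/-- **points of `X(s3,b5)` with a rational `2`-isogeny** -/
theorem b2 {u y V : K} (hu : u ≠ 0) (h : y ^ 2 = u ^ 4 + 2 * u ^ 3 - u ^ 2 + 10 * u + 25)
    (hV : V ≠ 0) (hj : (u ^ 6 + 10 * u ^ 3 + 5) ^ 3 / u ^ 3 = R2 V) :
    QC ((u ^ 6 + 10 * u ^ 3 + 5) ^ 3 / u ^ 3) := by
  by_cases h0 : u ^ 6 + 10 * u ^ 3 + 5 = 0
  · exact QC.of_rat (q := 0) (by rw [h0]; simp)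
  have hV16 : (V + 16) ^ 3 * u ^ 3 = V * (u ^ 6 + 10 * u ^ 3 + 5) ^ 3 := by
    unfold R2 at hj
    field_simp at hj
    linear_combination -hj
  obtain ⟨l, hl⟩ : ∃ l, l = (V + 16) / (u ^ 6 + 10 * u ^ 3 + 5) := ⟨_, rfl⟩
  have e1 : V = l ^ 3 * u ^ 3 := by
    rw [hl, div_pow, div_mul_eq_mul_div, eq_div_iff (pow_ne_zero 3 h0), hV16]
  have hl0 : l ≠ 0 := by
    rintro rfl
    exact hV (by rw [e1]; ring)
  have e2 : l * (u ^ 6 + 10 * u ^ 3 + 5) = l ^ 3 * u ^ 3 + 16 := by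
    rw [← e1, hl]; exact div_mul_cancel₀ _ h0
  have h5 : l ^ 2 - 2 * l - 4 ≠ 0 := fun k =>
    not_root (x := l - 1) (n := 5) (by decide +kernel) (by push_cast; linear_combination k)
  obtain ⟨e, he⟩ : ∃ e, e = (l ^ 2 - 10 - 2 * u ^ 3) / (l ^ 2 - 2 * l - 4) := ⟨_, rfl⟩
  have he' : e * (l ^ 2 - 2 * l - 4) = l ^ 2 - 10 - 2 * u ^ 3 := by
    rw [he]; exact div_mul_cancel₀ _ h5
  have e3 : l * (e ^ 2 - 1) = 4 := by
    apply mul_left_cancel₀ (pow_ne_zero 2 h5)
    linear_combination 4 * e2 + l * (e * (l ^ 2 - 2 * l - 4) + (l ^ 2 - 10 - 2 * u ^ 3)) * he'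
  have hp : e + 1 ≠ 0 := by
    intro k
    have : (4 : K) = 0 := by rw [← e3]; linear_combination l * (e - 1) * k
    norm_num at this
  have hm : e - 1 ≠ 0 := by
    intro k
    have : (4 : K) = 0 := by rw [← e3]; linear_combination l * (e + 1) * k
    norm_num at this
  have e4 : l = 4 / ((e + 1) * (e - 1)) := by field_simp; linear_combination e3
  have e5 : u ^ 3 = (2 * e + 3) * (e - 1) ^ 2 / (e + 1) ^ 2 := by
    rw [show u ^ 3 = (l ^ 2 - 10 - e * (l ^ 2 - 2 * l - 4)) / 2 by rw [he']; ring, e4]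
    field_simp; ring
  have h3 : 2 * e + 3 ≠ 0 := by
    intro k
    rw [k] at e5
    exact pow_ne_zero 3 hu (by rw [e5]; simp)
  obtain ⟨b, hb⟩ : ∃ b, b = u ^ 2 * (e + 1) / (e - 1) := ⟨_, rfl⟩
  have hb0 : b ≠ 0 := by rw [hb]; positivity
  have e6 : u * b = (2 * e + 3) * (e - 1) / (e + 1) := by
    rw [hb, show u * (u ^ 2 * (e + 1) / (e - 1)) = u ^ 3 * (e + 1) / (e - 1) by ring, e5]
    field_simp
  have e7 : b ^ 3 = (2 * e + 3) ^ 2 * (e - 1) / (e + 1) := by
    rw [hb, show (u ^ 2 * (e + 1) / (e - 1)) ^ 3 = (u ^ 3) ^ 2 * ((e + 1) / (e - 1)) ^ 3 by ring, e5]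
    field_simp
  have hr : u ^ 3 + b ^ 3 = u ^ 2 * b ^ 2 + 5 * u * b := by
    rw [← mul_pow, mul_assoc, e6, e5, e7]; field_simp; ring
  have j5 : ∀ x : K, (x ^ 6 + 10 * x ^ 3 + 5) ^ 3 / x ^ 3 = R5 (x ^ 3) := fun x => by
    unfold R5; ring
  have s5 : ∀ x : K, x ≠ 0 → Rel (R5 (x ^ 3)) (R5 ((5 / x) ^ 3)) := fun x hx => by
    have := Rel.s5 (x ^ 3) (pow_ne_zero 3 hx)
    rwa [show (125 : K) / x ^ 3 = (5 / x) ^ 3 by rw [div_pow]; norm_num] at this
  have s2 : Rel (R5 (u ^ 3)) (R5 (b ^ 3)) := by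
    have := Rel.s2 V hV
    rw [← hj, j5] at this
    refine this.trans (Rel.of_eq ?_)
    obtain ⟨k, hk⟩ : ∃ k, k = 2 * e + 3 := ⟨_, rfl⟩
    rw [← hk] at e5 e7 h3
    rw [e1, e5, e7, e4]
    unfold R2 R5
    field_simp
    rw [hk]
    ring
  intro t
  rw [j5, show t (R5 (u ^ 3)) = R5 (t u ^ 3) by rw [← map_pow]; exact map_R5 (t : K →+* K) _]
  rcases conj_w hu hb0 h hr t with k | k | k | k <;> rw [k]
  · exact Rel.refl _
  · exact s5 u hu
  · exact s2
  · exact s2.trans (s5 b hb0)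

end Vale.Agent.Q017B
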