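import Vale.Agent.Q017B.J
import Vale.Agent.Q017D.R75

/-!
# The six rows: two octahedra defined over `K` or conjugate over `K(√5)`
-/

set_option linter.all false

namespace Vale.Agent.Q017B

open NumberField Vale.Agent.Q017A Vale.Agent.Q017D

universe u

theorem root5 {M : Type*} [Field M] {p q c j t : M}
    (h1 : c + p * (40 - q - p * (5 - p)) + q * (5 - p) = 0)
    (h2 : p * c + q * (40 - q - p * (5 - p)) = 0) (h3 : q * c = -j) (ht : t ^ 2 + p * t + q = 0) :
    j = t ^ 3 * (t ^ 2 + 5 * t + 40) := by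
  linear_combination h3 + t ^ 2 * h1 + t * h2 -
    (t ^ 3 + (5 - p) * t ^ 2 + (40 - q - p * (5 - p)) * t + c) * ht

/-- the field `K(√5)` with its two involutions -/
theorem ext5 {K : Type u} [Field K] [CharZero K] (t : K →+* K) (ht : ∀ z, t (t z) = z)
    (hf : ∀ z, t z = z → ∃ q : ℚ, z = q) (h5 : ∀ z : K, z ^ 2 ≠ 5) :
    ∃ (M : Type u) (_ : Field M) (_ : CharZero M) (ι : K →+* M) (σ τ : M →+* M) (r : M),
      (∀ z, σ (σ z) = z) ∧ (∀ z, τ (τ z) = z) ∧ (∀ z, σ (τ z) = τ (σ z)) ∧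
      (∀ z, σ z = z → τ z = z → ∃ q : ℚ, z = q) ∧ r ^ 2 = 5 ∧ σ r = r ∧ τ r = -r ∧
      (∀ z, σ (ι z) = ι (t z)) ∧ ∀ z, τ (ι z) = ι z := by
  haveI : Fact (∀ r : K, r ^ 2 ≠ 5 + 0 * r) := ⟨fun r => by simpa using h5 r⟩
  let σ : QuadraticAlgebra K 5 0 →+* QuadraticAlgebra K 5 0 :=
    { toFun := fun z => ⟨t z.re, t z.im⟩
      map_one' := by ext <;> simp [QuadraticAlgebra.re_one, QuadraticAlgebra.im_one]
      map_mul' := fun x y => by ext <;> simp [map_ofNat]
      map_zero' := by ext <;> simp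
      map_add' := fun x y => by ext <;> simp }
  have s1 : ∀ z, (σ z).re = t z.re := fun z => rfl
  have s2 : ∀ z, (σ z).im = t z.im := fun z => rfl
  refine ⟨QuadraticAlgebra K 5 0, inferInstance, inferInstance, algebraMap K _, σ, starRingEnd _,
    ⟨0, 1⟩, fun z => ?_, fun z => ?_, fun z => ?_, fun z a b => ?_, ?_, ?_, ?_, fun z => ?_,
    fun z => ?_⟩
  · ext <;> simp [s1, s2, ht]
  · simp
  · ext <;> simp [s1, s2, starRingEnd_apply]
  · obtain ⟨q, hq⟩ := hf z.re (congrArg QuadraticAlgebra.re a)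
    have k := congrArg QuadraticAlgebra.im b
    simp only [starRingEnd_apply, QuadraticAlgebra.im_star] at k
    refine ⟨q, ?_⟩
    ext
    · simpa using hq
    · simp; linear_combination -k / 2
  · ext <;> simp [sq, QuadraticAlgebra.re_ofNat, QuadraticAlgebra.im_ofNat]
  · ext <;> simp [s1, s2]
  · ext <;> simp [starRingEnd_apply]
  · ext <;> simp [s1, s2]
  · ext <;> simp [starRingEnd_apply]

section F
variable {M : Type*} [Field M] [CharZero M] (σ τ : M →+* M) (hτ : ∀ z, τ (τ z) = z)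
  (hc : ∀ z, σ (τ z) = τ (σ z)) (hfix : ∀ z, σ z = z → τ z = z → ∃ q : ℚ, z = q)
  {r : M} (hr : r ^ 2 = 5) (r1 : σ r = r) (r2 : τ r = -r)
include hτ hc hfix

theorem hA3 (z w : M) (hz : σ z = z) (hw : σ w = w)
    (h : 16 * ((-3 : ℚ) : M) * w ^ 2 = z ^ 3 + z ^ 2 + 27 * z + 243) : τ z = z :=
  (fixz σ τ hτ hc (d := -48) (g3 := 1) (g2 := 1) (g1 := 27) (g0 := 243) one_ne_zero (Or.inl rfl)
    (no_plus σ τ hfix fun z w k => r75_m3 (X := (z - 9) / 4) (W := w) (by linear_combination k / 16))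
    (by norm_num) hz hw (by push_cast at h ⊢; linear_combination h)).1

include hr r1 r2

theorem hA1 (z w : M) (hz : σ z = z) (hw : σ w = w)
    (h : 16 * ((1 : ℚ) : M) * w ^ 2 = z ^ 3 + z ^ 2 + 27 * z + 243) : τ z = z :=
  (fixz σ τ hτ hc (d := 16) (g3 := 1) (g2 := 1) (g1 := 27) (g0 := 243) one_ne_zero (Or.inr rfl)
    (no_minus σ τ hfix hr r1 r2 fun z w k => r75_5 (X := (z - 9) / 4) (W := w)
      (by linear_combination k / 16))
    (by norm_num) hz hw (by push_cast at h ⊢; linear_combination h)).1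

theorem hB5 (z w : M) (hz : σ z = z) (hw : σ w = w)
    (h : -3 * w ^ 2 = 243 * z ^ 3 + 27 * z ^ 2 + z + 1) : τ z = z :=
  (fixz σ τ hτ hc (d := -3) (g3 := 243) (g2 := 27) (g1 := 1) (g0 := 1) (by norm_num) (Or.inr rfl)
    (no_minus σ τ hfix hr r1 r2 fun z w k => r225 (X := -15 * (27 * z + 1)) (Y := 2025 * w)
      (by linear_combination -273375 * k))
    (by norm_num) hz hw (by push_cast; linear_combination h)).1

theorem hlF (X W : M) (hX : σ X = X) (hW : σ W = W)
    (h : W ^ 2 = 4 * X ^ 3 + 28 * X ^ 2 + 72 * X + 81) : X = 0 ∨ X = -3 := by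
  obtain ⟨a, b⟩ := fixz σ τ hτ hc (d := 1) (g3 := 4) (g2 := 28) (g1 := 72) (g0 := 81) (by norm_num)
    (Or.inr rfl) (no_minus σ τ hfix hr r1 r2 fun z w k => r75_5 (X := z) (W := w)
      (by linear_combination k)) one_ne_zero hX hW (by push_cast; linear_combination h)
  obtain ⟨x, rfl⟩ := hfix X hX a
  obtain ⟨w, rfl⟩ := hfix W hW (by simpa using b)
  exact_mod_cast r75 (X := x) (W := w) (by exact_mod_cast h)

end F

section rows
variable {K : Type u} [Field K] [NumberField K] [Algebra.IsQuadraticExtension ℚ K]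

theorem autK (t : K ≃+* K) : (∀ z, t z = z) ∨
    ((∀ z, t (t z) = z) ∧ ∀ z, t z = z → ∃ q : ℚ, z = q) := by
  by_cases h : ∀ z, t z = z
  · exact Or.inl h
  push Not at h
  obtain ⟨x, hx⟩ := h
  have hq : ¬ ∃ q : ℚ, x = q := by
    rintro ⟨q, rfl⟩
    exact hx (map_ratCast t q)
  obtain ⟨T, N, e⟩ := line hq (x ^ 2)
  have k : t x = T - x := (conj_root t (T := T) (N := -N)
    (by push_cast; linear_combination e)).resolve_left hx
  refine Or.inr ⟨fun z => ?_, fun z hz => ?_⟩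
  · obtain ⟨a, b, rfl⟩ := line hq z
    simp [k]
  · obtain ⟨a, b, rfl⟩ := line hq z
    simp only [map_add, map_mul, map_ratCast] at hz
    have : (a : K) = 0 := mul_right_cancel₀ (sub_ne_zero.2 hx) (by linear_combination hz)
    exact ⟨b, by rw [this]; ring⟩

variable [NumberField.IsTotallyComplex K]

theorem no_sqrt5 (z : K) : z ^ 2 ≠ 5 := by
  intro h
  obtain ⟨q, rfl⟩ := real_rat (z := z) (D := 5) (by norm_num) (by simpa using h)
  exact not_sq_five q (by exact_mod_cast h)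

/-- **rows `b3 × (Cns5, H2)`** -/
theorem rowP3 {p q c j T : K} (h1 : c + p * (40 - q - p * (5 - p)) + q * (5 - p) = 0)
    (h2 : p * c + q * (40 - q - p * (5 - p)) = 0) (h3 : q * c = -j) (hD : p ^ 2 - 4 * q ≠ 0)
    (hs : IsSquare (p ^ 2 - 4 * q) ∨ IsSquare (5 * (p ^ 2 - 4 * q))) (hT : T ≠ 0)
    (hj : j = R3 T) : QC j := by
  by_cases j0 : j = 0
  · exact QC.of_rat (q := 0) (by simpa using j0)
  by_cases j1 : j = 1728
  · exact QC.of_rat (q := 1728) (by simpa using j1)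
  intro t
  rcases autK t with k | ⟨k1, k2⟩
  · exact Rel.of_eq (k j).symm
  obtain ⟨M, _, _, ι, σ, τ, r, a1, a2, a3, a4, a5, a6, a7, a8, a9⟩ :=
    ext5 (t : K →+* K) k1 k2 no_sqrt5
  obtain ⟨s, hs⟩ : ∃ s : M, s ^ 2 = ι p ^ 2 - 4 * ι q := by
    rcases hs with ⟨s, hs⟩ | ⟨s, hs⟩ <;> replace hs := congrArg ι hs <;>
      simp only [map_sub, map_mul, map_pow, map_ofNat] at hs
    · exact ⟨ι s, by linear_combination -hs⟩
    · exact ⟨ι s * r / 5, by linear_combination -hs / 5 + ι s ^ 2 / 25 * a5⟩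
  have s0 : s ≠ 0 := by
    rintro rfl
    apply (map_ne_zero ι).2 hD
    simp only [map_sub, map_mul, map_pow, map_ofNat]
    linear_combination -hs
  replace h1 := congrArg ι h1
  replace h2 := congrArg ι h2
  replace h3 := congrArg ι h3
  simp only [map_add, map_sub, map_mul, map_neg, map_ofNat, map_zero] at h1 h2 h3
  have hT' : ι T ≠ 0 := (map_ne_zero ι).2 hT
  have key : ∀ x : M, x ^ 2 + ι p * x + ι q = 0 →
      (ι T + 27) * (ι T + 3) ^ 3 = ι T * (x ^ 3 * (x ^ 2 + 5 * x + 40)) ∧ x ≠ 0 ∧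
        x ^ 2 + 4 * x + 24 ≠ 0 := by
    intro x hx
    have e := root5 h1 h2 h3 hx
    refine ⟨?_, ?_, fun i => ?_⟩
    · rw [← e, hj, map_R3, R3]; field_simp
    · rintro rfl
      exact (map_ne_zero ι).2 j0 (by rw [e]; ring)
    · apply j1
      apply ι.injective
      rw [map_ofNat]
      linear_combination e + (x - 3) * (x ^ 2 + 4 * x + 24) * i
  obtain ⟨b1, b2, b3⟩ := key ((-ι p + s) / 2) (by linear_combination hs / 4)
  obtain ⟨c1, c2, c3⟩ := key ((-ι p - s) / 2) (by linear_combination hs / 4)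
  rcases b3core σ τ a1 a2 a3 a4 (hlF σ τ a2 a3 a4 a5 a6 a7) hT' b1 b2 b3 c1 c2 c3
    (fun i => s0 (by linear_combination i)) with i | i
  · rw [a8] at i
    refine Rel.of_eq ?_
    have := map_R3 (t : K →+* K) T
    rw [ι.injective i] at this
    rw [hj]; exact this.symm
  · rw [a8] at i
    have i' : (t : K →+* K) T = 729 / T := by
      rw [eq_div_iff hT, mul_comm]
      apply ι.injective
      rw [map_mul, map_ofNat, i]
    have := map_R3 (t : K →+* K) T
    rw [i'] at this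
    rw [hj]
    exact (Rel.s3 T hT).trans (Rel.of_eq this.symm)

/-- **rows `(s3, ns3) × (Cns5, H2)`** -/
theorem rowPC {p q c j J : K} (h1 : c + p * (40 - q - p * (5 - p)) + q * (5 - p) = 0)
    (h2 : p * c + q * (40 - q - p * (5 - p)) = 0) (h3 : q * c = -j) (hD : p ^ 2 - 4 * q ≠ 0)
    (hs : IsSquare (p ^ 2 - 4 * q) ∨ IsSquare (5 * (p ^ 2 - 4 * q))) (hJ : J ^ 3 = j)
    (hy : IsSquare (J ^ 2 + 12 * J + 144) ∨ IsSquare (-3 * (J ^ 2 + 12 * J + 144))) :
    QC j := by
  by_cases j0 : J = 0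
  · exact QC.of_rat (q := 0) (by rw [← hJ, j0]; simp)
  by_cases j1 : J ^ 3 = 1728
  · exact QC.of_rat (q := 1728) (by rw [← hJ, j1]; simp)
  by_cases j2 : J = -32
  · exact QC.of_rat (q := -32768) (by rw [← hJ, j2]; norm_num)
  suffices H : ∀ t : K ≃+* K, (∀ z, t (t z) = z) → (∀ z, t z = z → ∃ q : ℚ, z = q) → t J = J by
    intro t
    rcases autK t with k | ⟨k1, k2⟩
    · exact Rel.of_eq (k j).symm
    · exact Rel.of_eq (by rw [← hJ, map_pow, H t k1 k2])
  intro t k1 k2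
  obtain ⟨d, y, hd, hy⟩ : ∃ (d : ℚ) (y : K), (d = 1 ∨ d = -3) ∧ y ^ 2 = d * (J ^ 2 + 12 * J + 144) := by
    rcases hy with ⟨y, hy⟩ | ⟨y, hy⟩
    · exact ⟨1, y, Or.inl rfl, by push_cast; linear_combination -hy⟩
    · exact ⟨-3, y, Or.inr rfl, by push_cast; linear_combination -hy⟩
  have d0 : d ≠ 0 := by rcases hd with rfl | rfl <;> norm_num
  rcases hs with ⟨s, hs⟩ | ⟨s, hs⟩
  · have s0 : s ≠ 0 := by
      rintro rfl
      exact hD (by simpa using hs)
    obtain ⟨x, w, V, W, h⟩ := toC d0 (hJ.trans (root5 h1 h2 h3 (t := (-p + s) / 2)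
      (by linear_combination -hs / 4))) hy j0 j1 j2
    obtain ⟨x', w', V', W', h'⟩ := toC d0 (hJ.trans (root5 h1 h2 h3 (t := (-p - s) / 2)
      (by linear_combination -hs / 4))) hy j0 j1 j2
    have hne : (-p + s) / 2 ≠ (-p - s) / 2 := fun i => s0 (by linear_combination i)
    rcases hd with rfl | rfl
    · refine s3core (t : K →+* K) k1 k2 (fun X W a b e => ?_) (by simpa using hy) h h' hne
      obtain ⟨x, rfl⟩ := k2 X a
      obtain ⟨w, rfl⟩ := k2 W b
      exact_mod_cast r75 (X := x) (W := w) (by exact_mod_cast e)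
    · exact n3core (t : K →+* K) k1 k2 (fun X W => r75_m3) h h' hne
  obtain ⟨M, _, _, ι, σ, τ, r, a1, a2, a3, a4, a5, a6, a7, a8, a9⟩ :=
    ext5 (t : K →+* K) k1 k2 no_sqrt5
  have s0 : ι s ≠ 0 := (map_ne_zero ι).2 (by
    rintro rfl
    exact hD (by linear_combination hs / 5))
  have r0 : r ≠ 0 := by
    rintro rfl
    norm_num at a5
  replace h1 := congrArg ι h1
  replace h2 := congrArg ι h2
  replace h3 := congrArg ι h3
  replace hs := congrArg ι hs
  replace hJ := congrArg ι hJ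
  replace hy := congrArg ι hy
  simp only [map_add, map_sub, map_mul, map_pow, map_neg, map_ofNat, map_zero, map_ratCast]
    at h1 h2 h3 hs hJ hy
  obtain ⟨x, w, V, W, h⟩ := toC d0 (hJ.trans (root5 h1 h2 h3 (t := (-ι p + ι s * r / 5) / 2)
    (by linear_combination -hs / 20 + ι s ^ 2 / 100 * a5))) hy ((map_ne_zero ι).2 j0)
    (fun i => j1 (ι.injective (by rw [map_pow, map_ofNat, i])))
    (fun i => j2 (ι.injective (by rw [map_neg, map_ofNat, i])))
  have := betacore σ τ a1 a2 a3 a4 a5 a6 d0 (by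
      rcases hd with rfl | rfl
      · exact hA1 σ τ a2 a3 a4 a5 a6 a7
      · exact hA3 σ τ a2 a3 a4) (hB5 σ τ a2 a3 a4 a5 a6 a7) h (a9 J) (a9 y) (by
    simp only [map_add, map_mul, map_neg, map_div₀, map_ofNat, a9, a7]
    exact fun i => mul_ne_zero s0 r0 (by linear_combination 5 * i))
  rw [a8] at this
  exact ι.injective this

end rows

end Vale.Agent.Q017B
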