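import Vale.Agent.Q017B.Rat
import Vale.Agent.Q017B.Tools

/-!
# Points of `X(s3,b5)` over imaginary quadratic fields

Model: `u + 1 + 5 / u = m + 3 / m`, `j = (u⁶ + 10 u³ + 5)³ / u³`.
-/

set_option linter.all false

namespace Vale.Agent.Q017B

open NumberField IsDedekindDomain

section val
variable {K : Type*} [Field K] {Γ : Type*} [LinearOrderedCommGroupWithZero Γ] (w : Valuation K Γ)

/-- a pole of `u` is a pole of `j` -/
theorem big_u {u : K} (h : 1 < w u) : 1 < w ((u ^ 6 + 10 * u ^ 3 + 5) ^ 3 / u ^ 3) := by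
  have h0 : 0 < w u := lt_trans zero_lt_one h
  have h3 : 1 < w u ^ 3 := one_lt_pow₀ h (by norm_num)
  have h10 : w (10 : K) ≤ 1 := by exact_mod_cast w_nat w 10
  have h5 : w (5 : K) ≤ 1 := by exact_mod_cast w_nat w 5
  have h6 : w u ^ 3 < w u ^ 6 := pow_lt_pow_right₀ h (by norm_num)
  have e : w (u ^ 6 + 10 * u ^ 3 + 5) = w u ^ 6 := by
    rw [add_assoc, ← map_pow]
    refine w.map_add_eq_of_lt_left (w.map_add_lt ?_ ?_)
    · rw [map_mul, map_pow, map_pow]
      exact lt_of_le_of_lt (mul_le_of_le_one_left zero_le h10) h6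
    · rw [map_pow]; exact lt_of_le_of_lt h5 (h3.trans h6)
  rw [map_div₀, map_pow, map_pow, e, one_lt_div₀ (pow_pos h0 3), ← pow_mul]
  exact pow_lt_pow_right₀ h (by norm_num)

/-- a pole of `5 / u` is a pole of `j` -/
theorem small_u {u : K} (hu : u ≠ 0) (h : 1 < w (5 / u)) :
    1 < w ((u ^ 6 + 10 * u ^ 3 + 5) ^ 3 / u ^ 3) := by
  have h0 : 0 < w u := (w.pos_iff).2 hu
  rw [map_div₀, one_lt_div₀ h0] at h
  have h10 : w (10 : K) ≤ 1 := by exact_mod_cast w_nat w 10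
  have h5 : w (5 : K) ≤ 1 := by exact_mod_cast w_nat w 5
  have h1 : w u ≤ 1 := (h.trans_le h5).le
  have h3 : w u ^ 3 ≤ w u := pow_le_of_le_one zero_le h1 (by norm_num)
  have h6 : w u ^ 6 ≤ w u := pow_le_of_le_one zero_le h1 (by norm_num)
  have e : w (u ^ 6 + 10 * u ^ 3 + 5) = w 5 := by
    refine w.map_add_eq_of_lt_right (w.map_add_lt ?_ ?_)
    · rw [map_pow]; exact h6.trans_lt h
    · rw [map_mul, map_pow]
      exact lt_of_le_of_lt ((mul_le_of_le_one_left zero_le h10).trans h3) h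
  rw [map_div₀, map_pow, map_pow, e, one_lt_div₀ (pow_pos h0 3)]
  exact pow_lt_pow_left₀ h zero_le (by norm_num)

end val

variable {K : Type*} [Field K] [NumberField K] [Algebra.IsQuadraticExtension ℚ K]

/-- `j` does not reduce to the supersingular value at a valuation above `3` -/
theorem ord3_val {Γ : Type*} [LinearOrderedCommGroupWithZero Γ] (w : Valuation K Γ)
    (h3 : w (3 : K) < 1) {u m : K} (hu : u ≠ 0) (hm : m ≠ 0) (h : u + 1 + 5 / u = m + 3 / m) :
    1 ≤ w ((u ^ 6 + 10 * u ^ 3 + 5) ^ 3 / u ^ 3) := by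
  by_contra hj
  have hj := not_le.1 hj
  have h3' : w ((3 : ℕ) : K) < 1 := by exact_mod_cast h3
  have unit : ∀ n : ℤ, ¬ (3 : ℤ) ∣ n → w (n : K) = 1 := fun n hn =>
    w_unit w Nat.prime_three h3' (by exact_mod_cast hn)
  have h5 : w (5 : K) = 1 := by exact_mod_cast unit 5 (by norm_num)
  have u0 : 0 < w u := (w.pos_iff).2 hu
  have u1 : w u = 1 := by
    refine le_antisymm (not_lt.1 fun k => absurd (big_u w k) (not_lt.2 hj.le))
      (not_lt.1 fun k => absurd (small_u w hu ?_) (not_lt.2 hj.le))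
    rw [map_div₀, h5, one_lt_div₀ u0]; exact k
  rw [map_div₀, map_pow, map_pow, u1, one_pow, div_one] at hj
  have a1 : w (u ^ 6 + 10 * u ^ 3 + 5) < 1 := by
    by_contra k
    exact absurd hj (not_lt.2 (one_le_pow₀ (not_lt.1 k)))
  have a2 : w (u ^ 2 + u - 1) < 1 := by
    have e : (u ^ 2 + u - 1) ^ 3 = (u ^ 6 + 10 * u ^ 3 + 5) - 3 * (-u ^ 5 + 5 * u ^ 3 - u + 2) := by
      ring
    have b1 : w (-u ^ 5 + 5 * u ^ 3 - u + 2) ≤ 1 := by
      refine w.map_add_le (w.map_sub_le (w.map_add_le ?_ ?_) u1.le) (by exact_mod_cast w_nat w 2)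
      · simp [u1]
      · simp [u1, h5]
    have b2 : w ((u ^ 2 + u - 1) ^ 3) < 1 := by
      rw [e]
      refine w.map_sub_lt a1 ?_
      rw [map_mul]
      exact mul_lt_one_of_nonneg_of_lt_one_left zero_le h3 b1
    by_contra k
    rw [map_pow] at b2
    exact absurd b2 (not_lt.2 (one_le_pow₀ (not_lt.1 k)))
  have a3 : w (m + 3 / m) < 1 := by
    have e : m + 3 / m = (u ^ 2 + u - 1) / u + 3 * (2 / u) := by
      rw [← h]; field_simp; ring
    have h2 : w (2 : K) ≤ 1 := by exact_mod_cast w_nat w 2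
    rw [e]
    refine w.map_add_lt ?_ ?_
    · rw [map_div₀, u1, div_one]; exact a2
    · rw [map_mul, map_div₀, u1, div_one]
      exact mul_lt_one_of_nonneg_of_lt_one_left zero_le h3 h2
  have m0 : 0 < w m := (w.pos_iff).2 hm
  have m1 : w m < 1 := by
    by_contra k
    have k := not_lt.1 k
    have : w (3 / m) < w m := by
      rw [map_div₀]
      exact lt_of_lt_of_le ((div_lt_one₀ m0).2 (h3.trans_le k)) k
    rw [w.map_add_eq_of_lt_left this] at a3
    exact absurd a3 (not_lt.2 k)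
  have m2 : w (3 : K) < w m := by
    by_contra k
    have k : 1 ≤ w (3 / m) := by rw [map_div₀, one_le_div₀ m0]; exact not_lt.1 k
    rw [w.map_add_eq_of_lt_right (m1.trans_le k)] at a3
    exact absurd a3 (not_lt.2 k)
  have comb : ∀ A B : ℤ, ¬ ((3 : ℤ) ∣ A ∧ (3 : ℤ) ∣ B) → ¬ w ((B : K) + A * u) < 1 := by
    intro A B hAB k
    by_cases hA : (3 : ℤ) ∣ A
    · have hB := unit B fun j => hAB ⟨hA, j⟩
      have : w ((A : K) * u) < w (B : K) := by
        rw [map_mul, u1, mul_one, hB]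
        exact (w_dvd w (p := 3) (by exact_mod_cast hA)).trans_lt h3'
      rw [w.map_add_eq_of_lt_left this, hB] at k
      exact lt_irrefl _ k
    · have hN : ¬ (3 : ℤ) ∣ B ^ 2 - A * B - A ^ 2 := by
        have h9 : ∀ a b : ZMod 3, b ^ 2 - a * b - a ^ 2 = 0 → a = 0 := by decide
        intro j
        apply hA
        have j' := (ZMod.intCast_zmod_eq_zero_iff_dvd _ 3).2 (by exact_mod_cast j)
        push_cast at j'
        exact_mod_cast (ZMod.intCast_zmod_eq_zero_iff_dvd A 3).1 (h9 _ _ j')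
      have e : ((B ^ 2 - A * B - A ^ 2 : ℤ) : K) =
          (A : K) ^ 2 * (u ^ 2 + u - 1) - ((B : K) + A * u) * (A * u + (A - B : ℤ)) := by
        push_cast; ring
      have := unit _ hN
      rw [e] at this
      refine absurd this (ne_of_lt (w.map_sub_lt ?_ ?_))
      · rw [map_mul, map_pow, unit A hA, one_pow, one_mul]; exact a2
      · rw [map_mul]
        refine mul_lt_one_of_nonneg_of_lt_one_left zero_le k (w.map_add_le ?_ (w_int w _))
        rw [map_mul, u1, mul_one]; exact w_int w A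
  obtain ⟨a, b, c, h0, he⟩ := dep3_int 3 Nat.prime_three u m
  have e : (a : K) + b * u = -(c * m) := by linear_combination he
  by_cases k : (3 : ℤ) ∣ b ∧ (3 : ℤ) ∣ a
  · have hc := unit c fun j => h0 ⟨by exact_mod_cast k.2, by exact_mod_cast k.1, by exact_mod_cast j⟩
    have b1 : w ((a : K) + b * u) ≤ w (3 : K) := by
      refine w.map_add_le ?_ ?_
      · exact_mod_cast w_dvd w (p := 3) (by exact_mod_cast k.2)
      · rw [map_mul, u1, mul_one]
        exact_mod_cast w_dvd w (p := 3) (by exact_mod_cast k.1)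
    rw [e, w.map_neg, map_mul, hc, one_mul] at b1
    exact absurd m2 (not_lt.2 b1)
  · apply comb b a k
    rw [e, w.map_neg, map_mul]
    exact mul_lt_one_of_nonneg_of_lt_one_right (w_int w c) zero_le m1

/-- **potentially ordinary or multiplicative at all places above `3`** -/
theorem ord3 {u m : K} (hu : u ≠ 0) (hm : m ≠ 0) (h : u + 1 + 5 / u = m + 3 / m)
    (v : HeightOneSpectrum (𝓞 K)) (hv : (3 : 𝓞 K) ∈ v.asIdeal) :
    1 ≤ v.valuation K ((u ^ 6 + 10 * u ^ 3 + 5) ^ 3 / u ^ 3) :=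
  ord3_val _ (by exact_mod_cast (lt_one_iff v 3).2 (by exact_mod_cast hv)) hu hm h

/-! ### arithmetic of the three families -/

theorem cop2 (a : ℚ) : ¬ ((2 : ℤ) ∣ a.num ∧ (2 : ℤ) ∣ a.den) := by
  rintro ⟨h1, h2⟩
  have := Nat.dvd_gcd (Int.natCast_dvd.1 (show ((2 : ℕ) : ℤ) ∣ a.num by exact_mod_cast h1))
    (show 2 ∣ a.den by exact_mod_cast h2)
  rw [a.reduced] at this
  omega

theorem odd_mul {x y : ℤ} (hx : ¬ (2 : ℤ) ∣ x) (hy : ¬ (2 : ℤ) ∣ y) : ¬ (2 : ℤ) ∣ x * y :=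
  fun k => (Int.prime_two.dvd_mul.1 k).elim hx hy

/-- the common part of the first two families -/
theorem both_odd {a c c' : ℚ} (hc : c * (a * (1 - a)) = 5 * a - 3) (hc' : c' * c = 25)
    (h1 : ¬ 2 ∣ c.den) (h2 : ¬ 2 ∣ c'.den) : ¬ (2 : ℤ) ∣ a.num ∧ ¬ (2 : ℤ) ∣ a.den ∧
      ∀ k : ℕ, (2 : ℤ) ^ k ∣ a.den - a.num ↔ (2 : ℤ) ^ k ∣ 5 * a.num - 3 * a.den := by
  have hq : (a.den : ℚ) ≠ 0 := by exact_mod_cast a.den_ne_zero
  have ea : (a.num : ℚ) = a * a.den := (Rat.mul_den_eq_num a).symm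
  have hcop := cop2 a
  have e1 : c * ((a.num * (a.den - a.num) : ℤ) : ℚ) = ((a.den * (5 * a.num - 3 * a.den) : ℤ) : ℚ) := by
    push_cast; rw [ea]; linear_combination (a.den : ℚ) ^ 2 * hc
  have e2 : c' * ((a.den * (5 * a.num - 3 * a.den) : ℤ) : ℚ) =
      ((25 * (a.num * (a.den - a.num)) : ℤ) : ℚ) := by
    rw [← e1, ← mul_assoc, hc']; push_cast; ring
  have d1 := dvd_of_den Nat.prime_two h1 e1
  have d2 := dvd_of_den Nat.prime_two h2 e2
  generalize a.num = p at *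
  generalize (a.den : ℤ) = q at *
  push_cast at d1 d2
  have hp : ¬ (2 : ℤ) ∣ p := by
    intro k
    have hq : ¬ (2 : ℤ) ∣ q := fun j => hcop ⟨k, j⟩
    have := d1 1 (by rw [pow_one]; exact Dvd.dvd.mul_right k _)
    rw [pow_one] at this
    exact odd_mul hq (by omega) this
  have hq : ¬ (2 : ℤ) ∣ q := by
    intro k
    have := d2 1 (by rw [pow_one]; exact Dvd.dvd.mul_right k _)
    rw [pow_one] at this
    exact odd_mul (by norm_num) (odd_mul hp (by omega)) this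
  have cop : ∀ (k : ℕ) (x : ℤ), ¬ (2 : ℤ) ∣ x → IsCoprime ((2 : ℤ) ^ k) x := fun k x hx =>
    (Int.prime_two.irreducible.coprime_iff_not_dvd.2 hx).pow_left
  refine ⟨hp, hq, fun k => ⟨fun j => ?_, fun j => ?_⟩⟩
  · exact (cop k q hq).dvd_of_dvd_mul_left (d1 k (Dvd.dvd.mul_left j _))
  · have := d2 k (Dvd.dvd.mul_left j _)
    rw [← mul_assoc] at this
    exact (cop k _ (odd_mul (by norm_num) hp)).dvd_of_dvd_mul_left this

theorem fam1 {a b c c' : ℚ} (hb : b * (1 - a) = 1) (hc : c * (a * (1 - a)) = 5 * a - 3)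
    (hc' : c' * c = 25) (h0 : ¬ 2 ∣ b.den) (h1 : ¬ 2 ∣ c.den) (h2 : ¬ 2 ∣ c'.den) : False := by
  obtain ⟨hp, hq, -⟩ := both_odd hc hc' h1 h2
  have ea : (a.num : ℚ) = a * a.den := (Rat.mul_den_eq_num a).symm
  have e : b * ((a.den - a.num : ℤ) : ℚ) = ((a.den : ℤ) : ℚ) := by
    push_cast; rw [ea]; linear_combination (a.den : ℚ) * hb
  have := dvd_of_den Nat.prime_two h0 e 1 (by push_cast; omega)
  push_cast at this
  omega

theorem fam2 {a c c' : ℚ} (hc : c * (a * (1 - a)) = 5 * a - 3)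
    (hc' : c' * c = 25) (h1 : ¬ 2 ∣ c.den) (h2 : ¬ 2 ∣ c'.den) : False := by
  obtain ⟨hp, hq, h⟩ := both_odd hc hc' h1 h2
  have := h 2
  norm_num at this
  omega

theorem only3 {x : ℤ} (h : ∀ l : ℕ, l.Prime → (l : ℤ) ∣ x → l = 3) :
    x = 1 ∨ x = -1 ∨ (3 : ℤ) ∣ x := by
  by_cases k : x.natAbs = 1
  · omega
  · obtain ⟨l, hl, hx⟩ := Nat.exists_prime_and_dvd k
    have hx' := Int.natCast_dvd.2 hx
    rw [h l hl hx'] at hx'
    exact Or.inr (Or.inr hx')

theorem fam3 {k b b' : ℚ} (hb : b * (k * (2 - k)) = -2 * ((k - 1) * (k - 3)))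
    (hb' : b' * (2 * k - 3) = -2 * ((k - 1) * (k - 3)))
    (h : ∀ l : ℕ, l.Prime → l ≠ 3 → ¬ l ∣ b.den ∧ ¬ l ∣ b'.den) : k = 1 ∨ k = 3 := by
  have ea : (k.num : ℚ) = k * k.den := (Rat.mul_den_eq_num k).symm
  have hq0 : (0 : ℤ) < k.den := by exact_mod_cast k.den_pos
  have hcop : IsCoprime k.num (k.den : ℤ) := by
    rw [Int.isCoprime_iff_gcd_eq_one]; exact k.reduced
  have e1 : b * ((k.num * (2 * k.den - k.num) : ℤ) : ℚ) =
      ((-2 * ((k.num - k.den) * (k.num - 3 * k.den)) : ℤ) : ℚ) := by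
    push_cast; rw [ea]; linear_combination (k.den : ℚ) ^ 2 * hb
  have e2 : b' * ((k.den * (2 * k.num - 3 * k.den) : ℤ) : ℚ) =
      ((-2 * ((k.num - k.den) * (k.num - 3 * k.den)) : ℤ) : ℚ) := by
    push_cast; rw [ea]; linear_combination (k.den : ℚ) ^ 2 * hb'
  have d1 := fun l hl h3 => dvd_of_den hl (h l hl h3).1 e1
  have d2 := fun l hl h3 => dvd_of_den hl (h l hl h3).2 e2
  have fin : (k.num = 1 ∨ k.num = 3) ∧ (k.den : ℤ) = 1 := by
    generalize k.num = p at *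
    generalize (k.den : ℤ) = q at *
    have nb : ∀ l : ℕ, l.Prime → (l : ℤ) ∣ p → (l : ℤ) ∣ q → False := fun l hl a b =>
      (Nat.prime_iff_prime_int.1 hl).not_unit (hcop.isUnit_of_dvd' a b)
    have hp : ¬ (2 : ℤ) ∣ p := by
      rintro ⟨t, rfl⟩
      have hq : ¬ (2 : ℤ) ∣ q := fun j => nb 2 Nat.prime_two ⟨t, by push_cast; ring⟩ j
      obtain ⟨z, hz⟩ := d1 2 Nat.prime_two (by norm_num) 2 ⟨t * (q - t), by push_cast; ring⟩
      refine odd_mul (x := 2 * t - q) (y := 2 * t - 3 * q) (by omega) (by omega) ⟨-z, ?_⟩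
      push_cast at hz; linarith
    have hq : ¬ (2 : ℤ) ∣ q := by
      rintro ⟨t, rfl⟩
      obtain ⟨z, hz⟩ := d2 2 Nat.prime_two (by norm_num) 2 ⟨t * (p - 3 * t), by push_cast; ring⟩
      refine odd_mul (x := p - 2 * t) (y := p - 3 * (2 * t)) (by omega) (by omega) ⟨-z, ?_⟩
      push_cast at hz; linarith
    -- a prime other than `2`, `3` dividing `6 ^ i x ^ 2` divides `x`
    have six : ∀ (l : ℕ) (x : ℤ), l.Prime → l ≠ 3 → l ≠ 2 → (l : ℤ) ∣ 6 * x ^ 2 → (l : ℤ) ∣ x := by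
      intro l x hl h3 h2 j
      have hl' := Nat.prime_iff_prime_int.1 hl
      rcases hl'.dvd_or_dvd j with j | j
      · have j' : l ∣ 2 * 3 := by exact_mod_cast j
        rcases (Nat.Prime.dvd_mul hl).1 j' with i | i
        · exact absurd ((Nat.prime_dvd_prime_iff_eq hl Nat.prime_two).1 i) h2
        · exact absurd ((Nat.prime_dvd_prime_iff_eq hl Nat.prime_three).1 i) h3
      · exact hl'.dvd_of_dvd_pow j
    have P1 := only3 (x := p) fun l hl j => by
      by_contra h3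
      have h2 : l ≠ 2 := by rintro rfl; exact hp j
      have i := d1 l hl h3 1 (by rw [pow_one]; exact Dvd.dvd.mul_right j _)
      rw [pow_one] at i
      refine nb l hl j (six l q hl h3 h2 ?_)
      have e : 6 * q ^ 2 = -(-2 * ((p - q) * (p - 3 * q))) - p * (2 * p - 8 * q) := by ring
      rw [e]; exact dvd_sub i.neg_right (Dvd.dvd.mul_right j _)
    have P2 := only3 (x := q) fun l hl j => by
      by_contra h3
      have h2 : l ≠ 2 := by rintro rfl; exact hq j
      have i := d2 l hl h3 1 (by rw [pow_one]; exact Dvd.dvd.mul_right j _)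
      rw [pow_one] at i
      refine nb l hl (six l p hl h3 h2 ?_) j
      have e : 6 * p ^ 2 = -3 * (-2 * ((p - q) * (p - 3 * q))) - q * (18 * q - 24 * p) := by ring
      rw [e]; exact dvd_sub (Dvd.dvd.mul_left i _) (Dvd.dvd.mul_right j _)
    have P3 := only3 (x := 2 * q - p) fun l hl j => by
      by_contra h3
      have h2 : l ≠ 2 := by rintro rfl; push_cast at j; omega
      have i := d1 l hl h3 1 (by rw [pow_one]; exact Dvd.dvd.mul_left j _)
      rw [pow_one] at i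
      have k2 : (l : ℤ) ∣ q := six l q hl h3 h2 (by
        have e : 6 * q ^ 2 = 3 * (-2 * ((p - q) * (p - 3 * q))) + (2 * q - p) * (6 * (2 * q - p)) := by
          ring
        rw [e]; exact dvd_add (Dvd.dvd.mul_left i _) (Dvd.dvd.mul_right j _))
      refine nb l hl ?_ k2
      have e : p = 2 * q - (2 * q - p) := by ring
      rw [e]; exact dvd_sub (Dvd.dvd.mul_left k2 _) j
    have P4 := only3 (x := 2 * p - 3 * q) fun l hl j => by
      by_contra h3
      have h2 : l ≠ 2 := by rintro rfl; push_cast at j; omega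
      have i := d2 l hl h3 1 (by rw [pow_one]; exact Dvd.dvd.mul_left j _)
      rw [pow_one] at i
      have k2 : (l : ℤ) ∣ q := six l q hl h3 h2 (by
        have e : 6 * q ^ 2 = 4 * (-2 * ((p - q) * (p - 3 * q))) +
            (2 * p - 3 * q) * (4 * p - 10 * q) := by ring
        rw [e]; exact dvd_add (Dvd.dvd.mul_left i _) (Dvd.dvd.mul_right j _))
      refine nb l hl (six l p hl h3 h2 ?_) k2
      have e : 6 * p ^ 2 = (2 * p - 3 * q) * (3 * p) + q * (9 * p) := by ring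
      rw [e]; exact dvd_add (Dvd.dvd.mul_right j _) (Dvd.dvd.mul_right k2 _)
    have n3 : ¬ ((3 : ℤ) ∣ p ∧ (3 : ℤ) ∣ q) := fun j => nb 3 Nat.prime_three j.1 j.2
    omega
  have hk : k = k.num := by rw [ea]; have : (k.den : ℚ) = 1 := by exact_mod_cast fin.2
                            rw [this, mul_one]
  rcases fin.1 with j | j
  · left; rw [hk, j]; norm_num
  · right; rw [hk, j]; norm_num

variable [IsTotallyComplex K]

/-- the classification of the points over an imaginary quadratic field -/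
theorem families {u m : K} (hu : u ≠ 0) (hm : m ≠ 0) (h : u + 1 + 5 / u = m + 3 / m)
    (hm' : ¬ ∃ q : ℚ, m = q) : (¬ ∃ q : ℚ, u = q) ∧ ∃ a : ℚ, a ≠ 0 ∧ a ≠ 1 ∧
      ((m = a * u ∧ ((a * (1 - a) : ℚ) : K) * u ^ 2 + a * u + (5 * a - 3 : ℚ) = 0) ∨
      (m = a * (u + 5 / 2) - 3 / 2 ∧ ((2 * (a * (1 - a)) : ℚ) : K) * u ^ 2 +
        ((1 - a) * (5 * a - 3) : ℚ) * u + (2 * (5 * a - 3) : ℚ) = 0) ∨
      (m = a * (u + 2) - 3 / 2 ∧ ((4 * (a * (1 - a)) : ℚ) : K) * u ^ 2 +
        (-2 * ((2 * a - 1) * (2 * a - 3)) : ℚ) * u + (5 * (4 * a - 3) : ℚ) = 0)) := by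
  have hc : (u ^ 2 + u + 5) * m = u * (m ^ 2 + 3) := by
    field_simp at h; linear_combination h
  have hu' : ¬ ∃ q : ℚ, u = q := by
    rintro ⟨q, rfl⟩
    obtain ⟨z, hz⟩ := real_rat (K := K) (z := q * (m - 3 / m))
      (D := (q ^ 2 + q - 3) ^ 2 + 4 * (q + 2) ^ 2) (by positivity) (by
        have e : (m - 3 / m) ^ 2 = (m + 3 / m) ^ 2 - 12 := by field_simp; ring
        rw [mul_pow, e, ← h]; push_cast; field_simp; ring)
    refine hm' ⟨(z / q + (q + 1 + 5 / q)) / 2, ?_⟩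
    push_cast
    rw [← hz, h]; field_simp; ring
  refine ⟨hu', ?_⟩
  obtain ⟨a, b, rfl⟩ := line hu' m
  have ha0 : a ≠ 0 := by rintro rfl; exact hm' ⟨b, by simp⟩
  have ha1 : a ≠ 1 := by
    rintro rfl
    by_cases hb : b = 1
    · subst hb
      exact hu' ⟨-5 / 2, by push_cast at hc ⊢; linear_combination (1 / 2 : K) * hc⟩
    · refine hu' (quad_rat (A := 1 - b) (B := 2 + b - b ^ 2) (C := 5 * b) (sub_ne_zero.2 (Ne.symm hb))
        (by nlinarith [sq_nonneg (b ^ 2 - b), sq_nonneg (2 * b - 1)]) ?_)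
      push_cast at hc ⊢; linear_combination hc
  have hA : a * (1 - a) ≠ 0 := mul_ne_zero ha0 (sub_ne_zero.2 (Ne.symm ha1))
  obtain ⟨r, hr⟩ := third_root hu' (g3 := a * (1 - a)) (g2 := a + b - 2 * a * b)
    (g1 := 5 * a + b - b ^ 2 - 3) (g0 := 5 * b) hA (by push_cast; linear_combination hc)
  have hne : ∀ r : ℚ, u - r ≠ 0 := fun r k => hu' ⟨r, sub_eq_zero.1 k⟩
  refine ⟨a, ha0, ha1, ?_⟩
  rcases ratC (u := r) (m := a * r + b) (by linear_combination hr) with ⟨k1, k2⟩ | ⟨k1 | k1, k2 | k2⟩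
  · left
    have hb : b = 0 := by rw [k1] at k2; linarith
    subst hb
    refine ⟨by simp, mul_left_cancel₀ hu ?_⟩
    push_cast at hc ⊢; linear_combination hc
  · exfalso
    have hb : b = 2 * a - 2 := by rw [k1] at k2; linarith
    subst hb
    obtain ⟨q, hq⟩ := quad_rat (x := u + 2) (A := a * (1 - a)) (B := 2 * a ^ 2 + a - 2) (C := -(a + 1))
      hA (by nlinarith [sq_nonneg (2 * a ^ 2 - 2), sq_nonneg a]) (by
        apply mul_left_cancel₀ (hne (-2))
        push_cast at hc ⊢; linear_combination hc)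
    exact hu' ⟨q - 2, by push_cast; linear_combination hq⟩
  · right; right
    have hb : b = 2 * a - 3 / 2 := by rw [k1] at k2; linarith
    subst hb
    refine ⟨by push_cast; ring, mul_left_cancel₀ (hne (-2)) ?_⟩
    push_cast at hc ⊢; linear_combination 4 * hc
  · exfalso
    have hb : b = 5 / 2 * a - 2 := by rw [k1] at k2; linarith
    subst hb
    obtain ⟨q, hq⟩ := quad_rat (x := u + 5 / 2) (A := a * (1 - a)) (B := 5 / 2 * a ^ 2 - 2)
      (C := 1 - 5 / 4 * a) hA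
      (by nlinarith [sq_nonneg (5 * a ^ 2 - 2 * a - 2), sq_nonneg (a - 1)]) (by
        apply mul_left_cancel₀ (hne (-5 / 2))
        push_cast at hc ⊢; linear_combination hc)
    exact hu' ⟨q - 5 / 2, by push_cast; linear_combination hq⟩
  · right; left
    have hb : b = 5 / 2 * a - 3 / 2 := by rw [k1] at k2; linarith
    subst hb
    refine ⟨by push_cast; ring, mul_left_cancel₀ (hne (-5 / 2)) ?_⟩
    push_cast at hc ⊢; linear_combination 2 * hc

omit [Algebra.IsQuadraticExtension ℚ K] [IsTotallyComplex K] in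
/-- if `j` is integral above `l`, so are the coefficients for `u` and `5 / u` -/
theorem four {u : K} (hu : ¬ ∃ q : ℚ, u = q) {A B C : ℚ} (hA : A ≠ 0)
    (h : (A : K) * u ^ 2 + B * u + C = 0) : C ≠ 0 ∧ ∀ l : ℕ, l.Prime →
    (∀ v : HeightOneSpectrum (𝓞 K), (l : 𝓞 K) ∈ v.asIdeal →
      v.valuation K ((u ^ 6 + 10 * u ^ 3 + 5) ^ 3 / u ^ 3) ≤ 1) →
    ¬ l ∣ (B / A).den ∧ ¬ l ∣ (C / A).den ∧ ¬ l ∣ (5 * B / C).den ∧ ¬ l ∣ (25 * A / C).den := by
  have hu0 : u ≠ 0 := by rintro rfl; exact hu ⟨0, by simp⟩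
  have hC : C ≠ 0 := by
    rintro rfl
    exact hA (indep hu (a := A) (b := B) (mul_left_cancel₀ hu0 (by
      push_cast at h; linear_combination h))).1
  have hA' : (A : K) ≠ 0 := by exact_mod_cast hA
  have hC' : (C : K) ≠ 0 := by exact_mod_cast hC
  refine ⟨hC, fun l hl hv => ?_⟩
  have k1 := coeffs hu (b := B / A) (c := C / A) (by push_cast; field_simp; linear_combination h) hl
    fun v j => not_lt.1 fun k => absurd (big_u _ k) (not_lt.2 (hv v j))
  have k2 := coeffs (x := 5 / u) (b := 5 * B / C) (c := 25 * A / C) (by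
      rintro ⟨q, hq⟩
      have hq0 : (q : K) ≠ 0 := by rw [← hq]; exact div_ne_zero (by norm_num) hu0
      exact hu ⟨5 / q, by push_cast; rw [← hq]; field_simp⟩)
    (by push_cast; field_simp; linear_combination 25 * h) hl
    fun v j => not_lt.1 fun k => absurd (small_u _ hu0 k) (not_lt.2 (hv v j))
  exact ⟨k1.1, k1.2, k2.1, k2.2⟩

/-- **a place of potentially multiplicative reduction away from `3`** -/
theorem stein {u m : K} (hu : u ≠ 0) (hm : m ≠ 0) (h : u + 1 + 5 / u = m + 3 / m) :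
    (∃ q : ℚ, m = q) ∨ ∃ v : HeightOneSpectrum (𝓞 K), (3 : 𝓞 K) ∉ v.asIdeal ∧
      1 < v.valuation K ((u ^ 6 + 10 * u ^ 3 + 5) ^ 3 / u ^ 3) := by
  by_contra hcon
  obtain ⟨hm', hv⟩ := not_or.1 hcon
  have hl : ∀ l : ℕ, l.Prime → l ≠ 3 → ∀ v : HeightOneSpectrum (𝓞 K), (l : 𝓞 K) ∈ v.asIdeal →
      v.valuation K ((u ^ 6 + 10 * u ^ 3 + 5) ^ 3 / u ^ 3) ≤ 1 := by
    intro l hl h3 v j
    refine not_lt.1 fun k => hv ⟨v, fun i => ?_, k⟩
    have := w_unit (v.valuation K) hl ((lt_one_iff v l).2 j) (n := 3) (fun i =>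
      h3 ((Nat.prime_dvd_prime_iff_eq hl Nat.prime_three).1 (by exact_mod_cast i)))
    have i' := (lt_one_iff v 3).2 (by exact_mod_cast i)
    push_cast at this i'
    exact absurd this i'.ne
  obtain ⟨hu', a, ha0, ha1, hf⟩ := families hu hm h hm'
  have ha1' : 1 - a ≠ 0 := sub_ne_zero.2 (Ne.symm ha1)
  have hA : a * (1 - a) ≠ 0 := mul_ne_zero ha0 ha1'
  rcases hf with ⟨-, hf⟩ | ⟨-, hf⟩ | ⟨-, hf⟩
  · obtain ⟨hC, k⟩ := four hu' hA hf
    obtain ⟨k1, k2, -, k4⟩ := k 2 Nat.prime_two (hl 2 Nat.prime_two (by norm_num))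
    exact fam1 (a := a) (by field_simp) (by field_simp)
      (by rw [div_mul_div_comm, div_eq_iff (mul_ne_zero hC hA)]; ring) k1 k2 k4
  · obtain ⟨hC, k⟩ := four hu' (mul_ne_zero two_ne_zero hA) hf
    obtain ⟨-, k2, -, k4⟩ := k 2 Nat.prime_two (hl 2 Nat.prime_two (by norm_num))
    have hC' : 5 * a - 3 ≠ 0 := right_ne_zero_of_mul hC
    exact fam2 (a := a) (by field_simp)
      (by rw [div_mul_div_comm, div_eq_iff (mul_ne_zero hC (mul_ne_zero two_ne_zero hA))]; ring) k2 k4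
  · obtain ⟨hC, k⟩ := four hu' (mul_ne_zero four_ne_zero hA) hf
    have hC' : 4 * a - 3 ≠ 0 := right_ne_zero_of_mul hC
    rcases fam3 (k := 2 * a) (b := -2 * ((2 * a - 1) * (2 * a - 3)) / (4 * (a * (1 - a))))
      (b' := 5 * (-2 * ((2 * a - 1) * (2 * a - 3))) / (5 * (4 * a - 3)))
      (by field_simp; ring) (by rw [div_mul_eq_mul_div, div_eq_iff hC]; ring)
      (fun l j i => ⟨(k l j (hl l j i)).1, (k l j (hl l j i)).2.2.1⟩) with j | j
    · refine hu' (quad_rat (mul_ne_zero four_ne_zero hA) ?_ hf)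
      have : a = 1 / 2 := by linarith
      rw [this]; norm_num
    · refine hu' (quad_rat (mul_ne_zero four_ne_zero hA) ?_ hf)
      have : a = 3 / 2 := by linarith
      rw [this]; norm_num

end Vale.Agent.Q017B
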