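import Vale.Agent.Q017B.B

/-!
# Points of `X(ns3,b5) : y² = -3 (u⁴ + 2 u³ - u² + 10 u + 25)` over quadratic fields,
and the wrapper for `X(s3,b5) : y² = u⁴ + 2 u³ - u² + 10 u + 25`
-/

set_option linter.all false

namespace Vale.Agent.Q017B

open NumberField IsDedekindDomain Vale.Agent.P017.H185

theorem sqf_three {b : ℤ} (hb : Squarefree b) (h : ∀ p : ℕ, p.Prime → (p : ℤ) ∣ b → p = 3) :
    b = 1 ∨ b = -1 ∨ b = 3 ∨ b = -3 := by
  have hdvd : b.natAbs ∣ 3 := by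
    have hsq : Squarefree b.natAbs := Int.squarefree_natAbs.mpr hb
    rw [← Nat.prod_primeFactors_of_squarefree hsq]
    apply Finset.prod_primes_dvd
    · intro p hp; exact (Nat.prime_of_mem_primeFactors hp).prime
    · intro p hp
      rw [h p (Nat.prime_of_mem_primeFactors hp)
        (Int.natCast_dvd.mpr (Nat.dvd_of_mem_primeFactors hp))]
  have := (Nat.dvd_prime Nat.prime_three).mp hdvd
  omega

theorem prime_of_dvd_pow {p q k : ℕ} (hp : p.Prime) (hq : q.Prime) (h : p ∣ q ^ k) : p = q :=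
  (Nat.prime_dvd_prime_iff_eq hp hq).mp (hp.dvd_of_dvd_pow h)

theorem cond1_three : Cond1 3 := by
  intro x y h hx
  have hxpos : 0 < x := by
    rcases lt_or_gt_of_ne hx with hneg | hpos
    · exfalso
      have h3 : 0 < (x - 16 * 3) * (x - 25 * 3) := by nlinarith
      have h4 : y ^ 2 = x * ((x - 16 * 3) * (x - 25 * 3)) := by rw [h]; ring
      nlinarith [sq_nonneg y]
    · exact hpos
  obtain ⟨b, M, e, hb, hMe, hM, he, hXb⟩ := exists_sqf hx
  obtain ⟨N, hN⟩ := exists_int_eq (Y := y) (α := -16 * 3) (β := -25 * 3) hb hM he hXb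
    (by push_cast; rw [h]; ring)
  have hr0 : (M / e : ℚ) ≠ 0 := div_ne_zero (by exact_mod_cast hM) (by exact_mod_cast he)
  have hbpos : 0 < b := by
    have h3 : (0 : ℚ) < (M / e : ℚ) ^ 2 := by positivity
    have h4 : (0 : ℚ) < b := by
      rw [hXb] at hxpos
      exact pos_of_mul_pos_left hxpos h3.le
    exact_mod_cast h4
  have hp : ∀ p : ℕ, p.Prime → (p : ℤ) ∣ b → p = 3 := by
    intro p hp hpb
    by_contra h3
    have h2 : p ≠ 2 := by
      rintro rfl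
      exact two_adic_first (d := 3) hb hMe (by norm_num) hN (by exact_mod_cast hpb)
    have h5 : p ≠ 5 := by
      rintro rfl
      have := five_adic_first (d := 3) hb hMe (by norm_num) hN hpb
      revert this
      decide
    apply prime_dvd_gen hp hb hMe hN hpb
    · intro h1
      have h4 : p ∣ 2 ^ 4 * 3 := by
        rw [show (-16 * 3 : ℤ) = -((2 ^ 4 * 3 : ℕ) : ℤ) by norm_num, Int.dvd_neg] at h1
        exact_mod_cast h1
      rcases (Nat.Prime.dvd_mul hp).1 h4 with k | k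
      · exact h2 (prime_of_dvd_pow hp Nat.prime_two k)
      · exact h3 ((Nat.prime_dvd_prime_iff_eq hp Nat.prime_three).1 k)
    · intro h1
      have h4 : p ∣ 5 ^ 2 * 3 := by
        rw [show (-25 * 3 : ℤ) = -((5 ^ 2 * 3 : ℕ) : ℤ) by norm_num, Int.dvd_neg] at h1
        exact_mod_cast h1
      rcases (Nat.Prime.dvd_mul hp).1 h4 with k | k
      · exact h5 (prime_of_dvd_pow hp Nat.prime_five k)
      · exact h3 ((Nat.prime_dvd_prime_iff_eq hp Nat.prime_three).1 k)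
  refine ⟨M / e, ?_⟩
  rcases sqf_three hb hp with k | k | k | k
  · left; rw [hXb, k]; push_cast; ring
  · omega
  · right; rw [hXb, k]; push_cast; ring
  · omega

theorem cond2_three : Cond2 3 := by
  intro X Y h hX
  obtain ⟨b, M, e, hb, hMe, hM, he, hXb⟩ := exists_sqf hX
  obtain ⟨N, hN⟩ := exists_int_eq (Y := Y) (α := 3) (β := 81 * 3) hb hM he hXb
    (by push_cast; rw [h]; ring)
  have hp : ∀ p : ℕ, p.Prime → (p : ℤ) ∣ b → p = 3 := by
    intro p hp hpb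
    by_contra h3
    apply prime_dvd_gen hp hb hMe hN hpb
    · intro h1
      exact h3 ((Nat.prime_dvd_prime_iff_eq hp Nat.prime_three).1 (by exact_mod_cast h1))
    · intro h1
      have h4 : p ∣ 3 ^ 5 := by
        rw [show (81 * 3 : ℤ) = ((3 ^ 5 : ℕ) : ℤ) by norm_num] at h1
        exact_mod_cast h1
      exact h3 (prime_of_dvd_pow hp Nat.prime_three h4)
  have hb4 := sqf_three hb hp
  have h4 := (two_adic_odd (d := 3) hMe (by omega) (by norm_num) hN).1 (by norm_num)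
  refine ⟨M / e, ?_⟩
  rcases hb4 with k | k | k | k
  · left; rw [hXb, k]; push_cast; ring
  · omega
  · omega
  · right; rw [hXb, k]; push_cast; ring

/-- the duplication map of `y² = x (x - 48) (x - 75)` -/
def dbl3 (x : ℚ) : ℚ := (x ^ 2 - 3600) ^ 2 / (4 * (x * (x - 48) * (x - 75)))

theorem v2_dbl3 {x : ℚ} (h : 1 < v2 x) : v2 x < v2 (dbl3 x) := by
  have h0 : (0 : WithZero (Multiplicative ℤ)) < v2 x := lt_trans zero_lt_one h
  have h1 : v2 (x - 48) = v2 x :=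
    Valuation.map_sub_eq_of_lt_left _ (lt_of_le_of_lt (by exact_mod_cast v2_int 48) h)
  have h2 : v2 (x - 75) = v2 x :=
    Valuation.map_sub_eq_of_lt_left _ (lt_of_le_of_lt (by exact_mod_cast v2_int 75) h)
  have h3 : v2 (x ^ 2 - 3600) = v2 x ^ 2 := by
    rw [← map_pow]
    refine Valuation.map_sub_eq_of_lt_left _ (lt_of_le_of_lt (by exact_mod_cast v2_int 3600) ?_)
    rw [map_pow]; exact one_lt_pow₀ h two_ne_zero
  have h4 : v2 (4 : ℚ) < 1 := by exact_mod_cast v2_even (n := 4) (by norm_num)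
  have h5 : (0 : WithZero (Multiplicative ℤ)) < v2 (4 : ℚ) := by
    rw [Valuation.pos_iff]; norm_num
  unfold dbl3
  rw [map_div₀, map_pow, h3, map_mul, map_mul, map_mul, h1, h2,
    lt_div_iff₀ (by positivity)]
  calc v2 x * (v2 4 * (v2 x * v2 x * v2 x)) = v2 4 * (v2 x ^ 2) ^ 2 := by
        rw [← pow_mul]; simp only [pow_succ, pow_zero, one_mul, mul_comm, mul_left_comm]
    _ < 1 * (v2 x ^ 2) ^ 2 := mul_lt_mul_of_pos_right h4 (pow_pos (pow_pos h0 2) 2)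
    _ = _ := one_mul _

theorem v2_sq3 {r a b c : ℚ} (ha : r = a ^ 2) (hb : r - 48 = b ^ 2) (hc : r - 75 = c ^ 2) :
    1 < v2 r := by
  by_contra h
  have h := not_lt.1 h
  have h1 := v2_sq (ha ▸ h)
  have h2 : ¬ 2 ∣ b.den := v2_sq (hb ▸ Valuation.map_sub_le _ h (by exact_mod_cast v2_int 48))
  have h3 : ¬ 2 ∣ c.den := v2_sq (hc ▸ Valuation.map_sub_le _ h (by exact_mod_cast v2_int 75))
  obtain ⟨n, hn⟩ : ∃ n : ℤ, n = a.den * b.den * c.den := ⟨_, rfl⟩
  have hn2 : ¬ (2 : ℤ) ∣ n := by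
    rw [hn]
    exact odd_mul (odd_mul (by exact_mod_cast h1) (by exact_mod_cast h2)) (by exact_mod_cast h3)
  have eA : ((a.num * b.den * c.den : ℤ) : ℚ) = a * n := by
    rw [hn]; push_cast; rw [← Rat.mul_den_eq_num a]; ring
  have eB : ((b.num * a.den * c.den : ℤ) : ℚ) = b * n := by
    rw [hn]; push_cast; rw [← Rat.mul_den_eq_num b]; ring
  have eC : ((c.num * a.den * b.den : ℤ) : ℚ) = c * n := by
    rw [hn]; push_cast; rw [← Rat.mul_den_eq_num c]; ring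
  generalize a.num * b.den * c.den = A at eA
  generalize b.num * a.den * c.den = B at eB
  generalize c.num * a.den * b.den = C at eC
  have kB : B ^ 2 = A ^ 2 - 48 * n ^ 2 := by
    have : ((B ^ 2 : ℤ) : ℚ) = (A ^ 2 - 48 * n ^ 2 : ℤ) := by
      push_cast; rw [eA, eB, mul_pow, mul_pow, ← hb, ← ha]; ring
    exact_mod_cast this
  have kC : C ^ 2 = A ^ 2 - 75 * n ^ 2 := by
    have : ((C ^ 2 : ℤ) : ℚ) = (A ^ 2 - 75 * n ^ 2 : ℤ) := by
      push_cast; rw [eA, eC, mul_pow, mul_pow, ← hc, ← ha]; ring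
    exact_mod_cast this
  obtain ⟨t, rfl⟩ : ∃ t, n = 2 * t + 1 := ⟨n / 2, by omega⟩
  have z8 : ∀ A C t : ZMod 8, C ^ 2 = A ^ 2 - 75 * (2 * t + 1) ^ 2 → A = 2 ∨ A = 6 := by decide
  have z8' : ∀ s B t : ZMod 8, B ^ 2 ≠ (2 * s + 1) ^ 2 - 12 * (2 * t + 1) ^ 2 := by decide
  have hA : ∃ s, A = 2 * (2 * s + 1) := by
    rcases z8 A C t (by exact_mod_cast congrArg (Int.cast : ℤ → ZMod 8) kC) with k | k
    · have := (ZMod.intCast_eq_intCast_iff' A 2 8).1 (by exact_mod_cast k)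
      exact ⟨A / 4, by simp at this; omega⟩
    · have := (ZMod.intCast_eq_intCast_iff' A 6 8).1 (by exact_mod_cast k)
      exact ⟨A / 4, by simp at this; omega⟩
  obtain ⟨s, rfl⟩ := hA
  have h2B : (2 : ℤ) ∣ B := Int.prime_two.dvd_of_dvd_pow (n := 2)
    ⟨2 * (2 * s + 1) ^ 2 - 24 * (2 * t + 1) ^ 2, by rw [kB]; ring⟩
  obtain ⟨B', rfl⟩ := h2B
  have k : B' ^ 2 = (2 * s + 1) ^ 2 - 12 * (2 * t + 1) ^ 2 := by linarith
  exact z8' s B' t (by exact_mod_cast congrArg (Int.cast : ℤ → ZMod 8) k)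

/-- **the rational points of `y² = x (x - 48) (x - 75)`** (conductor `45`) -/
theorem rat45 {x y : ℚ} (h : y ^ 2 = x * (x - 48) * (x - 75)) : x = 0 ∨ x = 48 ∨ x = 75 := by
  by_contra hx
  let S : Set ℚ := {x | (∃ y : ℚ, y ^ 2 = x * (x - 48) * (x - 75)) ∧ ¬ (x = 0 ∨ x = 48 ∨ x = 75)}
  have h3 : (3 : ℚ) ≠ 0 := by norm_num
  have hS : S.Finite := by
    refine ((sol_finite h3 (finite_ED h3 cond1_three cond2_three)).image Prod.fst).subset ?_
    rintro x ⟨⟨y, hy⟩, -⟩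
    exact ⟨(x, y), by simp only [Set.mem_setOf_eq]; rw [hy]; ring, rfl⟩
  have key : ∀ x ∈ S, dbl3 x ∈ S ∧ 1 < v2 (dbl3 x) := by
    rintro x ⟨⟨y, hy⟩, hx⟩
    push Not at hx
    obtain ⟨h1, h2, h3⟩ := hx
    have hy0 : y ≠ 0 := by
      rintro rfl
      have : x * (x - 48) * (x - 75) ≠ 0 :=
        mul_ne_zero (mul_ne_zero h1 (sub_ne_zero.2 h2)) (sub_ne_zero.2 h3)
      exact this (by rw [← hy]; ring)
    have ha : dbl3 x = ((x ^ 2 - 3600) / (2 * y)) ^ 2 := by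
      unfold dbl3; rw [← hy]; field_simp; norm_num
    have hb : dbl3 x - 48 = (((x - 48) ^ 2 + 1296) / (2 * y)) ^ 2 := by
      rw [ha]; field_simp; linear_combination (-192) * hy
    have hc : dbl3 x - 75 = (((x - 75) ^ 2 - 2025) / (2 * y)) ^ 2 := by
      rw [ha]; field_simp; linear_combination (-300) * hy
    have hv := v2_sq3 ha hb hc
    refine ⟨⟨⟨(x ^ 2 - 3600) / (2 * y) * (((x - 48) ^ 2 + 1296) / (2 * y)) *
      (((x - 75) ^ 2 - 2025) / (2 * y)), by rw [hb, hc, mul_pow, mul_pow, ← ha]⟩, ?_⟩, hv⟩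
    rintro (k | k | k) <;> rw [k] at hv
    · exact absurd hv (not_lt.2 (by exact_mod_cast v2_int 0))
    · exact absurd hv (not_lt.2 (by exact_mod_cast v2_int 48))
    · exact absurd hv (not_lt.2 (by exact_mod_cast v2_int 75))
  obtain ⟨x₀, h0, hmax⟩ := hS.exists_maximalFor v2 S ⟨x, ⟨y, h⟩, hx⟩
  obtain ⟨k1, k2⟩ := key x₀ h0
  have k3 : v2 (dbl3 x₀) ≤ v2 x₀ := (le_total _ _).elim id (hmax k1)
  exact absurd k3 (not_le.2 (v2_dbl3 (k2.trans_le k3)))

theorem rat45' {x y : ℚ} (h : y ^ 2 = x * (x - 3) * (x - 48)) : x = 0 ∨ x = 3 ∨ x = 48 := by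
  by_cases hx : x = 0
  · exact Or.inl hx
  have h2 : (y / x) ^ 2 = x - 51 + 144 / x := by field_simp; linear_combination h
  have h1 := rat45 (x := (y / x) ^ 2 + 75) (y := y / x * (x - 144 / x)) (by
    rw [mul_pow, h2]; field_simp; ring)
  have h3 : (y / x) ^ 2 = 0 := by
    rcases h1 with k | k | k <;> nlinarith [sq_nonneg (y / x)]
  have : (x - 3) * (x - 48) = 0 := by
    rw [h3] at h2
    field_simp at h2; linarith
  rcases mul_eq_zero.1 this with k | k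
  · right; left; linarith
  · right; right; linarith

variable {K : Type*} [Field K] [NumberField K] [Algebra.IsQuadraticExtension ℚ K]

/-- **all quadratic points of `X(ns3,b5)`** -/
theorem partC {u y : K} (h : y ^ 2 = -3 * (u ^ 4 + 2 * u ^ 3 - u ^ 2 + 10 * u + 25)) :
    (∃ q : ℚ, u = q) ∨ ∃ q : ℚ, u ^ 2 + 5 = q * u := by
  by_cases hu : ∃ q : ℚ, u = q
  · exact Or.inl hu
  right
  obtain ⟨p, q, hpq⟩ := line hu (u ^ 2)
  obtain ⟨a, b, hab⟩ := line hu y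
  obtain ⟨c, hc⟩ : ∃ c : ℚ, c = (a ^ 2 / 3 - 1 + 2 * p + p ^ 2) / 2 := ⟨_, rfl⟩
  have R1 : a ^ 2 + 3 * (-1 - 2 * c + 2 * p + p ^ 2) = 0 := by rw [hc]; ring
  have R1' : (a : K) ^ 2 + 3 * (-1 - 2 * c + 2 * p + p ^ 2) = 0 := by
    exact_mod_cast congrArg (Rat.cast : ℚ → K) R1
  obtain ⟨R2, R3⟩ := indep hu (a := 2 * (a * b + 3 * (5 + c * p + q + p * q)))
    (b := b ^ 2 + 3 * (25 + 2 * c * q + q ^ 2)) (by
      rw [hab] at h
      push_cast
      linear_combination h - u ^ 2 * R1' - 3 * (u ^ 2 + p * u + q + 2 * u + 2 * c) * hpq)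
  have hE := rat45' (x := 6 * c + 18) (y := 6 * (a * (c + q) - b * (1 + p))) (by
    linear_combination 36 * ((c + q) ^ 2 * R1 - (c + q) * (1 + p) * R2 + (1 + p) ^ 2 * R3) -
      12 * (3 * (25 + 2 * c * q + q ^ 2) * R1 - a ^ 2 * R3 +
        (a * b - 3 * (5 + c * p + q + p * q)) / 2 * R2))
  rcases hE with k | k | k
  · exfalso
    have e : c = -3 := by linarith
    rw [e] at R1
    nlinarith [sq_nonneg a, sq_nonneg (p + 1)]
  · exfalso
    have e : c = -5 / 2 := by linarith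
    rw [e] at R1
    nlinarith [sq_nonneg a, sq_nonneg (p + 1)]
  · have e : c = 5 := by linarith
    rw [e] at R3
    have : q = -5 := by nlinarith [sq_nonneg b, sq_nonneg (q + 5)]
    exact ⟨p, by rw [hpq, this]; push_cast; ring⟩

/-- the model `y² = Q(u)` of `X(s3,b5)` -/
theorem to_um {u y : K} (hu : u ≠ 0) (h : y ^ 2 = u ^ 4 + 2 * u ^ 3 - u ^ 2 + 10 * u + 25) :
    ∃ m : K, m ≠ 0 ∧ u + 1 + 5 / u = m + 3 / m := by
  have h1 : (u ^ 2 + u + 5 + y) * (u ^ 2 + u + 5 - y) = 12 * u ^ 2 := by linear_combination -h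
  have h2 : u ^ 2 + u + 5 + y ≠ 0 := by
    intro k
    rw [k, zero_mul] at h1
    exact mul_ne_zero (by norm_num) (pow_ne_zero 2 hu) h1.symm
  refine ⟨(u ^ 2 + u + 5 + y) / (2 * u), div_ne_zero h2 (mul_ne_zero two_ne_zero hu), ?_⟩
  have h3 : 3 / ((u ^ 2 + u + 5 + y) / (2 * u)) = (u ^ 2 + u + 5 - y) / (2 * u) := by
    rw [div_div_eq_mul_div, div_eq_div_iff h2 (mul_ne_zero two_ne_zero hu)]
    linear_combination -h1
  rw [h3]
  field_simp
  ring

/-- **part (B)** in the model `y² = Q(u)` -/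
theorem partB [IsTotallyComplex K] {u y : K} (hu : u ≠ 0)
    (h : y ^ 2 = u ^ 4 + 2 * u ^ 3 - u ^ 2 + 10 * u + 25) :
    (∀ v : HeightOneSpectrum (𝓞 K), (3 : 𝓞 K) ∈ v.asIdeal →
      1 ≤ v.valuation K ((u ^ 6 + 10 * u ^ 3 + 5) ^ 3 / u ^ 3)) ∧
    ((∃ q : ℚ, u ^ 2 + 5 = q * u) ∨ ∃ v : HeightOneSpectrum (𝓞 K), (3 : 𝓞 K) ∉ v.asIdeal ∧
      1 < v.valuation K ((u ^ 6 + 10 * u ^ 3 + 5) ^ 3 / u ^ 3)) := by
  obtain ⟨m, hm, hum⟩ := to_um hu h
  refine ⟨ord3 hu hm hum, (stein hu hm hum).imp_left ?_⟩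
  rintro ⟨q, rfl⟩
  refine ⟨q + 3 / q - 1, ?_⟩
  push_cast
  rw [← hum]
  field_simp
  ring

end Vale.Agent.Q017B
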