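import Vale.Agent.Q017B.F

/-!
# Two octahedra: points of `X(b3,S4(5))` over a field with an involution
-/

set_option linter.all false

namespace Vale.Agent.Q017B

variable {M : Type*} [Field M] [CharZero M]

/-- the chord through a point and its conjugate -/
theorem chord (ρ : M →+* M) (hρ : ∀ z, ρ (ρ z) = z) {d g3 g2 g1 g0 : ℚ} (h3 : g3 ≠ 0) {ε : ℚ}
    (hε : ε ^ 2 = 1) {x w : M} (h : d * w ^ 2 = g3 * x ^ 3 + g2 * x ^ 2 + g1 * x + g0)
    (hx : ρ x ≠ x) : ∃ l m z : M, ρ l = ε * l ∧ ρ m = ε * m ∧ ρ z = z ∧ w = l * x + m ∧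
      l = (w - ε * ρ w) / (x - ρ x) ∧ g3 * (x + ρ x + z) = d * l ^ 2 - g2 ∧
      g3 * (x * ρ x + (x + ρ x) * z) = g1 - 2 * d * l * m ∧
      g3 * (x * ρ x * z) = d * m ^ 2 - g0 ∧
      d * (l * z + m) ^ 2 = g3 * z ^ 3 + g2 * z ^ 2 + g1 * z + g0 := by
  have h' := congrArg ρ h
  simp only [map_add, map_mul, map_pow, map_ratCast] at h'
  have hε' : (ε : M) ^ 2 = 1 := by exact_mod_cast hε
  have h3' : (g3 : M) ≠ 0 := by exact_mod_cast h3
  have hd : x - ρ x ≠ 0 := sub_ne_zero.2 (Ne.symm hx)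
  obtain ⟨l, hl⟩ : ∃ l, l = (w - ε * ρ w) / (x - ρ x) := ⟨_, rfl⟩
  have hl' : l * (x - ρ x) = w - ε * ρ w := by rw [hl]; exact div_mul_cancel₀ _ hd
  have e1 : ρ l = ε * l := by
    have := congrArg ρ hl'
    simp only [map_sub, map_mul, map_ratCast, hρ] at this
    apply mul_right_cancel₀ hd
    linear_combination -this - ε * hl' + ρ w * hε'
  obtain ⟨m, hm⟩ : ∃ m, m = w - l * x := ⟨_, rfl⟩
  have e2 : ρ m = ε * m := by
    rw [hm]
    simp only [map_sub, map_mul, e1]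
    linear_combination ε * hl' - ρ w * hε'
  obtain ⟨z, hz⟩ : ∃ z, z = (d * l ^ 2 - g2) / g3 - x - ρ x := ⟨_, rfl⟩
  have e3 : ρ z = z := by
    rw [hz]
    simp only [map_sub, map_mul, map_div₀, map_pow, map_ratCast, hρ, e1, mul_pow, hε']
    ring
  have e4 : g3 * (x + ρ x + z) = d * l ^ 2 - g2 := by rw [hz]; field_simp; ring
  have hw : w = l * x + m := by rw [hm]; ring
  have hw' : ε * ρ w = l * ρ x + m := by rw [hm]; linear_combination hl'
  have k1 : d * (l * x + m) ^ 2 = g3 * x ^ 3 + g2 * x ^ 2 + g1 * x + g0 := by rw [← hw, h]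
  have k2 : d * (l * ρ x + m) ^ 2 = g3 * ρ x ^ 3 + g2 * ρ x ^ 2 + g1 * ρ x + g0 := by
    rw [← hw', mul_pow, hε', one_mul, h']
  have e5 : g3 * (x * ρ x + (x + ρ x) * z) = g1 - 2 * d * l * m := by
    apply mul_left_cancel₀ hd
    linear_combination k1 - k2 + (x ^ 2 - ρ x ^ 2) * e4
  have e6 : g3 * (x * ρ x * z) = d * m ^ 2 - g0 := by
    linear_combination -k1 - x ^ 2 * e4 + x * e5
  refine ⟨l, m, z, e1, e2, e3, hw, hl, e4, e5, e6, ?_⟩
  linear_combination -z ^ 2 * e4 + z * e5 - e6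

/-- a cubic without rational root has no root in a biquadratic field -/
theorem no_root (σ τ : M →+* M) (hσ : ∀ z, σ (σ z) = z) (hτ : ∀ z, τ (τ z) = z)
    (hc : ∀ z, σ (τ z) = τ (σ z)) (hfix : ∀ z, σ z = z → τ z = z → ∃ q : ℚ, z = q) {a b c : ℚ}
    (h : ∀ q : ℚ, q ^ 3 + a * q ^ 2 + b * q + c ≠ 0) (z : M) :
    z ^ 3 + a * z ^ 2 + b * z + c ≠ 0 := by
  have third : ∀ (ρ : M →+* M) (z : M), z ^ 3 + a * z ^ 2 + b * z + c = 0 → ρ z ≠ z →
      (-a - z - ρ z) ^ 3 + a * (-a - z - ρ z) ^ 2 + b * (-a - z - ρ z) + c = 0 := by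
    intro ρ z k hz
    have k' := congrArg ρ k
    simp only [map_add, map_mul, map_pow, map_ratCast, map_zero] at k'
    have e : z ^ 2 + z * ρ z + ρ z ^ 2 + a * (z + ρ z) + b = 0 := by
      apply mul_left_cancel₀ (sub_ne_zero.2 hz)
      linear_combination k' - k
    linear_combination k - (a + 2 * z + ρ z) * e
  have h2 : ∀ z : M, σ z = z → z ^ 3 + a * z ^ 2 + b * z + c ≠ 0 := by
    intro z hz k
    by_cases j : τ z = z
    · obtain ⟨q, rfl⟩ := hfix z hz j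
      exact h q (by exact_mod_cast k)
    · obtain ⟨q, hq⟩ := hfix (-a - z - τ z) (by simp [hc, hz]) (by simp [hτ]; ring)
      have := third τ z k j
      rw [hq] at this
      exact h q (by exact_mod_cast this)
  intro k
  by_cases j : σ z = z
  · exact h2 z j k
  · exact h2 _ (by simp [hσ]; ring) (third σ z k j)

theorem pow3 {i j : ℕ} (hi : i < 5) (hj : j < 5) {a b : ℚ} (ha : a ≠ 0) (hb : b ≠ 0)
    (h : 9 ^ i * a ^ 5 = 9 ^ j * b ^ 5) : i = j := by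
  haveI : Fact (Nat.Prime 3) := ⟨Nat.prime_three⟩
  have h9 : padicValRat 3 9 = 2 := by
    rw [show (9 : ℚ) = ((3 : ℕ) : ℚ) ^ 2 by norm_num, padicValRat.pow,
      padicValRat.self (by norm_num)]
    norm_num
  have := congrArg (padicValRat 3) h
  rw [padicValRat.mul (by positivity) (pow_ne_zero _ ha),
    padicValRat.mul (by positivity) (pow_ne_zero _ hb), padicValRat.pow,
    padicValRat.pow, padicValRat.pow, padicValRat.pow, h9] at this
  push_cast at this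
  omega

/-- the classes modulo fifth powers are separated -/
theorem fifth (σ τ : M →+* M) (hτ : ∀ z, τ (τ z) = z)
    (hc : ∀ z, σ (τ z) = τ (σ z)) (hfix : ∀ z, σ z = z → τ z = z → ∃ q : ℚ, z = q)
    {i j : ℕ} (hi : i < 5) (hj : j < 5) {a b : M} (ha : σ a = a) (hb : σ b = b) (ha0 : a ≠ 0)
    (h : 3 ^ i * a ^ 5 = 3 ^ j * b ^ 5) : i = j ∧ a = b := by
  have hb0 : b ≠ 0 := by
    rintro rfl
    simp [ha0] at h
  have h' := congrArg τ h
  simp only [map_mul, map_pow, map_ofNat] at h'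
  obtain ⟨p, hp⟩ := hfix (a * τ a) (by simp [hc, ha]) (by simp [hτ, mul_comm])
  obtain ⟨q, hq⟩ := hfix (b * τ b) (by simp [hc, hb]) (by simp [hτ, mul_comm])
  have hp0 : p ≠ 0 := by
    rintro rfl
    simp [ha0] at hp
  have hq0 : q ≠ 0 := by
    rintro rfl
    simp [hb0] at hq
  have e : (9 : ℚ) ^ i * p ^ 5 = 9 ^ j * q ^ 5 := by
    have : (9 : M) ^ i * p ^ 5 = 9 ^ j * q ^ 5 := by
      rw [← hp, ← hq, show (9 : M) = 3 * 3 by norm_num, mul_pow, mul_pow, mul_pow, mul_pow]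
      linear_combination (3 ^ i * τ a ^ 5) * h + (3 ^ j * b ^ 5) * h'
    exact_mod_cast this
  obtain rfl := pow3 hi hj hp0 hq0 e
  refine ⟨rfl, ?_⟩
  have e1 : p = q := (Odd.pow_inj (by decide : Odd 5)).1 (mul_left_cancel₀ (by positivity) e)
  have e2 : a ^ 5 = b ^ 5 := mul_left_cancel₀ (pow_ne_zero _ three_ne_zero) h
  have e3 : a * τ a = b * τ b := by rw [hp, hq, e1]
  have hτb : τ b ≠ 0 := (map_ne_zero τ).2 hb0
  obtain ⟨y, hy⟩ := hfix (a / b + τ a / τ b) (by simp [hc, ha, hb]) (by simp [hτ, add_comm])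
  by_contra k
  have e4 : a ^ 4 + a ^ 3 * b + a ^ 2 * b ^ 2 + a * b ^ 3 + b ^ 4 = 0 := by
    apply mul_left_cancel₀ (sub_ne_zero.2 k)
    linear_combination e2
  have e5 : τ a / τ b = b / a := by field_simp; linear_combination e3
  rw [e5] at hy
  refine not_sq_five (2 * y + 1) ?_
  have : (2 * (y : M) + 1) ^ 2 = 5 := by rw [← hy]; field_simp; linear_combination 4 * e4
  exact_mod_cast this

/-- the five classes of conjugate pairs on `W² = 4X³ + 28X² + 72X + 81` -/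
theorem cls (σ : M →+* M) (hσ : ∀ z, σ (σ z) = z)
    (hl : ∀ X W : M, σ X = X → σ W = W → W ^ 2 = 4 * X ^ 3 + 28 * X ^ 2 + 72 * X + 81 →
      X = 0 ∨ X = -3) {X W : M} (h : W ^ 2 = 4 * X ^ 3 + 28 * X ^ 2 + 72 * X + 81) :
    (σ X = X ∧ σ W = -W) ∨ ∃ L : M, σ L = L ∧
      ((W = L * X - 9 ∧ σ W = L * σ X - 9 ∧ X + σ X = L ^ 2 / 4 - 7 ∧ X * σ X = 9 / 2 * L + 18) ∨
      (W = L * X + (3 * L - 3) ∧ σ W = L * σ X + (3 * L - 3) ∧ X + σ X = L ^ 2 / 4 - 4 ∧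
        X * σ X = -3 / 4 * L ^ 2 + 3 / 2 * L + 6) ∨
      (W = L * X + (3 * L + 3) ∧ σ W = L * σ X + (3 * L + 3) ∧ X + σ X = L ^ 2 / 4 - 4 ∧
        X * σ X = -3 / 4 * L ^ 2 - 3 / 2 * L + 6) ∨
      (W = L * X + 9 ∧ σ W = L * σ X + 9 ∧ X + σ X = L ^ 2 / 4 - 7 ∧
        X * σ X = -9 / 2 * L + 18)) := by
  by_cases hx : σ X = X
  · have h' := congrArg σ h
    simp only [map_add, map_mul, map_pow, map_ofNat, hx] at h'
    rcases sq_eq_sq_iff_eq_or_eq_neg.1 (h'.trans h.symm) with k | k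
    · right
      rcases hl X W hx k h with rfl | rfl
      · rcases sq_eq_sq_iff_eq_or_eq_neg.1 (show W ^ 2 = 9 ^ 2 by rw [h]; norm_num) with rfl | rfl
        · exact ⟨4, map_ofNat σ 4, Or.inr (Or.inl (by simp only [map_zero, map_ofNat]; norm_num))⟩
        · exact ⟨-4, by simp [map_ofNat], Or.inr (Or.inr (Or.inl
            (by simp only [map_zero, map_neg, map_ofNat]; norm_num)))⟩
      · rcases sq_eq_sq_iff_eq_or_eq_neg.1 (show W ^ 2 = 3 ^ 2 by rw [h]; norm_num) with rfl | rfl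
        · exact ⟨2, map_ofNat σ 2, Or.inr (Or.inr (Or.inr
            (by simp only [map_zero, map_neg, map_ofNat]; norm_num)))⟩
        · exact ⟨-2, by simp [map_ofNat], Or.inl (by simp only [map_zero, map_neg, map_ofNat]; norm_num)⟩
    · exact Or.inl ⟨hx, k⟩
  right
  obtain ⟨l, m, z, e1, e2, e3, hw, -, e4, e5, -, e7⟩ := chord σ hσ (d := 1) (g3 := 4) (g2 := 28)
    (g1 := 72) (g0 := 81) (by norm_num) (ε := 1) (by norm_num) (x := X) (w := W)
    (by push_cast; linear_combination h) hx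
  push_cast at e1 e2 e4 e5 e7
  rw [one_mul] at e1 e2 e7
  have hw' : σ W = l * σ X + m := by rw [hw, map_add, map_mul, e1, e2]
  refine ⟨l, e1, ?_⟩
  rcases hl z (l * z + m) e3 (by rw [map_add, map_mul, e1, e2, e3]) e7 with rfl | rfl
  · rcases sq_eq_sq_iff_eq_or_eq_neg.1 (show m ^ 2 = 9 ^ 2 by linear_combination e7) with rfl | rfl
    · exact Or.inr (Or.inr (Or.inr ⟨hw, hw', by linear_combination e4 / 4,
        by linear_combination e5 / 4⟩))
    · exact Or.inl ⟨by linear_combination hw, by linear_combination hw',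
        by linear_combination e4 / 4, by linear_combination e5 / 4⟩
  · rcases sq_eq_sq_iff_eq_or_eq_neg.1 (show (m - 3 * l) ^ 2 = 3 ^ 2 by linear_combination e7)
      with k | k
    · obtain rfl : m = 3 * l + 3 := by linear_combination k
      exact Or.inr (Or.inr (Or.inl ⟨hw, hw', by linear_combination e4 / 4,
        by linear_combination e5 / 4 + 3 * e4 / 4⟩))
    · obtain rfl : m = 3 * l - 3 := by linear_combination k
      exact Or.inr (Or.inl ⟨hw, hw', by linear_combination e4 / 4,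
        by linear_combination e5 / 4 + 3 * e4 / 4⟩)

omit [CharZero M] in
theorem nrm {X Y S N u v c a b : M} (hs : X + Y = S) (hp : X * Y = N)
    (hu : u = c * X ^ 2 + a * X + b) (hv : v = c * Y ^ 2 + a * Y + b) :
    u * v = (c * S + a) ^ 2 * N + (c * S + a) * (b - c * N) * S + (b - c * N) ^ 2 := by
  subst hs hp hu hv; ring

/-- the model of `X(b3,S4(5))` -/
theorem toEc {T t : M} (h : (T + 27) * (T + 3) ^ 3 = T * (t ^ 3 * (t ^ 2 + 5 * t + 40)))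
    (ht : t ≠ 0) (hq : t ^ 2 + 4 * t + 24 ≠ 0) :
    ∃ X W : M, W ^ 2 = 4 * X ^ 3 + 28 * X ^ 2 + 72 * X + 81 ∧
      2 * T = (X + 9) * W - 10 * X ^ 2 - 45 * X - 81 ∧
      2 * t * X = (X + 1) * W - 6 * X ^ 2 - 13 * X + 9 := by
  obtain ⟨q, hq'⟩ : ∃ q, q = t ^ 2 + 4 * t + 24 := ⟨_, rfl⟩
  rw [← hq'] at hq
  obtain ⟨X, hX⟩ : ∃ X, X = ((T + 3) * (T + 27) * q - t * (t + 4) * (T ^ 2 + 18 * T - 27)) /
    (12 * t * q) := ⟨_, rfl⟩
  have hD : 12 * t * q ≠ 0 := mul_ne_zero (mul_ne_zero (by norm_num) ht) hq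
  have k1 : 2 * X ^ 3 - (6 + t) * X ^ 2 + (T - 9 * t + 9) * X + T + 81 = 0 := by
    apply mul_left_cancel₀ (pow_ne_zero 3 hD)
    have : (12 * t * q) ^ 3 * (2 * X ^ 3 - (6 + t) * X ^ 2 + (T - 9 * t + 9) * X + T + 81) =
        4 * (3456 * t ^ 4 + 10368 * T * t ^ 2 + 24192 * t ^ 3 + 41472 * T * t + 6912 * T ^ 2 +
          342144 * t ^ 2 + 373248 * T + 1119744 * t + 5038848) *
        ((T + 27) * (T + 3) ^ 3 - T * (t ^ 3 * (t ^ 2 + 5 * t + 40))) := by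
      rw [hX]; field_simp; rw [hq']; ring
    rw [this, h]; ring
  have k2 : -T * X * t + 2 * T * X ^ 2 - 9 * X * t ^ 2 - 14 * X ^ 2 * t + 24 * T * X + T * t +
      T ^ 2 - 27 * X * t + 6 * X ^ 2 + 84 * T + 72 * X + 81 * t + 243 = 0 := by
    apply mul_left_cancel₀ (pow_ne_zero 2 hD)
    have : (12 * t * q) ^ 2 * (-T * X * t + 2 * T * X ^ 2 - 9 * X * t ^ 2 - 14 * X ^ 2 * t +
        24 * T * X + T * t + T ^ 2 - 27 * X * t + 6 * X ^ 2 + 84 * T + 72 * X + 81 * t + 243) =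
        16 * (72 * t ^ 2 + 72 * T - 216 * t + 1944) *
        ((T + 27) * (T + 3) ^ 3 - T * (t ^ 3 * (t ^ 2 + 5 * t + 40))) := by
      rw [hX]; field_simp; rw [hq']; ring
    rw [this, h]; ring
  refine ⟨X, (T - t * X + 2 * X ^ 2 + 16 * X + 45) / 4, ?_, ?_, ?_⟩
  · linear_combination (X / 2 - t / 4 + 3 / 2) / 4 * k1 + k2 / 16
  · linear_combination -k1 / 4
  · linear_combination -k1 / 4

/-- the data determined by a class and a parameter -/
def Rec (i : ℕ) (a X Y W Z : M) : Prop :=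
  (i = 0 ∧ X = a) ∨ ∃ L S N m : M, W = L * X + m ∧ Z = L * Y + m ∧ X + Y = S ∧ X * Y = N ∧
    ((i = 2 ∧ L = 2 * a + 4 ∧ m = 3 * L - 3 ∧ S = L ^ 2 / 4 - 4 ∧
      N = -3 / 4 * L ^ 2 + 3 / 2 * L + 6) ∨
    (i = 3 ∧ L = 2 * a + 2 ∧ m = 3 * L + 3 ∧ S = L ^ 2 / 4 - 4 ∧
      N = -3 / 4 * L ^ 2 - 3 / 2 * L + 6) ∨
    (i = 4 ∧ L = 2 * a + 4 ∧ m = 9 ∧ S = L ^ 2 / 4 - 7 ∧ N = -9 / 2 * L + 18))

theorem clsT (σ : M →+* M) (hσ : ∀ z, σ (σ z) = z)
    (hl : ∀ X W : M, σ X = X → σ W = W → W ^ 2 = 4 * X ^ 3 + 28 * X ^ 2 + 72 * X + 81 →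
      X = 0 ∨ X = -3) {T X W : M} (h : W ^ 2 = 4 * X ^ 3 + 28 * X ^ 2 + 72 * X + 81)
    (hT : 2 * T = (X + 9) * W - 10 * X ^ 2 - 45 * X - 81) :
    T * σ T = 729 ∨ ∃ (i : ℕ) (a : M), i < 5 ∧ σ a = a ∧ -(T * σ T) = 3 ^ i * a ^ 5 ∧
      Rec i a X (σ X) W (σ W) := by
  have hT' := congrArg σ hT
  simp only [map_add, map_sub, map_mul, map_pow, map_ofNat] at hT'
  rcases cls σ hσ hl h with ⟨k1, k2⟩ | ⟨L, hL, k⟩
  · refine Or.inr ⟨0, X, by norm_num, k1, ?_, Or.inl ⟨rfl, rfl⟩⟩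
    rw [k1, k2] at hT'
    linear_combination (X + 9) ^ 2 / 4 * h - σ T / 2 * hT +
      ((X + 9) * W - 10 * X ^ 2 - 45 * X - 81) / (-4) * hT'
  rcases k with ⟨k1, k2, k3, k4⟩ | ⟨k1, k2, k3, k4⟩ | ⟨k1, k2, k3, k4⟩ | ⟨k1, k2, k3, k4⟩
  · left
    have := nrm (u := 2 * T) (v := 2 * σ T) (c := L - 10) (a := 9 * L - 54) (b := -162) k3 k4
      (by rw [hT, k1]; ring) (by rw [hT', k2]; ring)
    linear_combination this / 4
  · refine Or.inr ⟨2, (L - 4) / 2, by norm_num, by simp [hL, map_ofNat], ?_,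
      Or.inr ⟨L, _, _, _, k1, k2, k3, k4, Or.inl ⟨rfl, by ring, rfl, rfl, rfl⟩⟩⟩
    have := nrm (u := 2 * T) (v := 2 * σ T) (c := L - 10) (a := 12 * L - 48) (b := 27 * L - 108)
      k3 k4 (by rw [hT, k1]; ring) (by rw [hT', k2]; ring)
    linear_combination -this / 4
  · refine Or.inr ⟨3, (L - 2) / 2, by norm_num, by simp [hL, map_ofNat], ?_,
      Or.inr ⟨L, _, _, _, k1, k2, k3, k4, Or.inr (Or.inl ⟨rfl, by ring, rfl, rfl, rfl⟩)⟩⟩
    have := nrm (u := 2 * T) (v := 2 * σ T) (c := L - 10) (a := 12 * L - 42) (b := 27 * L - 54)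
      k3 k4 (by rw [hT, k1]; ring) (by rw [hT', k2]; ring)
    linear_combination -this / 4
  · refine Or.inr ⟨4, (L - 4) / 2, by norm_num, by simp [hL, map_ofNat], ?_,
      Or.inr ⟨L, _, _, _, k1, k2, k3, k4, Or.inr (Or.inr ⟨rfl, by ring, rfl, rfl, rfl⟩)⟩⟩
    have := nrm (u := 2 * T) (v := 2 * σ T) (c := L - 10) (a := 9 * L - 36) (b := 0)
      k3 k4 (by rw [hT, k1]; ring) (by rw [hT', k2]; ring)
    linear_combination -this / 4

/-- **two octahedra and a `3`-isogeny** -/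
theorem b3core (σ τ : M →+* M) (hσ : ∀ z, σ (σ z) = z) (hτ : ∀ z, τ (τ z) = z)
    (hc : ∀ z, σ (τ z) = τ (σ z)) (hfix : ∀ z, σ z = z → τ z = z → ∃ q : ℚ, z = q)
    (hl : ∀ X W : M, σ X = X → σ W = W → W ^ 2 = 4 * X ^ 3 + 28 * X ^ 2 + 72 * X + 81 →
      X = 0 ∨ X = -3) {T t t' : M} (hT : T ≠ 0)
    (h : (T + 27) * (T + 3) ^ 3 = T * (t ^ 3 * (t ^ 2 + 5 * t + 40)))
    (ht : t ≠ 0) (hq : t ^ 2 + 4 * t + 24 ≠ 0)
    (h' : (T + 27) * (T + 3) ^ 3 = T * (t' ^ 3 * (t' ^ 2 + 5 * t' + 40)))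
    (ht' : t' ≠ 0) (hq' : t' ^ 2 + 4 * t' + 24 ≠ 0) (hne : t ≠ t') :
    σ T = T ∨ T * σ T = 729 := by
  obtain ⟨X, W, e1, e2, e3⟩ := toEc h ht hq
  obtain ⟨X', W', f1, f2, f3⟩ := toEc h' ht' hq'
  have e2' := congrArg σ e2
  simp only [map_add, map_sub, map_mul, map_pow, map_ofNat] at e2'
  rcases clsT σ hσ hl e1 e2 with k | ⟨i, a, hi, ha, k, r⟩
  · exact Or.inr k
  rcases clsT σ hσ hl f1 f2 with k' | ⟨i', a', hi', ha', k', r'⟩
  · exact Or.inr k'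
  left
  have ha0 : a ≠ 0 := by
    rintro rfl
    exact mul_ne_zero hT ((map_ne_zero σ).2 hT) (by linear_combination -k)
  obtain ⟨rfl, rfl⟩ := fifth σ τ hτ hc hfix hi hi' ha ha' ha0 (k.symm.trans k')
  have same : X' = X → W' = W → X = 0 := by
    rintro rfl rfl
    by_contra j
    exact hne (mul_right_cancel₀ j (by linear_combination e3 / 2 - f3 / 2))
  have fin : ∀ L m : M, W = L * X + m → σ W = L * σ X + m → W' = L * X' + m →
      X + σ X = X' + σ X' → X * σ X = X' * σ X' → σ T = T := by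
    intro L m j1 j2 j3 j4 j5
    have : (X' - X) * (X' - σ X) = 0 := by linear_combination j5 - X' * j4
    rcases mul_eq_zero.1 this with j | j
    · have j' : X' = X := sub_eq_zero.1 j
      have j0 := same j' (by rw [j3, j1, j'])
      rw [j0, map_zero] at j2 e2'
      rw [j0] at j1 e2
      linear_combination e2' / 2 - e2 / 2 + 9 / 2 * j2 - 9 / 2 * j1
    · have j' : X' = σ X := sub_eq_zero.1 j
      rw [j'] at j3 f2
      linear_combination e2' / 2 - f2 / 2 + (σ X + 9) / 2 * (j2 - j3)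
  rcases r with ⟨rfl, rfl⟩ | ⟨L, S, N, m, r1, r2, r3, r4, r5⟩
  · rcases r' with ⟨-, rfl⟩ | ⟨L, S, N, m, -, -, -, -, r5⟩
    · by_cases j : X' + 9 = 0
      · obtain rfl : X' = -9 := by linear_combination j
        have : T = -243 := by linear_combination e2 / 2
        rw [this]; simp [map_ofNat]
      · exact absurd (same rfl (mul_left_cancel₀ j (by linear_combination e2 - f2))) ha0
    · omega
  · rcases r' with ⟨rfl, -⟩ | ⟨L', S', N', m', s1, s2, s3, s4, s5⟩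
    · omega
    rcases r5 with ⟨rfl, rfl, rfl, rfl, rfl⟩ | ⟨rfl, rfl, rfl, rfl, rfl⟩ | ⟨rfl, rfl, rfl, rfl, rfl⟩ <;>
      rcases s5 with ⟨j, rfl, rfl, rfl, rfl⟩ | ⟨j, rfl, rfl, rfl, rfl⟩ | ⟨j, rfl, rfl, rfl, rfl⟩ <;>
      first
        | omega
        | exact fin _ _ r1 r2 s1 (r3.trans s3.symm) (r4.trans s4.symm)

end Vale.Agent.Q017B
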