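import Vale.Agent.Q017B.G

/-!
# Two octahedra and a cube root of `j`: the genus two curves `X(s3,S4(5))` and `X(ns3,S4(5))`
-/

set_option linter.all false

namespace Vale.Agent.Q017B

theorem red (p : ℕ) [Fact p.Prime] (q : ℚ) :
    ∃ a b : ℤ, (a : ℚ) = q * b ∧ ¬ ((a : ZMod p) = 0 ∧ (b : ZMod p) = 0) := by
  refine ⟨q.num, q.den, (Rat.mul_den_eq_num q).symm, fun ⟨h1, h2⟩ => ?_⟩
  rw [ZMod.intCast_zmod_eq_zero_iff_dvd] at h1 h2
  have := Nat.dvd_gcd (Int.natCast_dvd.1 h1) (Int.natCast_dvd_natCast.1 h2)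
  rw [q.reduced] at this
  exact (Fact.out : p.Prime).one_lt.ne' (Nat.dvd_one.1 this)

theorem cubH (q : ℚ) : q ^ 3 + 1 * q ^ 2 + 27 * q + 243 ≠ 0 := by
  intro h
  obtain ⟨a, b, e, k⟩ := @red 7 ⟨by norm_num⟩ q
  have h1 : a ^ 3 + a ^ 2 * b + 27 * a * b ^ 2 + 243 * b ^ 3 = 0 := by
    have : ((a ^ 3 + a ^ 2 * b + 27 * a * b ^ 2 + 243 * b ^ 3 : ℤ) : ℚ) = 0 := by
      push_cast; rw [e]; linear_combination (b : ℚ) ^ 3 * h
    exact_mod_cast this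
  have z : ∀ a b : ZMod 7, a ^ 3 + a ^ 2 * b + 27 * a * b ^ 2 + 243 * b ^ 3 = 0 → a = 0 ∧ b = 0 := by
    decide +kernel
  exact k (z a b (by exact_mod_cast congrArg (Int.cast : ℤ → ZMod 7) h1))

theorem cubA (q : ℚ) : 3 * q ^ 3 - 24 * q ^ 2 + 48 * q - 64 ≠ 0 := by
  intro h
  obtain ⟨a, b, e, k⟩ := @red 17 ⟨by norm_num⟩ q
  have h1 : 3 * a ^ 3 - 24 * a ^ 2 * b + 48 * a * b ^ 2 - 64 * b ^ 3 = 0 := by
    have : ((3 * a ^ 3 - 24 * a ^ 2 * b + 48 * a * b ^ 2 - 64 * b ^ 3 : ℤ) : ℚ) = 0 := by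
      push_cast; rw [e]; linear_combination (b : ℚ) ^ 3 * h
    exact_mod_cast this
  have z : ∀ a b : ZMod 17, 3 * a ^ 3 - 24 * a ^ 2 * b + 48 * a * b ^ 2 - 64 * b ^ 3 = 0 →
      a = 0 ∧ b = 0 := by decide +kernel
  exact k (z a b (by exact_mod_cast congrArg (Int.cast : ℤ → ZMod 17) h1))

theorem sexS (q : ℚ) : -3136 * q ^ 6 + 48384 * q ^ 5 - 297984 * q ^ 4 + 781600 * q ^ 3 -
    595680 * q ^ 2 - 640800 * q + 795825 ≠ 0 := by
  intro h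
  obtain ⟨a, b, e, k⟩ := @red 23 ⟨by norm_num⟩ q
  have h1 : -3136 * a ^ 6 + 48384 * a ^ 5 * b - 297984 * a ^ 4 * b ^ 2 + 781600 * a ^ 3 * b ^ 3 -
      595680 * a ^ 2 * b ^ 4 - 640800 * a * b ^ 5 + 795825 * b ^ 6 = 0 := by
    have : ((-3136 * a ^ 6 + 48384 * a ^ 5 * b - 297984 * a ^ 4 * b ^ 2 + 781600 * a ^ 3 * b ^ 3 -
        595680 * a ^ 2 * b ^ 4 - 640800 * a * b ^ 5 + 795825 * b ^ 6 : ℤ) : ℚ) = 0 := by
      push_cast; rw [e]; linear_combination (b : ℚ) ^ 6 * h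
    exact_mod_cast this
  have z : ∀ a b : ZMod 23, -3136 * a ^ 6 + 48384 * a ^ 5 * b - 297984 * a ^ 4 * b ^ 2 +
      781600 * a ^ 3 * b ^ 3 - 595680 * a ^ 2 * b ^ 4 - 640800 * a * b ^ 5 + 795825 * b ^ 6 = 0 →
      a = 0 ∧ b = 0 := by decide +kernel
  exact k (z a b (by exact_mod_cast congrArg (Int.cast : ℤ → ZMod 23) h1))

variable {M : Type*} [Field M] [CharZero M]

/-- a point of the genus two curve, with all its coordinates -/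
def PtC (d : ℚ) (c y t x w V W : M) : Prop :=
  x ≠ 0 ∧ W + 3 * V ≠ 0 ∧ w ^ 2 + (4 - x ^ 2) * w + 16 - 11 * x + 4 * x ^ 2 = 0 ∧
    t = 3 + x * (w - 4) ∧ c = t * w ∧ x * (1 - d * V ^ 2) = 4 ∧
    d * x ^ 3 * W ^ 2 = 9 * (x ^ 3 + 4 * x ^ 2 - 8 * x + 12) ∧
    36 * (3 + x * w) = d * x ^ 3 * (W + 3 * V) ^ 2 ∧
    y * x * (W + 3 * V) = 6 * (t ^ 2 + 4 * t + 24)

theorem PtC.map {d : ℚ} {c y t x w V W : M} (h : PtC d c y t x w V W) (ρ : M →+* M) :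
    PtC d (ρ c) (ρ y) (ρ t) (ρ x) (ρ w) (ρ V) (ρ W) := by
  obtain ⟨h0, h1, h2, h3, h4, h5, h6, h7, h8⟩ := h
  refine ⟨(map_ne_zero ρ).2 h0, by simpa [map_ofNat] using (map_ne_zero ρ).2 h1, ?_, ?_, ?_, ?_, ?_,
    ?_, ?_⟩
  · simpa [map_ofNat] using congrArg ρ h2
  · simpa [map_ofNat] using congrArg ρ h3
  · simpa [map_ofNat] using congrArg ρ h4
  · simpa [map_ofNat] using congrArg ρ h5
  · simpa [map_ofNat] using congrArg ρ h6
  · simpa [map_ofNat] using congrArg ρ h7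
  · simpa [map_ofNat] using congrArg ρ h8

theorem PtC.neg {d : ℚ} {c y t x w V W : M} (h : PtC d c y t x w V W) :
    PtC d c (-y) t x w (-V) (-W) := by
  obtain ⟨h0, h1, h2, h3, h4, h5, h6, h7, h8⟩ := h
  exact ⟨h0, fun k => h1 (by linear_combination -k), h2, h3, h4, by linear_combination h5,
    by linear_combination h6, by linear_combination h7, by linear_combination h8⟩

theorem toC {d : ℚ} (hd : d ≠ 0) {c y t : M} (h : c ^ 3 = t ^ 3 * (t ^ 2 + 5 * t + 40))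
    (hy : y ^ 2 = d * (c ^ 2 + 12 * c + 144)) (h0 : c ≠ 0) (h1 : c ^ 3 ≠ 1728) (h2 : c ≠ -32) :
    ∃ x w V W : M, PtC d c y t x w V W := by
  have hd' : (d : M) ≠ 0 := by exact_mod_cast hd
  have ht : t ≠ 0 := by
    rintro rfl
    exact pow_ne_zero 3 h0 (by rw [h]; ring)
  obtain ⟨w, rfl⟩ : ∃ w, c = t * w := ⟨c / t, by field_simp⟩
  have hw : w ^ 3 = t ^ 2 + 5 * t + 40 := by
    apply mul_left_cancel₀ (pow_ne_zero 3 ht)
    linear_combination h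
  have ht3 : t - 3 ≠ 0 := by
    intro k
    obtain rfl : t = 3 := by linear_combination k
    exact h1 (by rw [h]; norm_num)
  have hw4 : w - 4 ≠ 0 := by
    intro k
    obtain rfl : w = 4 := by linear_combination k
    have : (t - 3) * (t + 8) = 0 := by linear_combination -hw
    exact h2 (by linear_combination 4 * (mul_eq_zero.1 this).resolve_left ht3)
  obtain ⟨x, hx⟩ : ∃ x, t = 3 + x * (w - 4) := ⟨(t - 3) / (w - 4), by field_simp; ring⟩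
  have hx0 : x ≠ 0 := by
    rintro rfl
    exact ht3 (by linear_combination hx)
  have rel : w ^ 2 + (4 - x ^ 2) * w + 16 - 11 * x + 4 * x ^ 2 = 0 := by
    apply mul_left_cancel₀ hw4
    rw [hx] at hw
    linear_combination hw
  have e1 : t * w - 12 = (w - 4) * (3 + x * w) := by rw [hx]; ring
  have ha : 3 + x * w ≠ 0 := by
    intro k
    rw [k] at e1
    exact h1 (by rw [show t * w = 12 by linear_combination e1]; norm_num)
  have hy0 : y ≠ 0 := by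
    rintro rfl
    have : (t * w) ^ 2 + 12 * (t * w) + 144 = 0 :=
      mul_left_cancel₀ hd' (by linear_combination -hy)
    exact h1 (by linear_combination (t * w - 12) * this)
  have e2 : (3 + x * w) * y ^ 2 = d * x * (t ^ 2 + 4 * t + 24) ^ 2 := by
    apply mul_left_cancel₀ hw4
    have : x * (w - 4) = t - 3 := by rw [hx]; ring
    linear_combination (-y ^ 2) * e1 + (t * w - 12) * hy + d * h -
      d * (t ^ 2 + 4 * t + 24) ^ 2 * this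
  obtain ⟨s, hs⟩ : ∃ s, s = d * x * (t ^ 2 + 4 * t + 24) / y := ⟨_, rfl⟩
  have hs1 : s * y = d * x * (t ^ 2 + 4 * t + 24) := by rw [hs]; exact div_mul_cancel₀ _ hy0
  have hs2 : s ^ 2 = d * x * (3 + x * w) := by
    apply mul_right_cancel₀ (pow_ne_zero 2 hy0)
    linear_combination (s * y + d * x * (t ^ 2 + 4 * t + 24)) * hs1 - d * x * e2
  have hs0 : s ≠ 0 := by
    rintro rfl
    exact mul_ne_zero (mul_ne_zero hd' hx0) ha (by rw [← hs2]; ring)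
  obtain ⟨a, ha'⟩ : ∃ a, a = 3 + x * w := ⟨_, rfl⟩
  have f1 : (a - (2 * x ^ 2 - 2 * x + 3)) ^ 2 = a * (x ^ 2 * (x - 4)) := by
    rw [ha']; linear_combination x ^ 2 * rel
  have f2 : (a + (2 * x ^ 2 - 2 * x + 3)) ^ 2 = a * (x ^ 3 + 4 * x ^ 2 - 8 * x + 12) := by
    rw [ha']; linear_combination x ^ 2 * rel
  rw [← ha'] at hs2 ha
  obtain ⟨V, hV⟩ : ∃ V, V * (s * x) = a - (2 * x ^ 2 - 2 * x + 3) :=
    ⟨_, div_mul_cancel₀ _ (mul_ne_zero hs0 hx0)⟩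
  obtain ⟨W, hW⟩ : ∃ W, W * (s * x) = 3 * (a + (2 * x ^ 2 - 2 * x + 3)) :=
    ⟨_, div_mul_cancel₀ _ (mul_ne_zero hs0 hx0)⟩
  have g1 : (W + 3 * V) * (s * x) = 6 * a := by linear_combination hW + 3 * hV
  refine ⟨x, w, V, W, hx0, fun k => ha ?_, rel, hx, rfl, ?_, ?_, ?_, ?_⟩
  · rw [k] at g1
    linear_combination -g1 / 6
  · apply mul_left_cancel₀ (mul_ne_zero ha (pow_ne_zero 2 hx0))
    linear_combination -(V * (s * x) + (a - (2 * x ^ 2 - 2 * x + 3))) * hV - f1 + V ^ 2 * x ^ 2 * hs2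
  · apply mul_left_cancel₀ ha
    linear_combination (W * (s * x) + 3 * (a + (2 * x ^ 2 - 2 * x + 3))) * hW + 9 * f2 -
      W ^ 2 * x ^ 2 * hs2
  · rw [← ha']
    apply mul_left_cancel₀ ha
    linear_combination -((W + 3 * V) * (s * x) + 6 * a) * g1 + (W + 3 * V) ^ 2 * x ^ 2 * hs2
  · apply mul_left_cancel₀ (mul_ne_zero (mul_ne_zero hd' hx0) hs0)
    linear_combination (d * x * y) * g1 - 6 * y * hs2 + 6 * s * hs1

theorem PtC.uniq {d : ℚ} {c y t x w V W c' y' t' x' w' : M} (h : PtC d c y t x w V W)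
    (h' : PtC d c' y' t' x' w' V W) : t = t' ∧ c = c' := by
  obtain ⟨h0, -, -, h3, h4, h5, -, h7, -⟩ := h
  obtain ⟨-, -, -, k3, k4, k5, -, k7, -⟩ := h'
  have hD : 1 - d * V ^ 2 ≠ 0 := by
    intro k
    rw [k] at h5
    norm_num at h5
  obtain rfl : x = x' := mul_right_cancel₀ hD (h5.trans k5.symm)
  obtain rfl : w = w' := mul_left_cancel₀ h0 (by linear_combination (h7 - k7) / 36)
  obtain rfl : t = t' := h3.trans k3.symm
  exact ⟨rfl, h4.trans k4.symm⟩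

/-- the symmetric functions of `c` on a fibre of `x` -/
theorem fibre {d : ℚ} {c y t x w V W c' y' t' w' V' W' : M} (h : PtC d c y t x w V W)
    (h' : PtC d c' y' t' x w' V' W') : w' = w ∨ (w + w' = x ^ 2 - 4 ∧
      c + c' = x ^ 5 - 20 * x ^ 3 + 25 * x ^ 2 - 12 ∧
      c * c' = -32 * x ^ 5 + 280 * x ^ 4 - 800 * x ^ 3 + 1200 * x ^ 2 - 675 * x + 144) := by
  obtain ⟨-, -, h2, rfl, rfl, -⟩ := h
  obtain ⟨-, -, k2, rfl, rfl, -⟩ := h'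
  refine (eq_or_ne w' w).imp_right fun k => ?_
  obtain rfl : w' = x ^ 2 - 4 - w :=
    mul_left_cancel₀ (sub_ne_zero.2 k) (by linear_combination k2 - h2)
  exact ⟨by ring, by linear_combination 2 * x * h2, by
    linear_combination (-w * x ^ 4 + w ^ 2 * x ^ 2 + 4 * w * x ^ 2 + 8 * x ^ 3 - 48 * x ^ 2 +
      36 * x - 9) * h2⟩

theorem sextic {x z : M} (hne : x ≠ z) {q : ℚ} (hq : x + z = q)
    (h1 : x ^ 5 - 20 * x ^ 3 + 25 * x ^ 2 - 12 = z ^ 5 - 20 * z ^ 3 + 25 * z ^ 2 - 12)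
    (h2 : -32 * x ^ 5 + 280 * x ^ 4 - 800 * x ^ 3 + 1200 * x ^ 2 - 675 * x + 144 =
      -32 * z ^ 5 + 280 * z ^ 4 - 800 * z ^ 3 + 1200 * z ^ 2 - 675 * z + 144) : False := by
  obtain ⟨p, hp⟩ : ∃ p, p = x * z := ⟨_, rfl⟩
  obtain ⟨s, hs⟩ : ∃ s, s = x + z := ⟨_, rfl⟩
  have e1 : s ^ 4 - 3 * p * s ^ 2 + p ^ 2 - 20 * s ^ 2 + 20 * p + 25 * s = 0 := by
    apply mul_left_cancel₀ (sub_ne_zero.2 hne)
    rw [hp, hs]; linear_combination h1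
  have e2 : 280 * s ^ 3 - 560 * p * s - 1440 * s ^ 2 + 1440 * p + 2000 * s - 675 = 0 := by
    apply mul_left_cancel₀ (sub_ne_zero.2 hne)
    rw [hp, hs]; linear_combination h2 + 32 * h1
  apply sexS q
  rw [hq] at hs
  rw [hs] at e1 e2
  have : -3136 * (q : M) ^ 6 + 48384 * q ^ 5 - 297984 * q ^ 4 + 781600 * q ^ 3 -
      595680 * q ^ 2 - 640800 * q + 795825 = 0 := by
    linear_combination (1440 - 560 * (q : M)) ^ 2 / 25 * e1 + (-1400 * (q : M) ^ 3 + 560 * p * q +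
      2880 * q ^ 2 - 1440 * p + 13200 * q - 29475) / 25 * e2
  exact_mod_cast this

/-- both abscissas are fixed -/
theorem xcase (σ : M →+* M) {d : ℚ} {c y t x w V W t' x' w' V' W' : M}
    (h : PtC d c y t x w V W) (h' : PtC d c y t' x' w' V' W') (hne : t ≠ t') (hx : σ x = x)
    (hx' : σ x' = x') {q : ℚ} (hq : x + x' = q) : σ c = c := by
  have k := h.map σ
  have k' := h'.map σ
  rw [hx] at k
  rw [hx'] at k'
  have fin : ∀ {t x w V W : M}, PtC d c y t x w V W → PtC d (σ c) (σ y) (σ t) x w (σ V) (σ W) →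
      σ c = c := fun a b => by rw [b.2.2.2.2.1, b.2.2.2.1, a.2.2.2.2.1, a.2.2.2.1]
  rcases fibre h k with j | ⟨j0, j1, j2⟩
  · exact fin h (j ▸ k)
  rcases fibre h' k' with j | ⟨i0, i1, i2⟩
  · exact fin h' (j ▸ k')
  by_cases e : x = x'
  · subst e
    rcases fibre h h' with j | ⟨j, -⟩
    · exact absurd (by rw [h.2.2.2.1, h'.2.2.2.1, j]) hne
    · have : w' = σ w := by linear_combination j - j0
      rw [k.2.2.2.2.1, k.2.2.2.1, h'.2.2.2.2.1, h'.2.2.2.1, this]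
  · exact (sextic e hq (j1.symm.trans i1) (j2.symm.trans i2)).elim

theorem PtC.ell {d : ℚ} {c y t x w V W : M} (h : PtC d c y t x w V W) :
    d * W ^ 2 = 4 * (3 / x - 3) ^ 3 + 28 * (3 / x - 3) ^ 2 + 72 * (3 / x - 3) + 81 ∧
      3 / x - 3 = -(3 * d * V ^ 2 + 9) / 4 := by
  obtain ⟨h0, -, -, -, -, h5, h6, -⟩ := h
  constructor
  · field_simp
    linear_combination h6
  · field_simp
    linear_combination -3 * h5

/-- the modular unit of `X(s3)` -/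
theorem PtC.rho {c y t x w V W : M} (h : PtC 1 c y t x w V W) :
    1 - V ≠ 0 ∧ 9 * (1 - V) ^ 5 * ((6 + c + y) / 6) =
      16 * ((-(3 * V ^ 2 + 9) / 4 + 4) * W + 5 * (-(3 * V ^ 2 + 9) / 4) + 18) := by
  obtain ⟨h0, h1, -, h3, h4, h5, h6, h7, h8⟩ := h
  push_cast at h5 h6 h7
  obtain ⟨D, hD⟩ : ∃ D, D = 1 - V ^ 2 := ⟨_, rfl⟩
  have h5' : x * D = 4 := by rw [hD]; linear_combination h5
  have hD0 : D ≠ 0 := by
    rintro rfl
    norm_num at h5'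
  have hm : 1 - V ≠ 0 := fun k => hD0 (by rw [hD]; linear_combination (1 + V) * k)
  have hp : 1 + V ≠ 0 := fun k => hD0 (by rw [hD]; linear_combination (1 - V) * k)
  refine ⟨hm, ?_⟩
  obtain rfl : x = 4 / D := by field_simp; linear_combination h5'
  have e0 : 16 * W ^ 2 = 9 * (16 + 16 * D - 8 * D ^ 2 + 3 * D ^ 3) := by
    field_simp at h6
    linear_combination h6 / 4
  have e1 : w * D ^ 2 = (16 / 9 * (W + 3 * V) ^ 2 - 3 * D ^ 3) / 4 := by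
    field_simp at h7
    linear_combination h7 / 144
  have e2 : t * D ^ 3 = 16 / 9 * (W + 3 * V) ^ 2 - 16 * D ^ 2 := by
    rw [h3]; field_simp; linear_combination 36 * e1
  have e3 : y * (W + 3 * V) = 3 / 2 * D * (t ^ 2 + 4 * t + 24) := by
    field_simp at h8
    linear_combination h8 / 4
  obtain ⟨a, ha⟩ : ∃ a, a = 16 / 9 * (W + 3 * V) ^ 2 := ⟨_, rfl⟩
  have e4 : c * D ^ 5 = (a - 16 * D ^ 2) * ((a - 3 * D ^ 3) / 4) := by
    rw [ha, ← e1, ← e2, h4]; ring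
  have e5 : y * (W + 3 * V) * D ^ 5 =
      3 / 2 * ((a - 16 * D ^ 2) ^ 2 + 4 * (a - 16 * D ^ 2) * D ^ 3 + 24 * D ^ 6) := by
    rw [ha, ← e2, e3]; ring
  apply mul_left_cancel₀ (mul_ne_zero h1 (pow_ne_zero 5 hp))
  subst hD ha
  linear_combination 3 / 2 * (W + 3 * V) * e4 + 3 / 2 * e5 + (12 * V ^ 6 - 6 * V ^ 4 * W - 18 * V ^ 5 -
    36 * V ^ 4 + (20 / 3) * V * W ^ 2 + 48 * V ^ 2 * W + 96 * V ^ 3 + (4 / 9) * W ^ 3 + 32 * V * W +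
    108 * V ^ 2 + (8 / 3) * W ^ 2 + 6 * V + 2 * W - 12) / 6 * e0

/-- the trace of the unit in symmetric coordinates -/
def TR (A B L m : M) : M :=
  (-21 * A * B ^ 4 * L + 8 * A * B ^ 4 * m + 39 * A ^ 2 * B ^ 3 * L - 19 * A ^ 2 * B ^ 3 * m -
    39 * A ^ 3 * B ^ 2 * L + 19 * A ^ 3 * B ^ 2 * m + 21 * A ^ 4 * B * L - 8 * A ^ 4 * B * m - 3
    * A ^ 5 * L + A ^ 5 * m + 3 * B ^ 5 * L - B ^ 5 * m + 276 * A * B ^ 3 * L - 108 * A * B ^ 3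
    * m + 30 * A * B ^ 4 - 192 * A ^ 2 * B ^ 2 * L + 120 * A ^ 2 * B ^ 2 * m - 75 * A ^ 2 * B ^
    3 + 120 * A ^ 3 * B * L - 32 * A ^ 3 * B * m + 75 * A ^ 3 * B ^ 2 - 30 * A ^ 4 * B + 36 * A
    ^ 4 * L + 3 * A ^ 5 - 60 * B ^ 4 * L + 20 * B ^ 4 * m - 3 * B ^ 5 - 1296 * A * B ^ 2 * L +
    528 * A * B ^ 2 * m - 420 * A * B ^ 3 - 96 * A ^ 2 * B * L - 128 * A ^ 2 * B * m + 480 * A ^
    2 * B ^ 2 - 120 * A ^ 3 * B - 288 * A ^ 3 * L + 480 * B ^ 3 * L - 160 * B ^ 3 * m + 60 * B ^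
    4 + 2496 * A * B * L - 1088 * A * B * m + 2160 * A * B ^ 2 - 480 * A ^ 2 * B + 960 * A ^ 2 *
    L - 192 * A ^ 2 * m - 1920 * B ^ 2 * L + 640 * B ^ 2 * m - 480 * B ^ 3 - 4800 * A * B - 1536
    * A * L + 768 * A * m - 960 * A ^ 2 + 3840 * B * L - 1280 * B * m + 1920 * B ^ 2 + 3840 * A
    - 3840 * B - 3072 * L + 1024 * m + 3072) / 32

theorem trAB {V U A B L m ρ ρ' X Y : M} (hA : A = (1 - V) * (1 - U)) (hB : B = (1 + V) * (1 + U))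
    (hX : X = -(3 * V ^ 2 + 9) / 4) (hY : Y = -(3 * U ^ 2 + 9) / 4)
    (h1 : 9 * (1 - V) ^ 5 * ρ = 16 * ((X + 4) * (L * X + m) + 5 * X + 18))
    (h2 : 9 * (1 - U) ^ 5 * ρ' = 16 * ((Y + 4) * (L * Y + m) + 5 * Y + 18)) :
    9 * A ^ 5 * (ρ + ρ') = 16 * TR A B L m ∧
    X + Y = 3 / 8 * A * B - 3 / 16 * A ^ 2 - 3 / 16 * B ^ 2 + 3 / 4 * A + 3 / 4 * B - 6 ∧
    X * Y = -9 / 16 * A * B + 9 / 16 * A ^ 2 + 9 / 16 * B ^ 2 - 9 / 4 * A - 9 / 4 * B + 9 := by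
  subst hA hB hX hY
  refine ⟨?_, by ring, by ring⟩
  unfold TR
  linear_combination (1 - U) ^ 5 * h1 + (1 - V) ^ 5 * h2

theorem pair3 {A B B' L L' r : M} {q : ℚ} (hq : A = q)
    (h1 : 9 * A ^ 5 * r = 16 * TR A B L (3 * L + 3))
    (h2 : 3 / 8 * A * B - 3 / 16 * A ^ 2 - 3 / 16 * B ^ 2 + 3 / 4 * A + 3 / 4 * B - 6 = L ^ 2 / 4 - 4)
    (h3 : -9 / 16 * A * B + 9 / 16 * A ^ 2 + 9 / 16 * B ^ 2 - 9 / 4 * A - 9 / 4 * B + 9 =
      -3 / 4 * L ^ 2 - 3 / 2 * L + 6)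
    (k1 : 9 * A ^ 5 * r = 16 * TR A B' L' (3 * L' + 3))
    (k2 : 3 / 8 * A * B' - 3 / 16 * A ^ 2 - 3 / 16 * B' ^ 2 + 3 / 4 * A + 3 / 4 * B' - 6 =
      L' ^ 2 / 4 - 4)
    (k3 : -9 / 16 * A * B' + 9 / 16 * A ^ 2 + 9 / 16 * B' ^ 2 - 9 / 4 * A - 9 / 4 * B' + 9 =
      -3 / 4 * L' ^ 2 - 3 / 2 * L' + 6) : B' = B ∧ L' = L := by
  have key : ∀ B L : M, 9 * A ^ 5 * r = 16 * TR A B L (3 * L + 3) →
      3 / 8 * A * B - 3 / 16 * A ^ 2 - 3 / 16 * B ^ 2 + 3 / 4 * A + 3 / 4 * B - 6 = L ^ 2 / 4 - 4 →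
      L = 2 - 3 / 8 * A * B → 9 * A ^ 5 * r = 16 * (9 / 2 * A ^ 4 - 54 * A ^ 3 + 96 * A ^ 2 - 144 * A
        - 3 / 64 * ((3 * A ^ 2 + 16) * (3 * A ^ 3 - 24 * A ^ 2 + 48 * A - 64)) * B) := by
    intro B L h1 h2 h3
    subst h3
    unfold TR at h1
    linear_combination h1 + 16 * (-6 * A * B ^ 2 + 6 * A ^ 2 * B - A ^ 3 + B ^ 3 + 56 * A * B +
      8 * A ^ 2 - 16 * B ^ 2 - 144 * A + 80 * B - 64) * h2
  have e : L = 2 - 3 / 8 * A * B := by linear_combination 2 / 3 * h3 + 2 * h2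
  have e' : L' = 2 - 3 / 8 * A * B' := by linear_combination 2 / 3 * k3 + 2 * k2
  have n0 : (3 * A ^ 2 + 16) * (3 * A ^ 3 - 24 * A ^ 2 + 48 * A - 64) ≠ 0 := by
    have : (3 * q ^ 2 + 16) * (3 * q ^ 3 - 24 * q ^ 2 + 48 * q - 64) ≠ 0 :=
      mul_ne_zero (by positivity) (cubA q)
    rw [hq]; exact_mod_cast this
  obtain rfl : B' = B :=
    mul_left_cancel₀ n0 (by linear_combination 4 / 3 * (key B' L' k1 k2 e' - key B L h1 h2 e))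
  exact ⟨rfl, e'.trans e.symm⟩

theorem pair4 {A A' f r : M} {q a : ℚ} (hq : f = q) (ha : A = a) (hA : A ≠ 0) (hA' : A' ≠ 0)
    (h1 : 9 * A ^ 5 * r = 16 * TR A (16 / 3 * f * (f * A + 1)) (2 * f * A + 4) 9)
    (h2 : 3 / 8 * A * (16 / 3 * f * (f * A + 1)) - 3 / 16 * A ^ 2 -
      3 / 16 * (16 / 3 * f * (f * A + 1)) ^ 2 + 3 / 4 * A + 3 / 4 * (16 / 3 * f * (f * A + 1)) - 6 =
      (2 * f * A + 4) ^ 2 / 4 - 7)
    (k1 : 9 * A' ^ 5 * r = 16 * TR A' (16 / 3 * f * (f * A' + 1)) (2 * f * A' + 4) 9)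
    (k2 : 3 / 8 * A' * (16 / 3 * f * (f * A' + 1)) - 3 / 16 * A' ^ 2 -
      3 / 16 * (16 / 3 * f * (f * A' + 1)) ^ 2 + 3 / 4 * A' + 3 / 4 * (16 / 3 * f * (f * A' + 1)) - 6 =
      (2 * f * A' + 4) ^ 2 / 4 - 7) : A' = A := by
  have key : ∀ A : M, A ≠ 0 → 9 * A ^ 5 * r = 16 * TR A (16 / 3 * f * (f * A + 1)) (2 * f * A + 4) 9 →
      3 / 8 * A * (16 / 3 * f * (f * A + 1)) - 3 / 16 * A ^ 2 -
      3 / 16 * (16 / 3 * f * (f * A + 1)) ^ 2 + 3 / 4 * A + 3 / 4 * (16 / 3 * f * (f * A + 1)) - 6 =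
      (2 * f * A + 4) ^ 2 / 4 - 7 → 9 * r = 16 * (256 * f ^ 6 - 448 * f ^ 5 + 384 * f ^ 4 -
        144 * f ^ 3 + 6 * f ^ 2 + 27 / 2 * f + 1 / 64 * ((256 * f ^ 4 - 48 * f ^ 2 + 9) *
          ((4 * f - 1) * (16 * f ^ 2 - 12 * f - 3))) * A) := by
    intro A h0 h1 h2
    apply mul_left_cancel₀ (pow_ne_zero 5 h0)
    unfold TR at h1
    linear_combination h1 + 16 * (-(4096 / 27) * A ^ 4 * f ^ 7 - (4096 / 9) * A ^ 3 * f ^ 6 + (512 / 3) * A ^ 4 * f ^ 5 +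
      (4096 / 9) * A ^ 3 * f ^ 5 - (4096 / 9) * A ^ 2 * f ^ 5 + (1024 / 3) * A ^ 3 * f ^ 4 + 16
      * A ^ 4 * f ^ 3 + (8192 / 9) * A ^ 2 * f ^ 4 - (896 / 3) * A ^ 3 * f ^ 3 - 48 * A ^ 4 * f
      ^ 2 - (4096 / 27) * A * f ^ 4 - (1024 / 3) * A ^ 2 * f ^ 3 - 96 * A ^ 3 * f ^ 2 + A ^ 4 *
      f + (4096 / 9) * A * f ^ 3 - (896 / 3) * A ^ 2 * f ^ 2 + 40 * A ^ 3 * f + (9 / 4) * A ^ 4
      - 512 * A * f ^ 2 + 208 * A ^ 2 * f + 9 * A ^ 3 + 256 * A * f - 24 * A ^ 2 - 48 * A) * h2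
  have n0 : (256 * f ^ 4 - 48 * f ^ 2 + 9) * ((4 * f - 1) * (16 * f ^ 2 - 12 * f - 3)) ≠ 0 := by
    have : (256 * q ^ 4 - 48 * q ^ 2 + 9) * ((4 * q - 1) * (16 * q ^ 2 - 12 * q - 3)) ≠ 0 := by
      refine mul_ne_zero (by nlinarith [sq_nonneg (32 * q ^ 2 - 3)]) (mul_ne_zero (fun k => ?_)
        fun k => no_sq (s := 8 * q - 3) (n := 21) (by decide +kernel)
          (by push_cast; linear_combination 4 * k))
      obtain rfl : q = 1 / 4 := by linarith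
      rw [hq, ha] at h2
      have : (7 : M) * a ^ 2 - 16 * a + 112 = 0 := by
        push_cast at h2
        linear_combination -48 * h2
      have : (7 : ℚ) * a ^ 2 - 16 * a + 112 = 0 := by exact_mod_cast this
      nlinarith [sq_nonneg (7 * a - 8)]
    rw [hq]; exact_mod_cast this
  exact mul_left_cancel₀ n0 (by linear_combination 4 * (key A hA h1 h2 - key A' hA' k1 k2))

end Vale.Agent.Q017B
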