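import Vale.Agent.Q017B.H

/-!
# Two octahedra and a cube root of `j`: the core statements
-/

set_option linter.all false

namespace Vale.Agent.Q017B

variable {M : Type*} [Field M] [CharZero M]

theorem fin2 (σ : M →+* M) {c y t x w V W t' x' w' V' W' L m : M}
    (h : PtC 1 c y t x w V W) (h' : PtC 1 c y t' x' w' V' W') (hne : t ≠ t')
    (hA : (1 - V') * (1 - σ V') = (1 - V) * (1 - σ V))
    (hB : (1 + V') * (1 + σ V') = (1 + V) * (1 + σ V))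
    (k1 : W = L * (-(3 * V ^ 2 + 9) / 4) + m) (k2 : σ W = L * (-(3 * σ V ^ 2 + 9) / 4) + m)
    (k3 : W' = L * (-(3 * V' ^ 2 + 9) / 4) + m) : σ c = c := by
  have : (V' - V) * (V' - σ V) = 0 := by
    linear_combination (-1 - V') / 2 * hA + (V' - 1) / 2 * hB
  rcases mul_eq_zero.1 this with j | j
  · obtain rfl : V' = V := sub_eq_zero.1 j
    obtain rfl : W' = W := k3.trans k1.symm
    exact absurd (h.uniq h').1 hne
  · obtain rfl : V' = σ V := sub_eq_zero.1 j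
    obtain rfl : W' = σ W := k3.trans k2.symm
    exact ((h.map σ).uniq h').2

theorem fifth' (σ : M →+* M) (hfix : ∀ z, σ z = z → ∃ q : ℚ, z = q)
    {i j : ℕ} (hi : i < 5) (hj : j < 5) {a b : M} (ha : σ a = a) (hb : σ b = b) (ha0 : a ≠ 0)
    (h : 3 ^ i * a ^ 5 = 3 ^ j * b ^ 5) : i = j ∧ a = b :=
  fifth σ (RingHom.id M) (fun _ => rfl) (fun _ => rfl) (fun z k _ => hfix z k) hi hj ha hb ha0 h

theorem nrmR {V U L m ρ ρ' S N : M}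
    (h1 : 9 * (1 - V) ^ 5 * ρ = 16 * ((-(3 * V ^ 2 + 9) / 4 + 4) *
      (L * (-(3 * V ^ 2 + 9) / 4) + m) + 5 * (-(3 * V ^ 2 + 9) / 4) + 18))
    (h2 : 9 * (1 - U) ^ 5 * ρ' = 16 * ((-(3 * U ^ 2 + 9) / 4 + 4) *
      (L * (-(3 * U ^ 2 + 9) / 4) + m) + 5 * (-(3 * U ^ 2 + 9) / 4) + 18))
    (hs : -(3 * V ^ 2 + 9) / 4 + -(3 * U ^ 2 + 9) / 4 = S)
    (hp : -(3 * V ^ 2 + 9) / 4 * (-(3 * U ^ 2 + 9) / 4) = N) :
    81 * (ρ * ρ') * ((1 - V) * (1 - U)) ^ 5 = 256 * ((L * S + (4 * L + m + 5)) ^ 2 * N +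
      (L * S + (4 * L + m + 5)) * (4 * m + 18 - L * N) * S + (4 * m + 18 - L * N) ^ 2) := by
  have := nrm (u := 9 * (1 - V) ^ 5 * ρ / 16) (v := 9 * (1 - U) ^ 5 * ρ' / 16) (c := L)
    (a := 4 * L + m + 5) (b := 4 * m + 18) hs hp (by rw [h1]; ring) (by rw [h2]; ring)
  linear_combination 256 * this

theorem P3 (σ : M →+* M) (hσ : ∀ z, σ (σ z) = z) (hfix : ∀ z, σ z = z → ∃ q : ℚ, z = q)
    {c y t x w V W t' x' w' V' W' L L' : M}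
    (h : PtC 1 c y t x w V W) (h' : PtC 1 c y t' x' w' V' W') (hne : t ≠ t')
    (k1 : W = L * (-(3 * V ^ 2 + 9) / 4) + (3 * L + 3))
    (k2 : σ W = L * (-(3 * σ V ^ 2 + 9) / 4) + (3 * L + 3))
    (k3 : -(3 * V ^ 2 + 9) / 4 + -(3 * σ V ^ 2 + 9) / 4 = L ^ 2 / 4 - 4)
    (k4 : -(3 * V ^ 2 + 9) / 4 * (-(3 * σ V ^ 2 + 9) / 4) = -3 / 4 * L ^ 2 - 3 / 2 * L + 6)
    (j1 : W' = L' * (-(3 * V' ^ 2 + 9) / 4) + (3 * L' + 3))
    (j2 : σ W' = L' * (-(3 * σ V' ^ 2 + 9) / 4) + (3 * L' + 3))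
    (j3 : -(3 * V' ^ 2 + 9) / 4 + -(3 * σ V' ^ 2 + 9) / 4 = L' ^ 2 / 4 - 4)
    (j4 : -(3 * V' ^ 2 + 9) / 4 * (-(3 * σ V' ^ 2 + 9) / 4) = -3 / 4 * L' ^ 2 - 3 / 2 * L' + 6) :
    σ c = c := by
  obtain ⟨a1, r1⟩ := h.rho
  obtain ⟨a2, r2⟩ := (h.map σ).rho
  obtain ⟨a3, r3⟩ := h'.rho
  obtain ⟨a4, r4⟩ := (h'.map σ).rho
  rw [k1] at r1
  rw [k2] at r2
  rw [j1] at r3
  rw [j2] at r4
  have n1 := nrmR r1 r2 k3 k4
  have n2 := nrmR r3 r4 j3 j4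
  obtain ⟨t1, t2, t3⟩ := trAB rfl rfl rfl rfl r1 r2
  obtain ⟨s1, s2, s3⟩ := trAB rfl rfl rfl rfl r3 r4
  have fA : σ ((1 - V) * (1 - σ V)) = (1 - V) * (1 - σ V) := by simp [hσ, mul_comm]
  have fA' : σ ((1 - V') * (1 - σ V')) = (1 - V') * (1 - σ V') := by simp [hσ, mul_comm]
  have eA := (fifth' σ hfix (i := 0) (j := 0) (by norm_num) (by norm_num) fA' fA
    (mul_ne_zero a3 a4) (by
      generalize (1 - V) * (1 - σ V) = A at n1 ⊢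
      generalize (1 - V') * (1 - σ V') = A' at n2 ⊢
      generalize (6 + c + y) / 6 * ((6 + σ c + σ y) / 6) = R at n1 n2
      have m1 : R * A ^ 5 = 1024 := by linear_combination n1 / 81
      have m2 : R * A' ^ 5 = 1024 := by linear_combination n2 / 81
      linear_combination (A ^ 5 * m2 - A' ^ 5 * m1) / 1024)).2
  obtain ⟨q, hq⟩ := hfix _ fA
  rw [eA] at s1 s2 s3
  obtain ⟨eB, eL⟩ := pair3 hq t1 (t2.symm.trans k3) (t3.symm.trans k4) s1 (s2.symm.trans j3)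
    (s3.symm.trans j4)
  subst eL
  exact fin2 σ h h' hne eA eB k1 k2 j1

theorem P4 (σ : M →+* M) (hσ : ∀ z, σ (σ z) = z) (hfix : ∀ z, σ z = z → ∃ q : ℚ, z = q)
    {c y t x w V W t' x' w' V' W' L L' : M}
    (h : PtC 1 c y t x w V W) (h' : PtC 1 c y t' x' w' V' W') (hne : t ≠ t')
    (hρ : (6 + c + y) / 6 ≠ 0) (hL : σ L = L) (hL' : σ L' = L')
    (k1 : W = L * (-(3 * V ^ 2 + 9) / 4) + 9)
    (k2 : σ W = L * (-(3 * σ V ^ 2 + 9) / 4) + 9)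
    (k3 : -(3 * V ^ 2 + 9) / 4 + -(3 * σ V ^ 2 + 9) / 4 = L ^ 2 / 4 - 7)
    (k4 : -(3 * V ^ 2 + 9) / 4 * (-(3 * σ V ^ 2 + 9) / 4) = -9 / 2 * L + 18)
    (j1 : W' = L' * (-(3 * V' ^ 2 + 9) / 4) + 9)
    (j2 : σ W' = L' * (-(3 * σ V' ^ 2 + 9) / 4) + 9)
    (j3 : -(3 * V' ^ 2 + 9) / 4 + -(3 * σ V' ^ 2 + 9) / 4 = L' ^ 2 / 4 - 7)
    (j4 : -(3 * V' ^ 2 + 9) / 4 * (-(3 * σ V' ^ 2 + 9) / 4) = -9 / 2 * L' + 18) :
    σ c = c := by
  obtain ⟨a1, r1⟩ := h.rho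
  obtain ⟨a2, r2⟩ := (h.map σ).rho
  obtain ⟨a3, r3⟩ := h'.rho
  obtain ⟨a4, r4⟩ := (h'.map σ).rho
  rw [k1] at r1
  rw [k2] at r2
  rw [j1] at r3
  rw [j2] at r4
  have n1 := nrmR r1 r2 k3 k4
  have n2 := nrmR r3 r4 j3 j4
  obtain ⟨t1, t2, t3⟩ := trAB rfl rfl rfl rfl r1 r2
  obtain ⟨s1, s2, s3⟩ := trAB rfl rfl rfl rfl r3 r4
  have fA : σ ((1 - V) * (1 - σ V)) = (1 - V) * (1 - σ V) := by simp [hσ, mul_comm]
  have fA' : σ ((1 - V') * (1 - σ V')) = (1 - V') * (1 - σ V') := by simp [hσ, mul_comm]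
  have hρ' : (6 + σ c + σ y) / 6 ≠ 0 := by simpa [map_ofNat] using (map_ne_zero σ).2 hρ
  have hA := mul_ne_zero a1 a2
  have hA' := mul_ne_zero a3 a4
  obtain ⟨A, eA⟩ : ∃ A, A = (1 - V) * (1 - σ V) := ⟨_, rfl⟩
  obtain ⟨A', eA'⟩ : ∃ A', A' = (1 - V') * (1 - σ V') := ⟨_, rfl⟩
  obtain ⟨B, eB⟩ : ∃ B, B = (1 + V) * (1 + σ V) := ⟨_, rfl⟩
  obtain ⟨B', eB'⟩ : ∃ B', B' = (1 + V') * (1 + σ V') := ⟨_, rfl⟩
  rw [← eA] at n1 t1 t2 t3 fA hA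
  rw [← eA'] at n2 s1 s2 s3 fA' hA'
  rw [← eB] at t1 t2 t3
  rw [← eB'] at s1 s2 s3
  obtain ⟨f, rfl⟩ : ∃ f, L = 2 * f * A + 4 := ⟨(L - 4) / (2 * A), by field_simp; ring⟩
  obtain ⟨f', rfl⟩ : ∃ f', L' = 2 * f' * A' + 4 := ⟨(L' - 4) / (2 * A'), by field_simp; ring⟩
  have ff : ∀ f A : M, A ≠ 0 → σ A = A → σ (2 * f * A + 4) = 2 * f * A + 4 → σ f = f := by
    intro f A h0 h1 h2
    simp only [map_add, map_mul, map_ofNat, h1] at h2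
    exact mul_right_cancel₀ h0 (by linear_combination h2 / 2)
  have m1 : 81 * ((6 + c + y) / 6 * ((6 + σ c + σ y) / 6)) = -9216 * f ^ 5 :=
    mul_right_cancel₀ (pow_ne_zero 5 hA) (by linear_combination n1)
  have m2 : 81 * ((6 + c + y) / 6 * ((6 + σ c + σ y) / 6)) = -9216 * f' ^ 5 :=
    mul_right_cancel₀ (pow_ne_zero 5 hA') (by linear_combination n2)
  have f0 : f' ≠ 0 := by
    rintro rfl
    exact mul_ne_zero hρ hρ' (by linear_combination m2 / 81)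
  obtain rfl := (fifth' σ hfix (i := 0) (j := 0) (by norm_num) (by norm_num) (ff _ _ hA' fA' hL')
    (ff _ _ hA fA hL) f0 (by linear_combination (m2 - m1) / 9216)).2
  have b1 : B = 16 / 3 * f' * (f' * A + 1) := mul_left_cancel₀ hA
    (by linear_combination 16 / 9 * (k4 - t3) + 16 / 3 * (k3 - t2))
  have b2 : B' = 16 / 3 * f' * (f' * A' + 1) := mul_left_cancel₀ hA'
    (by linear_combination 16 / 9 * (j4 - s3) + 16 / 3 * (j3 - s2))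
  obtain ⟨q, hq⟩ := hfix _ (ff _ _ hA fA hL)
  obtain ⟨a, ha⟩ := hfix _ fA
  rw [b1] at t1 t2
  rw [b2] at s1 s2
  have e := pair4 hq ha hA hA' t1 (t2.symm.trans k3) s1 (s2.symm.trans j3)
  rw [e] at j1 b2
  exact fin2 σ h h' hne (by rw [← eA, ← eA', e]) (by rw [← eB, ← eB', b1, b2]) k1 k2 j1

theorem clsR (σ : M →+* M) (hσ : ∀ z, σ (σ z) = z)
    (hl : ∀ X W : M, σ X = X → σ W = W → W ^ 2 = 4 * X ^ 3 + 28 * X ^ 2 + 72 * X + 81 →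
      X = 0 ∨ X = -3) {c y t x w V W : M} (h : PtC 1 c y t x w V W) :
    ∃ (i : ℕ) (b : M), i < 5 ∧ σ b = b ∧
      81 * ((6 + c + y) / 6 * ((6 + σ c + σ y) / 6)) = 3 ^ i * b ^ 5 ∧
      ((i = 0 ∧ σ x = x) ∨ ∃ L m S N : M, σ L = L ∧ W = L * (-(3 * V ^ 2 + 9) / 4) + m ∧
        σ W = L * (-(3 * σ V ^ 2 + 9) / 4) + m ∧
        -(3 * V ^ 2 + 9) / 4 + -(3 * σ V ^ 2 + 9) / 4 = S ∧
        -(3 * V ^ 2 + 9) / 4 * (-(3 * σ V ^ 2 + 9) / 4) = N ∧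
        ((i = 3 ∧ m = -9 ∧ S = L ^ 2 / 4 - 7 ∧ N = 9 / 2 * L + 18) ∨
        (i = 1 ∧ m = 3 * L - 3 ∧ S = L ^ 2 / 4 - 4 ∧ N = -3 / 4 * L ^ 2 + 3 / 2 * L + 6) ∨
        (i = 4 ∧ m = 3 * L + 3 ∧ S = L ^ 2 / 4 - 4 ∧ N = -3 / 4 * L ^ 2 - 3 / 2 * L + 6) ∨
        (i = 2 ∧ m = 9 ∧ S = L ^ 2 / 4 - 7 ∧ N = -9 / 2 * L + 18))) := by
  obtain ⟨a1, r1⟩ := h.rho
  obtain ⟨a2, r2⟩ := (h.map σ).rho
  obtain ⟨e1, e2⟩ := h.ell
  push_cast at e1 e2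
  rw [mul_one] at e2
  rw [one_mul, e2] at e1
  have e3 : σ (-(3 * V ^ 2 + 9) / 4) = -(3 * σ V ^ 2 + 9) / 4 := by simp [map_ofNat]
  have fA : σ ((1 - V) * (1 - σ V)) = (1 - V) * (1 - σ V) := by simp [hσ, mul_comm]
  have hA := mul_ne_zero a1 a2
  have key : ∀ (i : ℕ) (b : M), 81 * ((6 + c + y) / 6 * ((6 + σ c + σ y) / 6)) *
      ((1 - V) * (1 - σ V)) ^ 5 = 3 ^ i * b ^ 5 → 81 * ((6 + c + y) / 6 * ((6 + σ c + σ y) / 6)) =
      3 ^ i * (b / ((1 - V) * (1 - σ V))) ^ 5 := by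
    intro i b k
    rw [div_pow, ← mul_div_assoc (3 ^ i), eq_div_iff (pow_ne_zero 5 hA), k]
  rcases cls σ hσ hl e1 with ⟨k1, k2⟩ | ⟨L, hL, k⟩
  · refine ⟨0, -4 * (-(3 * V ^ 2 + 9) / 4 + 3) / ((1 - V) * (1 - σ V)), by norm_num,
      by rw [map_div₀, fA, map_mul, map_add, k1]; simp [map_ofNat], key 0 _ ?_, Or.inl ⟨rfl, ?_⟩⟩
    · rw [e3] at k1
      rw [k1, k2] at r2
      linear_combination (9 * (1 - σ V) ^ 5 * ((6 + σ c + σ y) / 6)) * r1 +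
        (16 * ((-(3 * V ^ 2 + 9) / 4 + 4) * W + 5 * (-(3 * V ^ 2 + 9) / 4) + 18)) * r2 -
        256 * (-(3 * V ^ 2 + 9) / 4 + 4) ^ 2 * e1
    · rw [← e2] at k1
      have hx := h.1
      have hx' := (map_ne_zero σ).2 hx
      simp only [map_sub, map_div₀, map_ofNat] at k1
      field_simp at k1
      linear_combination -k1
  rw [e3] at k
  rcases k with ⟨k1, k2, k3, k4⟩ | ⟨k1, k2, k3, k4⟩ | ⟨k1, k2, k3, k4⟩ | ⟨k1, k2, k3, k4⟩
  · rw [sub_eq_add_neg] at k1 k2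
    refine ⟨3, 2 * (L + 2) / ((1 - V) * (1 - σ V)), by norm_num,
      by rw [map_div₀, fA]; simp [hL, map_ofNat], key 3 _ ?_,
      Or.inr ⟨L, _, _, _, hL, k1, k2, k3, k4, Or.inl ⟨rfl, rfl, rfl, rfl⟩⟩⟩
    rw [k1] at r1
    rw [k2] at r2
    linear_combination nrmR r1 r2 k3 k4
  · refine ⟨1, 2 * (L + 2) / ((1 - V) * (1 - σ V)), by norm_num,
      by rw [map_div₀, fA]; simp [hL, map_ofNat], key 1 _ ?_,
      Or.inr ⟨L, _, _, _, hL, k1, k2, k3, k4, Or.inr (Or.inl ⟨rfl, rfl, rfl, rfl⟩)⟩⟩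
    rw [k1] at r1
    rw [k2] at r2
    linear_combination nrmR r1 r2 k3 k4
  · refine ⟨4, 4 / ((1 - V) * (1 - σ V)), by norm_num,
      by rw [map_div₀, fA]; simp [map_ofNat], key 4 _ ?_,
      Or.inr ⟨L, _, _, _, hL, k1, k2, k3, k4, Or.inr (Or.inr (Or.inl ⟨rfl, rfl, rfl, rfl⟩))⟩⟩
    rw [k1] at r1
    rw [k2] at r2
    linear_combination nrmR r1 r2 k3 k4
  · refine ⟨2, -2 * (L - 4) / ((1 - V) * (1 - σ V)), by norm_num,
      by rw [map_div₀, fA]; simp [hL, map_ofNat], key 2 _ ?_,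
      Or.inr ⟨L, _, _, _, hL, k1, k2, k3, k4, Or.inr (Or.inr (Or.inr ⟨rfl, rfl, rfl, rfl⟩))⟩⟩
    rw [k1] at r1
    rw [k2] at r2
    linear_combination nrmR r1 r2 k3 k4

/-- **two rational octahedra on `X(s3)`** -/
theorem s3core (σ : M →+* M) (hσ : ∀ z, σ (σ z) = z) (hfix : ∀ z, σ z = z → ∃ q : ℚ, z = q)
    (hl : ∀ X W : M, σ X = X → σ W = W → W ^ 2 = 4 * X ^ 3 + 28 * X ^ 2 + 72 * X + 81 →
      X = 0 ∨ X = -3) {c y t x w V W t' x' w' V' W' : M} (hy : y ^ 2 = c ^ 2 + 12 * c + 144)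
    (h : PtC 1 c y t x w V W) (h' : PtC 1 c y t' x' w' V' W') (hne : t ≠ t') : σ c = c := by
  have hp : (6 + c + y) / 6 * ((6 + c + -y) / 6) = -3 := by linear_combination -hy / 36
  have hρ : (6 + c + y) / 6 ≠ 0 := left_ne_zero_of_mul (by rw [hp]; norm_num)
  have hρn : (6 + c + -y) / 6 ≠ 0 := right_ne_zero_of_mul (by rw [hp]; norm_num)
  have hρ' : (6 + σ c + σ y) / 6 ≠ 0 := by simpa [map_ofNat] using (map_ne_zero σ).2 hρ
  obtain ⟨i, b, hi, hb, k, r⟩ := clsR σ hσ hl h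
  obtain ⟨i', b', hi', hb', k', r'⟩ := clsR σ hσ hl h'
  have b0 : b ≠ 0 := by
    rintro rfl
    exact mul_ne_zero hρ hρ' (by linear_combination k / 81)
  obtain rfl := (fifth' σ hfix hi hi' hb hb' b0 (k.symm.trans k')).1
  rcases r with ⟨rfl, r⟩ | ⟨L, m, S, N, r0, r1, r2, r3, r4, r5⟩
  · rcases r' with ⟨-, r'⟩ | ⟨L, m, S, N, -, -, -, -, -, r5⟩
    · obtain ⟨q, hq⟩ := hfix (x + x') (by rw [map_add, r, r'])
      exact xcase σ h h' hne r r' hq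
    · omega
  rcases r' with ⟨rfl, -⟩ | ⟨L', m', S', N', s0, s1, s2, s3, s4, s5⟩
  · omega
  rcases r5 with ⟨rfl, rfl, rfl, rfl⟩ | ⟨rfl, rfl, rfl, rfl⟩ | ⟨rfl, rfl, rfl, rfl⟩ |
      ⟨rfl, rfl, rfl, rfl⟩ <;>
    rcases s5 with ⟨j, rfl, rfl, rfl⟩ | ⟨j, rfl, rfl, rfl⟩ | ⟨j, rfl, rfl, rfl⟩ |
      ⟨j, rfl, rfl, rfl⟩ <;>
    first
      | omega
      | skip
  · refine P4 σ hσ hfix h.neg h'.neg hne hρn (L := -L) (L' := -L') (by rw [map_neg, r0])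
      (by rw [map_neg, s0]) ?_ ?_ ?_ ?_ ?_ ?_ ?_ ?_ <;> try rw [map_neg]
    · linear_combination -r1
    · rw [map_neg]; linear_combination -r2
    · linear_combination r3
    · linear_combination r4
    · linear_combination -s1
    · rw [map_neg]; linear_combination -s2
    · linear_combination s3
    · linear_combination s4
  · refine P3 σ hσ hfix h.neg h'.neg hne (L := -L) (L' := -L') ?_ ?_ ?_ ?_ ?_ ?_ ?_ ?_ <;>
      try rw [map_neg]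
    · linear_combination -r1
    · rw [map_neg]; linear_combination -r2
    · linear_combination r3
    · linear_combination r4
    · linear_combination -s1
    · rw [map_neg]; linear_combination -s2
    · linear_combination s3
    · linear_combination s4
  · exact P3 σ hσ hfix h h' hne r1 r2 r3 r4 s1 s2 s3 s4
  · exact P4 σ hσ hfix h h' hne hρ r0 s0 r1 r2 r3 r4 s1 s2 s3 s4

/-- **two rational octahedra on `X(ns3)`** -/
theorem n3core (σ : M →+* M) (hσ : ∀ z, σ (σ z) = z) (hfix : ∀ z, σ z = z → ∃ q : ℚ, z = q)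
    (hm : ∀ X W : ℚ, -3 * W ^ 2 ≠ 4 * X ^ 3 + 28 * X ^ 2 + 72 * X + 81)
    {c y t x w V W t' x' w' V' W' : M}
    (h : PtC (-3) c y t x w V W) (h' : PtC (-3) c y t' x' w' V' W') (hne : t ≠ t') : σ c = c := by
  have key : ∀ {t x w V W : M}, PtC (-3) c y t x w V W → σ x = x := by
    intro t x w V W h
    by_contra k
    have hx := h.1
    have hx' := (map_ne_zero σ).2 hx
    obtain ⟨l, m, z, e1, e2, e3, -, -, -, -, -, e7⟩ := chord σ hσ (d := -3) (g3 := 4) (g2 := 28)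
      (g1 := 72) (g0 := 81) (by norm_num) (ε := 1) (by norm_num) (x := 3 / x - 3) (w := W)
      (by push_cast; have := h.ell.1; push_cast at this; linear_combination this) (by
        intro j
        simp only [map_sub, map_div₀, map_ofNat] at j
        field_simp at j
        exact k (by linear_combination -j))
    push_cast at e1 e2 e7
    rw [one_mul] at e1 e2
    obtain ⟨q, hq⟩ := hfix _ e3
    obtain ⟨p, hp⟩ := hfix (l * z + m) (by rw [map_add, map_mul, e1, e2, e3])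
    rw [hp, hq] at e7
    exact hm q p (Rat.cast_injective (α := M) (by push_cast; linear_combination e7))
  obtain ⟨q, hq⟩ := hfix (x + x') (by rw [map_add, key h, key h'])
  exact xcase σ h h' hne (key h) (key h') hq

end Vale.Agent.Q017B
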