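import Vale.Agent.Q017B.I

/-!
# Two octahedra conjugate over `K(√5)`, and the final rows
-/

set_option linter.all false

namespace Vale.Agent.Q017B

open NumberField Vale.Agent.Q017A

section core
variable {M : Type*} [Field M] [CharZero M]

theorem fixz (σ τ : M →+* M) (hτ : ∀ z, τ (τ z) = z) (hc : ∀ z, σ (τ z) = τ (σ z))
    {d g3 g2 g1 g0 : ℚ} (h3 : g3 ≠ 0) {ε : ℚ} (hε : ε = 1 ∨ ε = -1)
    (hno : ∀ z w : M, σ z = z → σ w = w → τ z = z → τ w = ε * w →
      d * w ^ 2 ≠ g3 * z ^ 3 + g2 * z ^ 2 + g1 * z + g0) (hd : d ≠ 0)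
    {z w : M} (hz : σ z = z) (hw : σ w = w) (h : d * w ^ 2 = g3 * z ^ 3 + g2 * z ^ 2 + g1 * z + g0) :
    τ z = z ∧ τ w = -ε * w := by
  have h1 : τ z = z := by
    by_contra k
    obtain ⟨l, m, u, e1, e2, e3, e, el, e4, -, -, e7⟩ := chord τ hτ h3 (ε := ε)
      (by rcases hε with rfl | rfl <;> norm_num) h k
    have f1 : σ l = l := by rw [el]; simp [hc, hz, hw]
    have f2 : σ m = m := by
      have := congrArg σ e
      rw [map_add, map_mul, hw, f1, hz] at this
      linear_combination e - this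
    have f3 : σ u = u := by
      have := congrArg σ e4
      simp only [map_add, map_sub, map_mul, map_pow, map_ratCast, hc, hz, f1] at this
      have h3' : (g3 : M) ≠ 0 := by exact_mod_cast h3
      exact mul_left_cancel₀ h3' (by linear_combination this - e4)
    exact hno u (l * u + m) f3 (by rw [map_add, map_mul, f1, f2, f3]) e3
      (by rw [map_add, map_mul, e1, e2, e3]; ring) e7
  refine ⟨h1, ?_⟩
  have k := congrArg τ h
  simp only [map_add, map_mul, map_pow, map_ratCast, h1] at k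
  have hd' : (d : M) ≠ 0 := by exact_mod_cast hd
  have e : (τ w - ε * w) * (τ w + ε * w) = 0 := by
    apply mul_left_cancel₀ hd'
    rcases hε with rfl | rfl <;> push_cast <;> linear_combination k - h
  rcases mul_eq_zero.1 e with j | j
  · exact absurd h (hno z w hz hw h1 (by linear_combination j))
  · linear_combination j

theorem no_plus (σ τ : M →+* M) (hfix : ∀ z, σ z = z → τ z = z → ∃ q : ℚ, z = q)
    {d g3 g2 g1 g0 : ℚ} (hno : ∀ z w : ℚ, d * w ^ 2 ≠ g3 * z ^ 3 + g2 * z ^ 2 + g1 * z + g0)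
    (z w : M) (h1 : σ z = z) (h2 : σ w = w) (h3 : τ z = z) (h4 : τ w = (1 : ℚ) * w) :
    d * w ^ 2 ≠ g3 * z ^ 3 + g2 * z ^ 2 + g1 * z + g0 := by
  obtain ⟨q, rfl⟩ := hfix z h1 h3
  obtain ⟨p, rfl⟩ := hfix w h2 (by simpa using h4)
  exact fun h => hno q p (by exact_mod_cast h)

theorem no_minus (σ τ : M →+* M) (hfix : ∀ z, σ z = z → τ z = z → ∃ q : ℚ, z = q)
    {r : M} (hr : r ^ 2 = 5) (r1 : σ r = r) (r2 : τ r = -r)
    {d g3 g2 g1 g0 : ℚ} (hno : ∀ z w : ℚ, 5 * d * w ^ 2 ≠ g3 * z ^ 3 + g2 * z ^ 2 + g1 * z + g0)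
    (z w : M) (h1 : σ z = z) (h2 : σ w = w) (h3 : τ z = z) (h4 : τ w = (-1 : ℚ) * w) :
    d * w ^ 2 ≠ g3 * z ^ 3 + g2 * z ^ 2 + g1 * z + g0 := by
  obtain ⟨q, rfl⟩ := hfix z h1 h3
  obtain ⟨p, hp⟩ := hfix (w * r) (by rw [map_mul, h2, r1]) (by rw [map_mul, h4, r2]; push_cast; ring)
  refine fun h => hno q (p / 5) (Rat.cast_injective (α := M) ?_)
  push_cast
  rw [← hp]
  linear_combination h + d * w ^ 2 / 5 * hr

theorem cubic_ext {a b c : M} (h : ∀ z : M, z ^ 3 + a * z ^ 2 + b * z + c ≠ 0) :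
    ∃ θ : AlgebraicClosure M, θ ^ 3 + algebraMap M _ a * θ ^ 2 + algebraMap M _ b * θ +
      algebraMap M _ c = 0 ∧ ∀ p q s : M, algebraMap M _ p * θ ^ 2 + algebraMap M _ q * θ +
      algebraMap M _ s = 0 → p = 0 ∧ q = 0 ∧ s = 0 := by
  obtain ⟨φ, hφ⟩ : ∃ φ, φ = algebraMap M (AlgebraicClosure M) := ⟨_, rfl⟩
  rw [← hφ]
  obtain ⟨θ, hθ⟩ := IsAlgClosed.exists_root (Polynomial.X ^ 3 + Polynomial.C (φ a) * Polynomial.X ^ 2 +
    Polynomial.C (φ b) * Polynomial.X + Polynomial.C (φ c)) (by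
      have : (Polynomial.X ^ 3 + Polynomial.C (φ a) * Polynomial.X ^ 2 +
        Polynomial.C (φ b) * Polynomial.X + Polynomial.C (φ c)).degree = 3 := by compute_degree!
      rw [this]; norm_num)
  simp only [Polynomial.IsRoot, Polynomial.eval_add, Polynomial.eval_mul, Polynomial.eval_pow,
    Polynomial.eval_X, Polynomial.eval_C] at hθ
  have lin : ∀ q s : M, φ q * θ + φ s = 0 → q = 0 ∧ s = 0 := by
    intro q s k
    have hq : q = 0 := by
      by_contra j
      have j' : φ q ≠ 0 := (map_ne_zero φ).2 j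
      have e : θ = φ (-s / q) := by rw [map_div₀, map_neg]; field_simp; linear_combination k
      apply h (-s / q)
      apply φ.injective
      rw [e] at hθ
      simpa using hθ
    rw [hq, map_zero, zero_mul, zero_add] at k
    exact ⟨hq, (map_eq_zero φ).1 k⟩
  refine ⟨θ, hθ, fun p q s k => ?_⟩
  have hp : p = 0 := by
    by_contra j
    have j' : φ p ≠ 0 := (map_ne_zero φ).2 j
    obtain ⟨u, rfl⟩ : ∃ u, q = p * u := ⟨q / p, by field_simp⟩
    obtain ⟨v, rfl⟩ : ∃ v, s = p * v := ⟨s / p, by field_simp⟩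
    have k' : θ ^ 2 + φ u * θ + φ v = 0 :=
      mul_left_cancel₀ j' (by rw [map_mul, map_mul] at k; linear_combination k)
    obtain ⟨e1, e2⟩ := lin (b - v - u * (a - u)) (c - v * (a - u)) (by
      simp only [map_sub, map_mul]
      linear_combination hθ - (θ + φ a - φ u) * k')
    exact h (u - a) (by linear_combination (u - a) * e1 + e2)
  rw [hp, map_zero, zero_mul, zero_add] at k
  exact ⟨hp, lin q s k⟩

theorem kum {Ω : Type*} [Field Ω] (φ : M →+* Ω) {θ : Ω} (hθ : θ ^ 3 + θ ^ 2 + 27 * θ + 243 = 0)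
    {d U U' l m z l' m' z' n : M} (hU : U ≠ 0) (hU' : U' ≠ 0) (hd : d ≠ 0)
    (hn : U * U' = 9 * d ^ 2 * n ^ 2)
    (e4 : U + U' + z = 16 * d * l ^ 2 - 1) (e5 : U * U' + (U + U') * z = 27 - 2 * (16 * d) * l * m)
    (e6 : U * U' * z = 16 * d * m ^ 2 - 243)
    (f4 : 243 * (1 / U + 1 / U' + z') = -3 * l' ^ 2 - 27)
    (f5 : 243 * (1 / U * (1 / U') + (1 / U + 1 / U') * z') = 1 - 2 * (-3) * l' * m')
    (f6 : 243 * (1 / U * (1 / U') * z') = -3 * m' ^ 2 - 1) :
    -144 * (φ l * θ + φ m) ^ 2 * (1 - φ z' * θ) =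
      φ d * (θ * (θ - φ z)) * (φ n * (φ l' + φ m' * θ)) ^ 2 := by
  have g4 : 243 * (U + U' + U * U' * z') = U * U' * (-3 * l' ^ 2 - 27) := by
    rw [← f4]; field_simp; ring
  have g5 : 243 * (1 + (U + U') * z') = U * U' * (1 + 6 * l' * m') := by
    rw [show 1 + 6 * l' * m' = 1 - 2 * (-3) * l' * m' by ring, ← f5]; field_simp; ring
  have g6 : 243 * z' = U * U' * (-3 * m' ^ 2 - 1) := by rw [← f6]; field_simp
  have a4 := congrArg φ e4
  have a5 := congrArg φ e5
  have a6 := congrArg φ e6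
  have b4 := congrArg φ g4
  have b5 := congrArg φ g5
  have b6 := congrArg φ g6
  have an := congrArg φ hn
  simp only [map_add, map_sub, map_mul, map_pow, map_neg, map_ofNat, map_one] at a4 a5 a6 b4 b5 b6 an
  have h27 : φ (27 * d) ≠ 0 := (map_ne_zero φ).2 (mul_ne_zero (by norm_num) hd)
  rw [map_mul, map_ofNat] at h27
  have i1 : -16 * φ d * (φ l * θ + φ m) ^ 2 = (θ - φ U) * (θ - φ U') * (θ - φ z) := by
    linear_combination -hθ + θ ^ 2 * a4 - θ * a5 + a6
  have i2 : 3 * θ * (φ l' + φ m' * θ) ^ 2 * (φ U * φ U') =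
      243 * ((θ - φ U) * (θ - φ U')) * (1 - φ z' * θ) := by
    linear_combination -(φ U * φ U') * hθ + θ * b4 - θ ^ 2 * b5 + θ ^ 3 * b6
  apply mul_left_cancel₀ h27
  linear_combination 243 * (1 - φ z' * θ) * i1 - (θ - φ z) * i2 +
    3 * θ * (φ l' + φ m' * θ) ^ 2 * (θ - φ z) * an

/-- **two conjugate octahedra on `X(s3)` or `X(ns3)`** -/
theorem betacore (σ τ : M →+* M) (hσ : ∀ z, σ (σ z) = z) (hτ : ∀ z, τ (τ z) = z)
    (hc : ∀ z, σ (τ z) = τ (σ z)) (hfix : ∀ z, σ z = z → τ z = z → ∃ q : ℚ, z = q)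
    {r : M} (hr : r ^ 2 = 5) (r1 : σ r = r) {d : ℚ} (hd : d ≠ 0)
    (hA : ∀ z w : M, σ z = z → σ w = w → 16 * d * w ^ 2 = z ^ 3 + z ^ 2 + 27 * z + 243 → τ z = z)
    (hB : ∀ z w : M, σ z = z → σ w = w → -3 * w ^ 2 = 243 * z ^ 3 + 27 * z ^ 2 + z + 1 → τ z = z)
    {c y t x w V W : M} (h : PtC d c y t x w V W) (c1 : τ c = c) (y1 : τ y = y) (hne : t ≠ τ t) :
    σ c = c := by
  have h' := h.map τ
  rw [c1, y1] at h'
  by_cases hx : σ x = x
  · obtain ⟨q, hq⟩ := hfix (x + τ x) (by rw [map_add, hc, hx]) (by rw [map_add, hτ, add_comm])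
    exact xcase σ h h' hne hx (by rw [hc, hx]) hq
  have hd' : (d : M) ≠ 0 := by exact_mod_cast hd
  have x0 := h.1
  obtain ⟨U, hU⟩ : ∃ U, U = -3 * d * V ^ 2 := ⟨_, rfl⟩
  have eU : x * (U + 3) = 12 := by rw [hU]; linear_combination 3 * h.2.2.2.2.2.1
  have inj : ∀ ρ ρ' : M →+* M, ρ U = ρ' U → ρ x = ρ' x := by
    intro ρ ρ' k
    have k1 := congrArg ρ eU
    have k2 := congrArg ρ' eU
    simp only [map_add, map_mul, map_ofNat] at k1 k2
    rw [k] at k1
    refine mul_right_cancel₀ (fun j => ?_) (k1.trans k2.symm)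
    rw [j] at k1
    norm_num at k1
  have hUσ : σ U ≠ U := fun k => hx (inj σ (RingHom.id M) k)
  have U0 : U ≠ 0 := by
    rintro rfl
    exact hUσ (map_zero σ)
  have U0' : σ U ≠ 0 := (map_ne_zero σ).2 U0
  have eH : 16 * d * W ^ 2 = U ^ 3 + U ^ 2 + 27 * U + 243 := by
    obtain ⟨e1, e2⟩ := h.ell
    rw [e2] at e1
    rw [hU]; linear_combination 16 * e1
  have nH := no_root σ τ hσ hτ hc hfix (a := 1) (b := 27) (c := 243) cubH
  obtain ⟨l, m, z, e1, e2, e3, e, -, e4, e5, e6, e7⟩ := chord σ hσ (d := 16 * d) (g3 := 1) (g2 := 1)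
    (g1 := 27) (g0 := 243) one_ne_zero (ε := 1) (by norm_num) (x := U) (w := W)
    (by push_cast; linear_combination eH) hUσ
  obtain ⟨l', m', z', f1, f2, f3, -, -, f4, f5, f6, f7⟩ := chord σ hσ (d := -3) (g3 := 243) (g2 := 27)
    (g1 := 1) (g0 := 1) (by norm_num) (ε := 1) (by norm_num) (x := 1 / U)
    (w := 4 * d * V * W / U ^ 2) (by
      push_cast
      field_simp
      linear_combination U * eH - 16 * d * W ^ 2 * hU) (by
      rw [map_div₀, map_one]
      intro k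
      field_simp at k
      exact hUσ k.symm)
  push_cast at e1 e2 e4 e5 e6 e7 f1 f2 f4 f5 f6 f7 nH
  rw [one_mul] at e1 e2 e4 e5 e6 f1 f2
  rw [map_div₀, map_one] at f4 f5 f6
  have z1 : τ z = z := hA z (l * z + m) e3 (by rw [map_add, map_mul, e1, e2, e3])
    (by linear_combination e7)
  have z2 : τ z' = z' := hB z' (l' * z' + m') f3 (by rw [map_add, map_mul, f1, f2, f3])
    (by linear_combination f7)
  have hn : U * σ U = 9 * d ^ 2 * (V * σ V) ^ 2 := by
    rw [hU]; simp only [map_mul, map_pow, map_neg, map_ofNat, map_ratCast]; ring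
  obtain ⟨n, hn'⟩ : ∃ n, n = V * σ V := ⟨_, rfl⟩
  rw [← hn'] at hn
  have n0 : n ≠ 0 := by
    rintro rfl
    exact mul_ne_zero U0 U0' (by rw [hn]; ring)
  obtain ⟨θ, hθ, ind⟩ := cubic_ext nH
  obtain ⟨φ, hφ⟩ : ∃ φ, φ = algebraMap M (AlgebraicClosure M) := ⟨_, rfl⟩
  rw [← hφ] at hθ ind
  simp only [map_one, map_ofNat, one_mul] at hθ
  have t4 := congrArg τ e4
  have t5 := congrArg τ e5
  have t6 := congrArg τ e6
  have t7 := congrArg τ e7
  have s4 := congrArg τ f4
  have s5 := congrArg τ f5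
  have s6 := congrArg τ f6
  have tn := congrArg τ hn
  simp only [map_add, map_sub, map_mul, map_pow, map_neg, map_div₀, map_ofNat, map_one, map_ratCast,
    z1, z2] at t4 t5 t6 t7 s4 s5 s6 tn
  have K4 := kum φ hθ U0 U0' hd' hn e4 e5 e6 f4 f5 f6
  have K5 := kum φ hθ ((map_ne_zero τ).2 U0) ((map_ne_zero τ).2 U0') hd' tn t4 t5 t6 s4 s5 s6
  have R0 : φ d * (θ * (θ - φ z)) ≠ 0 := fun k =>
    hd' (ind d (-(d * z)) 0 (by simp only [map_neg, map_mul, map_zero]; linear_combination k)).1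
  have w0 : l * z + m ≠ 0 := fun k => nH z (by rw [k] at e7; linear_combination -e7)
  have D0 : l * τ m - τ l * m = 0 := by
    by_contra D0
    have l0 : l ≠ 0 := by
      rintro rfl
      simp at D0
    have key : ∀ ε : M, φ (τ l * n * m' - ε * (l * τ n * τ m')) * θ ^ 2 +
        φ (n * (τ l * l' + τ m * m') - ε * (τ n * (l * τ l' + m * τ m'))) * θ +
        φ (τ m * n * l' - ε * (m * τ n * τ l')) = 0 → False := by
      intro ε k
      obtain ⟨k2, k1, k0⟩ := ind _ _ _ k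
      have e8 : l' * l - m' * m = 0 := mul_left_cancel₀ (mul_ne_zero D0 n0)
        (by linear_combination m ^ 2 * k2 - l * m * k1 + l ^ 2 * k0)
      obtain ⟨a, rfl⟩ : ∃ a, m' = a * l := ⟨m' / l, by field_simp⟩
      obtain rfl : l' = a * m := mul_right_cancel₀ l0 (by linear_combination e8)
      have L0 : φ l * θ + φ m ≠ 0 := fun j => l0 (ind 0 l m (by simpa using j)).2.1
      have := (ind (d * (n * a) ^ 2) (-(d * z * (n * a) ^ 2) - 144 * z') 144 (by
        apply mul_left_cancel₀ (pow_ne_zero 2 L0)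
        simp only [map_sub, map_neg, map_mul, map_pow, map_ofNat] at K4 ⊢
        linear_combination -K4)).2.2
      norm_num at this
    have sq : ((φ (τ l) * θ + φ (τ m)) * (φ n * (φ l' + φ m' * θ))) ^ 2 =
        ((φ l * θ + φ m) * (φ (τ n) * (φ (τ l') + φ (τ m') * θ))) ^ 2 := mul_left_cancel₀ R0
      (by linear_combination (φ l * θ + φ m) ^ 2 * K5 - (φ (τ l) * θ + φ (τ m)) ^ 2 * K4)
    rcases sq_eq_sq_iff_eq_or_eq_neg.1 sq with k | k
    · exact key 1 (by simp only [map_add, map_sub, map_mul, map_one]; linear_combination k)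
    · exact key (-1) (by simp only [map_add, map_sub, map_mul, map_neg, map_one]; linear_combination k)
  have o1 : (τ l * z + τ m) ^ 2 = (l * z + m) ^ 2 :=
    mul_left_cancel₀ (mul_ne_zero (by norm_num : (16 : M) ≠ 0) hd') (by linear_combination t7 - e7)
  have o2 : τ l ^ 2 = l ^ 2 := mul_right_cancel₀ (pow_ne_zero 2 w0) (by
    linear_combination l ^ 2 * o1 - (τ l * (l * z + m) + l * (τ l * z + τ m)) * D0)
  have o3 : τ l * τ m = l * m := mul_right_cancel₀ (pow_ne_zero 2 w0) (by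
    linear_combination l * m * o1 + (l * (τ l * z + τ m) * z - τ m * (l * z + m)) * D0)
  have o4 : (τ U - U) * (τ U - σ U) = 0 := by
    linear_combination (τ U + z) * (t4 - e4) - (t5 - e5) + 16 * d * (τ U + z) * o2 + 32 * d * o3
  rcases mul_eq_zero.1 o4 with k | k
  · have k' : τ x = x := inj τ (RingHom.id M) (sub_eq_zero.1 k)
    rw [k'] at h'
    rcases fibre h h' with j | ⟨j, -⟩
    · exact absurd (by rw [h'.2.2.2.1, j]; exact h.2.2.2.1) hne
    have w1 : τ w - w ≠ 0 := fun i => hne (by rw [h'.2.2.2.1, sub_eq_zero.1 i]; exact h.2.2.2.1)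
    have : (x + 3) * ((2 * x - 3 - r) * (2 * x - 3 + r)) = 0 := by
      apply mul_left_cancel₀ w1
      have a1 := h.2.2.2.2.1
      have a2 := h'.2.2.2.2.1
      rw [h.2.2.2.1] at a1
      rw [h'.2.2.2.1] at a2
      linear_combination 4 * a1 - 4 * a2 - 4 * x * (τ w - w) * j - (τ w - w) * (x + 3) * hr
    exfalso
    apply hx
    rcases mul_eq_zero.1 this with i | i
    · rw [show x = -3 by linear_combination i]; simp [map_ofNat]
    rcases mul_eq_zero.1 i with i | i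
    · rw [show x = (3 + r) / 2 by linear_combination i / 2]; simp [map_ofNat, r1]
    · rw [show x = (3 - r) / 2 by linear_combination i / 2]; simp [map_ofNat, r1]
  · have k' : τ x = σ x := inj τ σ (sub_eq_zero.1 k)
    rw [k'] at h'
    have hs := h.map σ
    rcases fibre h' hs with j | ⟨-, j1, j2⟩
    · rw [hs.2.2.2.2.1, hs.2.2.2.1, h'.2.2.2.2.1, h'.2.2.2.1, j]
    have i1 := congrArg σ j1
    have i2 := congrArg σ j2
    simp only [map_add, map_sub, map_mul, map_pow, map_neg, map_ofNat, hσ] at i1 i2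
    obtain ⟨q, hq⟩ := hfix (x + σ x) (by rw [map_add, hσ, add_comm])
      (by rw [map_add, ← hc, k', hσ, add_comm])
    exact (sextic (Ne.symm hx) hq (by linear_combination j1 - i1)
      (by linear_combination j2 - i2)).elim

end core

end Vale.Agent.Q017B
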